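import Vale.Agent.P073Z.Sv.Sk
import Vale.Agent.P073Z.Sm.ST

/-!
# P073, smoothing for all exponents, block CONE: cones and labels near a vertex
-/

open Set Metric MeasureTheory Topology Filter

noncomputable section

namespace Vale.Agent.P073Z.Sv

open Vale.Agent.P073Z.Sm

namespace CONE

variable {g G : E → E} {v y : E} {r t : ℝ}

theorem norm_hom (v y : E) (ht : 0 ≤ t) : ‖v + t • (y - v) - v‖ = t * ‖y - v‖ := by
  rw [add_sub_cancel_left, norm_smul, Real.norm_eq_abs, abs_of_nonneg ht]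

theorem hom_mem (hy : y ∈ ball v r) (ht : t ∈ Ioc (0 : ℝ) 1) : v + t • (y - v) ∈ ball v r := by
  rw [mem_ball, dist_eq_norm] at hy ⊢
  rw [norm_hom v y ht.1.le]
  exact lt_of_le_of_lt (mul_le_of_le_one_left (norm_nonneg _) ht.2) hy

theorem hom_inv (v z : E) (ht : 0 < t) : v + t • (v + t⁻¹ • (z - v) - v) = z := by
  rw [add_sub_cancel_left, smul_smul, mul_inv_cancel₀ ht.ne', one_smul, add_sub_cancel]

theorem inv_hom (v z : E) (ht : 0 < t) : v + t⁻¹ • (v + t • (z - v) - v) = z := by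
  rw [add_sub_cancel_left, smul_smul, inv_mul_cancel₀ ht.ne', one_smul, add_sub_cancel]

theorem coneAt_of (hr : 0 < r) (h : ConeMap g v r) : ConeAt g v := by
  refine ⟨r / 2, half_pos hr, fun w hw t ht => ?_⟩
  rcases ht.1.eq_or_lt with rfl | h0
  · simp
  · have h1 : v + w ∈ ball v r := by
      rw [mem_ball, dist_eq_norm, add_sub_cancel_left]
      linarith
    have h2 := h _ h1 t ⟨h0, ht.2⟩
    rwa [add_sub_cancel_left] at h2

theorem radius (g : E → E) (v : E) : ConeAt g v ↔ ∃ r : ℝ, 0 < r ∧ ConeMap g v r := by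
  refine ⟨fun ⟨r, hr, h⟩ => ⟨r, hr, fun y hy t ht => ?_⟩, fun ⟨r, hr, h⟩ => coneAt_of hr h⟩
  rw [mem_ball, dist_eq_norm] at hy
  have h1 := h (y - v) hy.le t ⟨ht.1.le, ht.2⟩
  rwa [add_sub_cancel] at h1

/-- a cone map agrees with its tangent cone map on the whole ball -/
theorem tan_eq (h : ConeMap g v r) (hy : y ∈ ball v r) : tanM g v y = g y := by
  have hv := coneAt_of (pos_of_mem_ball hy) h
  obtain ⟨s, hs, h1, h2⟩ := ST.exists_pos (((ST.tendsto_hom v y).eventually (ST.ev_tan hv)).and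
    (gt_mem_nhds (zero_lt_one' ℝ)))
  rw [ST.cone_tan hv y s hs.le, h y hy s ⟨hs, h2.le⟩, ST.tan_self hv] at h1
  have h3 := smul_right_injective E hs.ne' (add_left_cancel h1)
  exact sub_left_injective h3

theorem tan_ev (h : ConeMap g v r) (hy : y ∈ ball v r) : tanM g v =ᶠ[𝓝 y] g := by
  filter_upwards [isOpen_ball.mem_nhds hy] with z hz using tan_eq h hz

theorem lab_cone (h : ConeMap g v r) (hy : y ∈ ball v r) (hc : ConeAt g y) :
    y - v ∈ Lin g y ∧ tanM g y v = g v ∧
      (∀ (z : E) (t : ℝ), 0 ≤ t → tanM g y (v + t • (z - v)) = g v + t • (tanM g y z - g v)) ∧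
      ∀ t ∈ Ioc (0 : ℝ) 1, Lin g (v + t • (y - v)) = Lin g y ∧
        lab g (v + t • (y - v)) = lab g y := by
  have hv := coneAt_of (pos_of_mem_ball hy) h
  have hT := ST.cone_tan hv
  have e := tan_ev h hy
  have hy' : ConeAt (tanM g v) y := ST.germ_cone e.symm hc
  have h1 := hT.radial hy'
  have h2 := hT.tan_apex hy'
  have e1 := ST.germ_tan e
  rw [e1] at h1 h2
  rw [ST.tan_self hv] at h2
  have h3 : y - v ∈ Lin g y := (ST.lin_iff hc).2 ⟨_, h1⟩
  have h4 : ST.Cone (tanM g y) v := by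
    have := (ST.cone_tan hc).shift h1 (-1)
    rwa [show y + (-1 : ℝ) • (y - v) = v by module] at this
  refine ⟨h3, h2, fun z t ht => by rw [h4 z t ht, h2], fun t ht => ?_⟩
  have h0 : ST.Tr (tanM g v) 0 0 := fun y t => by simp
  obtain ⟨h5, h6⟩ := hT.move hy' h0 ht.1
  rw [add_zero] at h5 h6
  have e' := tan_ev h (hom_mem hy ht)
  rw [ST.germ_tan e', e1] at h6
  have h7 := ST.lin_of_tan (ST.germ_cone e' h5) hc h6
  refine ⟨h7, ST.lab_eq h6 h7 ?_⟩
  rw [show v + t • (y - v) - y = (t - 1) • (y - v) by module]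
  exact Submodule.smul_mem _ _ h3

theorem agree (h : ConeMap g v r)
    (hG : ∀ (z : E) (t : ℝ), 0 ≤ t → G (v + t • (z - v)) = g v + t • (G z - g v)) :
    ConeSet {y | g =ᶠ[𝓝 y] G} v r := by
  intro y hy t ht
  constructor
  · intro h1
    have h2 : Tendsto (fun z : E => v + t • (z - v)) (𝓝 y) (𝓝 (v + t • (y - v))) :=
      (by fun_prop : Continuous fun z : E => v + t • (z - v)).tendsto y
    filter_upwards [h2.eventually h1, isOpen_ball.mem_nhds hy] with z h3 h4
    rw [h z h4 t ht, hG z t ht.1.le] at h3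
    exact sub_left_injective (smul_right_injective E ht.1.ne' (add_left_cancel h3))
  · intro h1
    have h2 : Tendsto (fun z : E => v + t⁻¹ • (z - v)) (𝓝 (v + t • (y - v))) (𝓝 y) := by
      have h3 := (by fun_prop : Continuous fun z : E => v + t⁻¹ • (z - v)).tendsto
        (v + t • (y - v))
      rwa [inv_hom v y ht.1] at h3
    filter_upwards [h2.eventually h1, h2.eventually (isOpen_ball.mem_nhds hy)] with z h3 h4
    rw [← hom_inv v z ht.1, h _ h4 t ht, hG _ t ht.1.le, h3]

theorem dist_cone {Z : Set E} (hv : v ∈ Z) (h : ConeSet Z v r) :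
    SupFn (fun y => infDist y Z) univ v (r / 2) := by
  intro y hy _ t ht
  rw [mem_ball, dist_eq_norm] at hy
  refine (le_infDist ⟨v, hv⟩).2 fun z hz => ?_
  by_cases h1 : ‖z - v‖ < t * r
  · have h2 : v + t⁻¹ • (z - v) ∈ ball v r := by
      rw [mem_ball, dist_eq_norm, norm_hom v z (inv_pos.2 ht.1).le, inv_mul_lt_iff₀ ht.1]
      exact h1
    have h3 := (h _ h2 t ht).1 (by rwa [hom_inv v z ht.1])
    have h4 : v + t • (y - v) - z = t • (y - (v + t⁻¹ • (z - v))) := by
      rw [smul_sub t y (v + _), smul_add, smul_smul, mul_inv_cancel₀ ht.1.ne']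
      module
    rw [dist_eq_norm, h4, norm_smul, Real.norm_eq_abs, abs_of_pos ht.1, ← dist_eq_norm]
    exact mul_le_mul_of_nonneg_left (infDist_le_dist_of_mem h3) ht.1.le
  · have h2 : infDist y Z ≤ ‖y - v‖ := by
      rw [← dist_eq_norm]
      exact infDist_le_dist_of_mem hv
    have h3 := dist_triangle z (v + t • (y - v)) v
    rw [dist_eq_norm z v, dist_eq_norm _ v, norm_hom v y ht.1.le, dist_comm] at h3
    have h4 := mul_le_mul_of_nonneg_left h2 ht.1.le
    have h5 := mul_le_mul_of_nonneg_left hy.le ht.1.le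
    have h6 := not_lt.1 h1
    linarith

end CONE

theorem blockCONE : StmtCONE where
  dist _ _ _ hv h := CONE.dist_cone hv h
  lab _ _ _ h hc y hy hne := CONE.lab_cone h hy (hc y hy hne)
  agree _ _ _ _ h hG := CONE.agree h hG
  radius := CONE.radius

end Vale.Agent.P073Z.Sv
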