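import Vale.Agent.P073Z.Sv.Sk
import Vale.Agent.P073Z.Sm.EDGE
import Vale.Agent.P073Z.Sm.ST
import Vale.Agent.P073Z.Sm.T
import Vale.Agent.P073Z.Sm.MIN
import Vale.Agent.P073Z.Sm.PATCH

/-!
# P073, smoothing for all exponents: block EDGEH (smoothing along all edges, homogeneous near
the vertices)
-/

open Set Metric MeasureTheory Topology Filter
open scoped ContDiff ENNReal NNReal RealInnerProductSpace

noncomputable section

namespace Vale.Agent.P073Z.Sv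

open Vale.Agent.P073Z.Sm Vale.Agent.P073Z.Sm.EDGE

namespace EDGEH

theorem mem_ball_scale {v y : E} {r t : ℝ} (hy : y ∈ ball v r) (ht : t ∈ Ioc (0 : ℝ) 1) :
    v + t • (y - v) ∈ ball v r := by
  rw [mem_ball, dist_eq_norm] at hy ⊢
  rw [add_sub_cancel_left, norm_smul, Real.norm_eq_abs, abs_of_pos ht.1]
  nlinarith [norm_nonneg (y - v), ht.1, ht.2]

theorem sc_scale (x0 e y z : E) (s : ℝ) :
    sc x0 e (y + s • (z - y)) = sc x0 e y + s • (sc x0 e z - sc x0 e y) := by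
  have h3 : y + s • (z - y) - x0 = (y - x0) + s • ((z - x0) - (y - x0)) := by module
  rw [sc, sc, sc, h3, inner_add_right, inner_smul_right, inner_sub_right (𝕜 := ℝ) e (z - x0),
    smul_eq_mul]

theorem dist_sc {x0 e : E} (he : ‖e‖ = 1) (y v : E) :
    dist (sc x0 e y) (sc x0 e v) ≤ dist y v := by
  have h1 : sc x0 e y - sc x0 e v = ⟪e, y - v⟫ := by
    rw [sc, sc, ← inner_sub_right, sub_sub_sub_cancel_right]
  rw [Real.dist_eq, h1, dist_eq_norm]
  simpa [he] using abs_real_inner_le_norm e (y - v)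

theorem tube_iff {x0 e v y : E} {ρ : ℝ → ℝ} {R t c : ℝ} (he : ‖e‖ = 1) (hv : rc x0 e v = 0)
    (hρ : HomFn ρ (sc x0 e v) R) (hy : y ∈ ball v R) (ht : t ∈ Ioc (0 : ℝ) 1) :
    v + t • (y - v) ∈ tube x0 e ρ c ↔ y ∈ tube x0 e ρ c := by
  have h1 := hρ (sc x0 e y) ((dist_sc he y v).trans_lt hy) t ht
  simp only [tube, mem_ofPred_eq]
  rw [sc_scale, h1, rc_scale hv, abs_of_pos ht.1, mul_pos_iff_of_pos_left ht.1, mul_left_comm,
    mul_le_mul_iff_right₀ ht.1]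

theorem vx_half {U V : Set E} {r : E → ℝ} (h : Vx U V r) : Vx U V fun v => r v / 2 := by
  have h1 : ∀ v ∈ V, ball v (r v / 2) ⊆ ball v (r v) := fun v hv =>
    ball_subset_ball (half_le_self (h.pos v hv).le)
  refine ⟨fun v hv => half_pos (h.pos v hv), h.nmem, fun v hv y hy => h.sub v hv y (h1 v hv hy),
    fun v hv w hw hvw => (h.disj v hv w hw hvw).mono (h1 v hv) (h1 w hw), fun x hx => ?_⟩
  obtain ⟨W, hW, hf⟩ := h.fin x hx
  exact ⟨W, hW, hf.subset fun v hv => ⟨hv.1, hv.2.mono (inter_subset_inter_right _ (h1 v hv.1))⟩⟩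

/-- a segment from the vertex which misses `S` and along which `h` is locally affine -/
theorem exists_ray {h : E → E} {S : Set E} {v : E} {r : ℝ} (hr : 0 < r) (hS0 : volume S = 0)
    (hvS : v ∉ S) (hh : ConeMap h v r) (hS : ConeSet S v r) (ha : AffNear h v) :
    ∃ u : E, ‖u‖ = r / 2 ∧ (∀ s ∈ Icc (0 : ℝ) 1, v + s • u ∉ S) ∧ ∃ s0 ∈ Ioc (0 : ℝ) 1,
      ∀ s ∈ Ioc (0 : ℝ) s0, ∃ (A : E →L[ℝ] E) (b : E), ∀ᶠ z in 𝓝 (v + s • u), h z = b + A z := by
  obtain ⟨W, hW, hWn, hWb, A, b, hA⟩ := ha _ (ball_mem_nhds v (half_pos hr))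
  have h1 : ∃ y ∈ W, y ∉ S ∪ {v} := by
    by_contra h2
    push Not at h2
    exact (hW.measure_pos volume hWn).ne'
      (measure_mono_null h2 (measure_union_null hS0 (measure_singleton v)))
  obtain ⟨y, hyW, hy⟩ := h1
  have hyS : y ∉ S := fun h2 => hy (Or.inl h2)
  have hyv : 0 < ‖y - v‖ := norm_pos_iff.2 (sub_ne_zero.2 fun h2 => hy (Or.inr h2))
  have hyb : ‖y - v‖ < r / 2 := by simpa [dist_eq_norm] using hWb hyW
  have hyr : y ∈ ball v r := ball_subset_ball (half_le_self hr.le) (hWb hyW)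
  set s0 : ℝ := ‖y - v‖ / (r / 2) with hs0
  have hs1 : 0 < s0 := div_pos hyv (half_pos hr)
  have hs2 : s0 ≤ 1 := ((div_lt_one (half_pos hr)).2 hyb).le
  have hu : ‖s0⁻¹ • (y - v)‖ = r / 2 := by
    rw [norm_smul, Real.norm_eq_abs, abs_of_pos (inv_pos.2 hs1), hs0]
    field_simp
  refine ⟨s0⁻¹ • (y - v), hu, fun s hs h2 => ?_, s0, ⟨hs1, hs2⟩, fun s hs => ?_⟩
  · rcases hs.1.eq_or_lt with rfl | hs3
    · exact hvS (by simpa using h2)
    rcases le_total s s0 with h3 | h3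
    · rw [smul_smul] at h2
      exact hyS ((hS y hyr (s * s0⁻¹) ⟨mul_pos hs3 (inv_pos.2 hs1),
        by rw [← div_eq_mul_inv, div_le_one hs1]; exact h3⟩).1 h2)
    · have h4 : v + s • s0⁻¹ • (y - v) ∈ ball v r := by
        rw [mem_ball, dist_eq_norm, add_sub_cancel_left, norm_smul, hu, Real.norm_eq_abs,
          abs_of_pos hs3]
        nlinarith [hs.2]
      have h5 := (hS _ h4 (s0 / s) ⟨div_pos hs1 hs3, (div_le_one hs3).2 h3⟩).2 h2
      rw [add_sub_cancel_left, smul_smul, smul_smul, div_mul_cancel₀ _ hs3.ne',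
        mul_inv_cancel₀ hs1.ne', one_smul, add_sub_cancel] at h5
      exact hyS h5
  · set t : ℝ := s * s0⁻¹ with ht
    have ht0 : 0 < t := mul_pos hs.1 (inv_pos.2 hs1)
    have ht1 : t ≤ 1 := by rw [ht, ← div_eq_mul_inv, div_le_one hs1]; exact hs.2
    refine ⟨A, h v + t • (b + A v - h v) - A v, ?_⟩
    have h2 : Tendsto (fun z : E => v + t⁻¹ • (z - v)) (𝓝 (v + s • s0⁻¹ • (y - v))) (𝓝 y) := by
      have h3 : Continuous fun z : E => v + t⁻¹ • (z - v) := by fun_prop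
      have h4 := h3.tendsto (v + t • (y - v))
      rw [add_sub_cancel_left, smul_smul, inv_mul_cancel₀ ht0.ne', one_smul, add_sub_cancel] at h4
      rwa [smul_smul s, ← ht]
    filter_upwards [h2.eventually (hW.mem_nhds hyW)] with z hz
    have h3 := hh _ (ball_subset_ball (half_le_self hr.le) (hWb hz)) t ⟨ht0, ht1⟩
    rw [add_sub_cancel_left, smul_smul, mul_inv_cancel₀ ht0.ne', one_smul, add_sub_cancel,
      hA _ hz, map_add, map_smul, map_sub] at h3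
    rw [h3]
    have h4 : t • t⁻¹ • (A z - A v) = A z - A v := by
      rw [smul_smul, mul_inv_cancel₀ ht0.ne', one_smul]
    have h5 : h v + t • (b + (A v + t⁻¹ • (A z - A v)) - h v) =
        h v + t • (b + A v - h v) + t • t⁻¹ • (A z - A v) := by module
    rw [h5, h4]
    abel

theorem mem_seg {v u z : E} : z ∈ segment ℝ v (v + u) ↔ ∃ s ∈ Icc (0 : ℝ) 1, v + s • u = z := by
  rw [segment_eq_image', add_sub_cancel_left]
  rfl

theorem seg_sub {v u : E} {r : ℝ} (hr : 0 < r) (hu : ‖u‖ = r / 2) :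
    segment ℝ v (v + u) ⊆ ball v r := by
  intro z hz
  obtain ⟨s, hs, rfl⟩ := mem_seg.1 hz
  rw [mem_ball, dist_eq_norm, add_sub_cancel_left, norm_smul, hu, Real.norm_eq_abs,
    abs_of_nonneg hs.1]
  nlinarith [hs.2]

theorem cone_seg {v u : E} {r : ℝ} (hr : 0 < r) (hu : ‖u‖ = r / 2) :
    ConeSet (segment ℝ v (v + u)) v (r / 2) := by
  intro y hy t ht
  rw [mem_seg, mem_seg]
  constructor
  · rintro ⟨s, hs, h1⟩
    have h2 : y - v = (s / t) • u := by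
      have h3 := add_left_cancel h1
      rw [div_eq_inv_mul, ← smul_smul, h3, smul_smul, inv_mul_cancel₀ ht.1.ne', one_smul]
    have h4 : 0 ≤ s / t := div_nonneg hs.1 ht.1.le
    refine ⟨s / t, ⟨h4, ?_⟩, by rw [← h2, add_sub_cancel]⟩
    rw [mem_ball, dist_eq_norm, h2, norm_smul, hu, Real.norm_eq_abs, abs_of_nonneg h4] at hy
    nlinarith
  · rintro ⟨s, hs, rfl⟩
    refine ⟨t * s, ⟨mul_nonneg ht.1.le hs.1, mul_le_one₀ ht.2 hs.1 hs.2⟩, ?_⟩
    rw [add_sub_cancel_left, smul_smul]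

theorem open_off {U V : Set E} {r : E → ℝ} (hU : IsOpen U) (h : Vx U V r) {R : E → Set E}
    (hc : ∀ v ∈ V, IsClosed (R v)) (hR : ∀ v ∈ V, R v ⊆ ball v (r v)) :
    IsOpen {y | y ∈ U ∧ ∀ v ∈ V, y ∉ R v} := by
  refine isOpen_iff_mem_nhds.2 fun x hx => ?_
  obtain ⟨W, hW, hf⟩ := h.fin x hx.1
  have h1 : ∀ v ∈ {v | v ∈ V ∧ (W ∩ ball v (r v)).Nonempty}, ∀ᶠ z in 𝓝 x, z ∉ R v :=
    fun v hv => (hc v hv.1).isOpen_compl.mem_nhds (hx.2 v hv.1)
  filter_upwards [hW, hU.mem_nhds hx.1, (eventually_all_finite hf).2 h1] with z h2 h3 h4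
  exact ⟨h3, fun v hv h5 => h4 v ⟨hv, z, h2, hR v hv h5⟩ h5⟩

theorem cone_off {U V : Set E} {r : E → ℝ} (h : Vx U V r) {R : E → Set E}
    (hR : ∀ v ∈ V, R v ⊆ ball v (r v)) {v : E} (hv : v ∈ V) (hc : ConeSet (R v) v (r v / 2)) :
    ConeSet {y | y ∈ U ∧ ∀ v ∈ V, y ∉ R v} v (r v / 2) := by
  have h0 : ∀ y ∈ ball v (r v / 2), (y ∈ U ∧ ∀ w ∈ V, y ∉ R w) ↔ (y ≠ v ∧ y ∉ R v) := by
    intro y hy
    have hy' := ball_subset_ball (half_le_self (h.pos v hv).le) hy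
    refine ⟨fun h1 => ⟨fun h2 => h.nmem v hv (h2 ▸ h1.1), h1.2 v hv⟩,
      fun h1 => ⟨h.sub v hv y hy' h1.1, fun w hw h2 => ?_⟩⟩
    by_cases hvw : v = w
    · exact h1.2 (hvw ▸ h2)
    · exact disjoint_left.1 (h.disj v hv w hw hvw) hy' (hR w hw h2)
  intro y hy t ht
  simp only [mem_ofPred_eq]
  rw [h0 y hy, h0 _ (mem_ball_scale hy ht), hc y hy t ht, Ne, add_eq_left, smul_eq_zero,
    or_iff_right ht.1.ne', sub_eq_zero]

/-- the conclusion of the edge model -/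
def ModelH (G : E → E) (x0 e : E) (κ C : ℝ≥0) : Prop :=
  Function.Bijective G ∧ LipschitzWith C G ∧ ∀ ρ : ℝ → ℝ, LipschitzWith κ ρ → (∀ s, 0 ≤ ρ s) →
    ContDiffOn ℝ ∞ ρ {s | 0 < ρ s} →
    ∃ H : E → E, Function.Bijective H ∧ LipschitzWith C H ∧
      (∀ y, ρ (sc x0 e y) ≤ rc x0 e y → H y = G y) ∧ (∀ y, 0 < ρ (sc x0 e y) → LD H y) ∧
      (∀ y, ‖H y - G y‖ ≤ C * ρ (sc x0 e y)) ∧
      ∀ (v : E) (R : ℝ), rc x0 e v = 0 → HomFn ρ (sc x0 e v) R → ∀ y ∈ ball v (R / 2),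
        ∀ t ∈ Ioc (0 : ℝ) 1, H (v + t • (y - v)) = G v + t • (H y - G v)

section glue

variable {ι : Type} {U S : Set E} {cls : E → ι} {x0 e : ι → E}

theorem cls_scale (hL : Lines U S cls x0 e) {v y : E} {r : ℝ} (hS : ConeSet S v r)
    (hy : y ∈ ball v r) (hyS : y ∈ S) {t : ℝ} (ht : t ∈ Ioc (0 : ℝ) 1) :
    cls (v + t • (y - v)) = cls y := by
  have h1 : Continuous fun s : ℝ => v + s • (y - v) := by fun_prop
  have h2 := isPreconnected_Ioc.induction₂' (fun s s' : ℝ =>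
    cls (v + s • (y - v)) = cls (v + s' • (y - v))) (fun s hs => by
      have h3 := (h1.tendsto s).eventually (hL.loc _ ((hS y hy s hs).2 hyS))
      filter_upwards [nhdsWithin_le_nhds h3, self_mem_nhdsWithin] with s' h4 h5
      have h6 := h4.2 ((hS y hy s' h5).2 hyS)
      exact ⟨h6.symm, h6⟩) (fun _ _ _ _ _ _ h3 h4 => h3.trans h4) ht (right_mem_Ioc.2 one_pos)
  rwa [one_smul, add_sub_cancel] at h2

theorem cone_cls (hL : Lines U S cls x0 e) {v : E} {r : ℝ} (hS : ConeSet S v r) (i : ι) :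
    ConeSet {y | y ∈ S ∧ cls y = i} v r := by
  intro y hy t ht
  simp only [mem_ofPred_eq]
  rw [hS y hy t ht]
  exact and_congr_right fun h1 => by rw [cls_scale hL hS hy h1 ht]

theorem on_line (hL : Lines U S cls x0 e) {v y : E} {r : ℝ} (hS : ConeSet S v r)
    (hy : y ∈ ball v r) (hyS : y ∈ S) : rc (x0 (cls y)) (e (cls y)) v = 0 := by
  have ht : (1 / 2 : ℝ) ∈ Ioc (0 : ℝ) 1 := ⟨by norm_num, by norm_num⟩
  have h1 := (hL.loc y hyS).self_of_nhds.1.1 hyS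
  have h2 := (hS y hy _ ht).2 hyS
  have h3 := (hL.loc _ h2).self_of_nhds.1.1 h2
  have h4 : v + (1 / 2 : ℝ) • (y - v) = y + (1 / 2 : ℝ) • (v - y) := by module
  rw [cls_scale hL hS hy hyS ht, h4, rc_scale h1] at h3
  exact (mul_eq_zero.1 h3).resolve_left (by norm_num)

theorem val_eq (hL : Lines U S cls x0 e) {h : E → E} {G : ι → E → E}
    (hG : ∀ x ∈ S, h =ᶠ[𝓝 x] G (cls x)) {v y : E} {r : ℝ} (hS : ConeSet S v r)
    (hh : ConeMap h v r) (hy : y ∈ ball v r) (hyS : y ∈ S)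
    (hc : ∀ (z : E) (t : ℝ), 0 ≤ t →
      G (cls y) (v + t • (z - v)) = G (cls y) v + t • (G (cls y) z - G (cls y) v)) :
    G (cls y) v = h v := by
  have ht : (1 / 2 : ℝ) ∈ Ioc (0 : ℝ) 1 := ⟨by norm_num, by norm_num⟩
  have h1 := (hG _ ((hS y hy _ ht).2 hyS)).self_of_nhds
  rw [cls_scale hL hS hy hyS ht, hh y hy _ ht, hc y _ ht.1.le, ← (hG y hyS).self_of_nhds] at h1
  have h2 : G (cls y) v = (2 : ℝ) • (G (cls y) v + (1 / 2 : ℝ) • (h y - G (cls y) v)) - h y := by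
    module
  rw [h2, ← h1]
  module

theorem glue (hTH : StmtTH) (hC : StmtCONE) {p : ℝ} {h : E → E} {γ : E → ℝ} {ε : ℝ≥0∞}
    {V : Set E} {r : E → ℝ}
    (hp : 1 ≤ p) (hL : Lines U S cls x0 e) (hU : Bornology.IsBounded U) (hinj : InjOn h U)
    (hld : ∀ x ∈ U \ S, LD h x) (G : ι → E → E) (hG : ∀ x ∈ S, h =ᶠ[𝓝 x] G (cls x))
    (hM : ∀ i ∈ cls '' S, ∃ κ C : ℝ≥0, 0 < κ ∧ ModelH (G i) (x0 i) (e i) κ C)
    (hco : ∀ i ∈ cls '' S, ∀ v, rc (x0 i) (e i) v = 0 → ∀ (z : E) (t : ℝ), 0 ≤ t →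
      G i (v + t • (z - v)) = G i v + t • (G i z - G i v))
    (hγ : LipschitzWith 1 γ) (hγ0 : ∀ x ∈ U, 0 < γ x) (hε : 0 < ε) (hV : Vx U V r)
    (hVc : ∀ v ∈ V, ConeMap h v (r v) ∧ ConeSet S v (r v) ∧ AffNear h v ∧
      ∀ y ∈ ball v (r v), γ y = ‖y - v‖) :
    ∃ h' : E → E, (∀ x, x ∉ U → h' x = h x) ∧ (∀ x ∈ U, LD h' x) ∧ BijOn h' U (h '' U) ∧
      (∀ x ∈ U, ‖h' x - h x‖ ≤ γ x) ∧ DE p U h' h ≤ ε ∧
      ∀ v ∈ V, ConeAt h' v ∧ AffNear h' v := by
  classical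
  obtain ⟨hc, hS0, -⟩ := blockT blockMIN ι U S cls x0 e hL hU
  have hray : ∀ v, ∃ u : E, v ∈ V → ‖u‖ = r v / 2 ∧ (∀ s ∈ Icc (0 : ℝ) 1, v + s • u ∉ S) ∧
      ∃ s0 ∈ Ioc (0 : ℝ) 1, ∀ s ∈ Ioc (0 : ℝ) s0, ∃ (A : E →L[ℝ] E) (b : E),
        ∀ᶠ z in 𝓝 (v + s • u), h z = b + A z := by
    intro v
    by_cases hv : v ∈ V
    · obtain ⟨u, h1⟩ := exists_ray (hV.pos v hv) hS0 (fun h1 => hV.nmem v hv (hL.sub h1))
        (hVc v hv).1 (hVc v hv).2.1 (hVc v hv).2.2.1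
      exact ⟨u, fun _ => h1⟩
    · exact ⟨0, fun h1 => absurd h1 hv⟩
  choose u hu using hray
  have hR : ∀ v ∈ V, segment ℝ v (v + u v) ⊆ ball v (r v) := fun v hv =>
    seg_sub (hV.pos v hv) (hu v hv).1
  have hhalf : ∀ v ∈ V, ball v (r v / 2) ⊆ ball v (r v) := fun v hv =>
    ball_subset_ball (half_le_self (hV.pos v hv).le)
  have hGv : ∀ v ∈ V, ∀ y ∈ ball v (r v), y ∈ S → G (cls y) v = h v := fun v hv y hy hyS =>
    val_eq hL hG (hVc v hv).2.1 (hVc v hv).1 hy hyS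
      (hco _ ⟨y, hyS, rfl⟩ v (on_line hL (hVc v hv).2.1 hy hyS))
  have hM1 : ∀ i, ∃ κ C : ℝ≥0, 0 < κ ∧ (i ∈ cls '' S → ModelH (G i) (x0 i) (e i) κ C) := by
    intro i
    by_cases hi : i ∈ cls '' S
    · obtain ⟨κ, C, h1, h2⟩ := hM i hi
      exact ⟨κ, C, h1, fun _ => h2⟩
    · exact ⟨1, 1, one_pos, fun h1 => absurd h1 hi⟩
  choose κ C hκ hM2 using hM1
  have : Countable (cls '' S) := hc.to_subtype
  obtain ⟨η, hη0, hη⟩ := ENNReal.exists_pos_sum_of_countable' hε.ne' (cls '' S)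
  let k : ι → ℝ≥0∞ := fun i => ((C i + C i : ℝ≥0) : ℝ≥0∞) ^ p
  have hk : ∀ i, k i ≠ ⊤ := fun i =>
    ENNReal.rpow_ne_top_of_nonneg (zero_le_one.trans hp) ENNReal.coe_ne_top
  have hδ1 : ∀ i, ∃ δ : ℝ, 0 < δ ∧ ∀ hi : i ∈ cls '' S,
      k i * (volume.restrict U) {y | rc (x0 i) (e i) y ≤ δ} ≤ η ⟨i, hi⟩ := by
    intro i
    by_cases hi : i ∈ cls '' S
    · obtain ⟨δ, h1, h2⟩ := thin hU (x0 i) (e i) (hk i) (hη0 ⟨i, hi⟩)
      exact ⟨δ, h1, fun _ => h2⟩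
    · exact ⟨1, one_pos, fun h1 => absurd h1 hi⟩
  choose δ hδ0 hδ using hδ1
  have hC1 : ∀ i, (0 : ℝ) < C i + 1 := fun i => by positivity
  obtain ⟨ρ, hρ, hβ, hTu⟩ := hTH ι U S V (fun v => r v / 2) cls x0 e κ
    (fun i => {y | h =ᶠ[𝓝 y] G i} ∩ {y | y ∈ U ∧ ∀ v ∈ V, y ∉ segment ℝ v (v + u v)})
    (fun i y => min (δ i) (γ y / (C i + 1))) hL hU (vx_half hV)
    (fun v hv i y hy => cone_cls hL (hVc v hv).2.1 i y (hhalf v hv hy)) hκ
    (fun i => isOpen_setOfPred_eventually_nhds.inter (open_off hL.opn hV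
      (fun v _ => (by rw [segment_eq_image']; exact isCompact_Icc.image (by fun_prop) :
        IsCompact (segment ℝ v (v + u v))).isClosed) hR))
    (fun x hx => ⟨hG x hx, hL.sub hx, fun v hv h1 => by
      obtain ⟨s, hs, h2⟩ := mem_seg.1 h1
      exact (hu v hv).2.1 s hs (h2 ▸ hx)⟩)
    (fun i => (continuous_const.min (hγ.continuous.div_const _)).continuousOn)
    (fun i x hx => lt_min (hδ0 i) (div_pos (hγ0 x hx) (hC1 i)))
    (fun v hv y hy hyS => by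
      have hy' := hhalf v hv hy
      refine ⟨fun z hz t ht => ?_, fun z hz _ t ht => ?_⟩
      · have h1 := hC.agree h (G (cls y)) v (r v) (hVc v hv).1 (fun z t ht => by
          rw [← hGv v hv y hy' hyS]
          exact hco _ ⟨y, hyS, rfl⟩ v (on_line hL (hVc v hv).2.1 hy' hyS) z t ht) z
          (hhalf v hv hz) t ht
        exact and_congr h1 (cone_off hV hR hv (cone_seg (hV.pos v hv) (hu v hv).1) z hz t ht)
      · have hz' := hhalf v hv hz
        simp only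
        rw [(hVc v hv).2.2.2 z hz', (hVc v hv).2.2.2 _ (mem_ball_scale hz' ht),
          add_sub_cancel_left, norm_smul, Real.norm_eq_abs, abs_of_pos ht.1, mul_div_assoc]
        refine le_min ?_ (mul_le_mul_of_nonneg_left (min_le_right _ _) ht.1.le)
        exact (mul_le_mul_of_nonneg_left (min_le_left _ _) ht.1.le).trans
          (mul_le_of_le_one_left (hδ0 _).le ht.2))
  have hH1 : ∀ i, ∃ H : E → E, i ∈ cls '' S → Function.Bijective H ∧ LipschitzWith (C i) H ∧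
      (∀ y, ρ i (sc (x0 i) (e i) y) ≤ rc (x0 i) (e i) y → H y = G i y) ∧
      (∀ y, 0 < ρ i (sc (x0 i) (e i) y) → LD H y) ∧
      (∀ y, ‖H y - G i y‖ ≤ C i * ρ i (sc (x0 i) (e i) y)) ∧
      ∀ (v : E) (R : ℝ), rc (x0 i) (e i) v = 0 → HomFn (ρ i) (sc (x0 i) (e i) v) R →
        ∀ y ∈ ball v (R / 2), ∀ t ∈ Ioc (0 : ℝ) 1,
          H (v + t • (y - v)) = G i v + t • (H y - G i v) := by
    intro i
    by_cases hi : i ∈ cls '' S
    · obtain ⟨H, h1⟩ := (hM2 i hi).2.2 (ρ i) (hρ.lip i) (hρ.nonneg i) (hρ.smooth i)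
      exact ⟨H, fun _ => h1⟩
    · exact ⟨id, fun h1 => absurd h1 hi⟩
  choose H hH using hH1
  let L : ι → Set E := fun i => tube (x0 i) (e i) (ρ i) 1
  have hdisj : Pairwise fun i j => Disjoint (L i) (L j) := fun i j hij =>
    (hρ.disj hij).mono tube_mono tube_mono
  let h' : E → E := fun y => if hy : ∃ i, y ∈ L i then H hy.choose y else h y
  have hin : ∀ i, ∀ y ∈ L i, h' y = H i y := by
    intro i y hy
    have h1 : ∃ i, y ∈ L i := ⟨i, hy⟩
    have h2 : h1.choose = i := by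
      by_contra h3
      exact disjoint_left.1 (hdisj h3) h1.choose_spec hy
    simp only [h', dif_pos h1, h2]
  have hout : ∀ y, (∀ i, y ∉ L i) → h' y = h y := fun y hy =>
    dif_neg fun h1 => hy _ h1.choose_spec
  have hLU : ∀ i, L i ⊆ U := fun i y hy => (hρ.sub i (tube_mono hy)).2
  have hLG : ∀ i, ∀ y ∈ tube (x0 i) (e i) (ρ i) 4, h =ᶠ[𝓝 y] G i := fun i y hy =>
    (hρ.sub i hy).1.1
  have hHG : ∀ i ∈ cls '' S, ∀ y, y ∉ L i → H i y = G i y := by
    intro i hi y hy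
    refine (hH i hi).2.2.1 y ?_
    by_contra h1
    have h2 := not_le.1 h1
    exact hy ⟨(rc_nonneg _ _ _).trans_lt h2, by rw [one_mul]; exact h2.le⟩
  have hnear : ∀ i, ∀ y ∈ L i, h' =ᶠ[𝓝 y] H i := by
    intro i y hy
    have hc1 : Continuous fun z => ρ i (sc (x0 i) (e i) z) :=
      (hρ.lip i).continuous.comp (cont_sc _ _)
    have h1 : ∀ᶠ z in 𝓝 y, 0 < ρ i (sc (x0 i) (e i) z) :=
      (isOpen_lt continuous_const hc1).mem_nhds hy.1
    have h2 : ∀ᶠ z in 𝓝 y, rc (x0 i) (e i) z < 4 * ρ i (sc (x0 i) (e i) z) := by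
      refine (isOpen_lt (cont_rc _ _) (continuous_const.mul hc1)).mem_nhds ?_
      have h3 := hy.1
      have h4 := hy.2
      change rc (x0 i) (e i) y < 4 * ρ i (sc (x0 i) (e i) y)
      linarith
    filter_upwards [h1, h2] with z h3 h4
    by_cases h5 : z ∈ L i
    · exact hin i z h5
    · have h6 : z ∈ tube (x0 i) (e i) (ρ i) 4 := ⟨h3, h4.le⟩
      rw [hHG i (mem_cls hρ hy) z h5, ← (hLG i z h6).self_of_nhds]
      refine hout z fun j hj => ?_
      by_cases hij : i = j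
      · exact h5 (hij ▸ hj)
      · exact disjoint_left.1 (hρ.disj hij) h6 (tube_mono hj)
  have hfar : ∀ y ∈ U, (∀ i, y ∉ L i) → h' =ᶠ[𝓝 y] h := fun y hy h1 =>
    (off_tubes hρ hy h1).mono hout
  have hρβ : ∀ i, ∀ y ∈ L i, rc (x0 i) (e i) y ≤ δ i ∧ C i * ρ i (sc (x0 i) (e i) y) ≤ γ y := by
    intro i y hy
    have h1 := hβ i _ hy.1
    have h2 := hy.2
    rw [one_mul] at h2
    refine ⟨h2.trans (h1.trans (min_le_left _ _)), ?_⟩
    have h3 := (le_div_iff₀ (hC1 i)).1 (h1.trans (min_le_right _ _))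
    have h4 := hγ.dist_le_mul y (x0 i + sc (x0 i) (e i) y • e i)
    rw [Real.dist_eq, dist_eq_norm, ← sub_sub, NNReal.coe_one, one_mul] at h4
    have h5 : γ (x0 i + sc (x0 i) (e i) y • e i) - γ y ≤ rc (x0 i) (e i) y :=
      le_trans (by rw [abs_sub_comm]; exact le_abs_self _) h4
    linarith
  refine ⟨h', fun x hx => hout x fun i hi => hx (hLU i hi), fun x hx => ?_, ?_, fun x hx => ?_, ?_,
    fun v hv => ⟨?_, ?_⟩⟩
  · by_cases h1 : ∃ i, x ∈ L i
    · obtain ⟨i, hi⟩ := h1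
      exact ((hH i (mem_cls hρ hi)).2.2.2.1 x hi.1).congr (hnear i x hi)
    · have h2 : ∀ i, x ∉ L i := not_exists.1 h1
      exact (hld x ⟨hx, fun h3 => h2 _ (mem_tube hL hρ h3)⟩).congr (hfar x hx h2)
  · refine blockPATCH ι U L G H h h' hdisj hLU (fun i hi => ?_) (fun i x hx => ?_) hout hinj
    · obtain ⟨y, hy⟩ := hi
      have h1 := mem_cls hρ hy
      exact ⟨(hM2 i h1).1, (hH i h1).1, hHG i h1⟩
    · exact ⟨(hLG i x (tube_mono hx)).self_of_nhds, hin i x hx⟩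
  · by_cases h1 : ∃ i, x ∈ L i
    · obtain ⟨i, hi⟩ := h1
      rw [hin i x hi, (hLG i x (tube_mono hi)).self_of_nhds]
      exact ((hH i (mem_cls hρ hi)).2.2.2.2.1 x).trans (hρβ i x hi).2
    · rw [hout x (not_exists.1 h1), sub_self, norm_zero]
      exact (hγ0 x hx).le
  · have hm : ∀ i, MeasurableSet {y | rc (x0 i) (e i) y ≤ δ i} := fun i =>
      (isClosed_le (cont_rc _ _) continuous_const).measurableSet
    have h1 : ∀ x ∈ U, ‖fderiv ℝ h' x - fderiv ℝ h x‖ₑ ^ p ≤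
        ∑' i : cls '' S, {y | rc (x0 i) (e i) y ≤ δ i}.indicator (fun _ => k i) x := by
      intro x hx
      by_cases h1 : ∃ i, x ∈ L i
      · obtain ⟨i, hi⟩ := h1
        have h2 := mem_cls hρ hi
        refine le_trans ?_ (ENNReal.le_tsum (⟨i, h2⟩ : cls '' S))
        have h3 : x ∈ {y | rc (x0 i) (e i) y ≤ δ i} := (hρβ i x hi).1
        rw [indicator_of_mem h3, (hnear i x hi).fderiv_eq,
          (hLG i x (tube_mono hi)).fderiv_eq]
        refine ENNReal.rpow_le_rpow ?_ (zero_le_one.trans hp)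
        rw [enorm_eq_nnnorm, ENNReal.coe_le_coe, ← NNReal.coe_le_coe, coe_nnnorm, NNReal.coe_add]
        exact (norm_sub_le _ _).trans (add_le_add (norm_fderiv_le_of_lipschitz ℝ (hH i h2).2.1)
          (norm_fderiv_le_of_lipschitz ℝ (hM2 i h2).2.1))
      · rw [(hfar x hx (not_exists.1 h1)).fderiv_eq, sub_self, enorm_eq_nnnorm, nnnorm_zero,
          ENNReal.coe_zero, ENNReal.zero_rpow_of_pos (one_pos.trans_le hp)]
        exact zero_le
    refine (setLIntegral_mono' hL.opn.measurableSet h1).trans ?_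
    rw [lintegral_tsum fun i : cls '' S => (measurable_const.indicator (hm i)).aemeasurable]
    refine le_trans (ENNReal.tsum_le_tsum fun i => ?_) hη.le
    rw [lintegral_indicator_const (hm i)]
    exact hδ i i.2
  · have hr := hV.pos v hv
    refine (hC.radius h' v).2 ⟨r v / 2 / 4 / 2, by positivity, fun y hy t ht => ?_⟩
    have hy1 : y ∈ ball v (r v / 2 / 4) := ball_subset_ball (by linarith) hy
    have hy2 : y ∈ ball v (r v) := ball_subset_ball (by linarith) hy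
    rw [hout v fun i hi => hV.nmem v hv (hLU i hi)]
    by_cases h1 : ∃ i, y ∈ L i
    · obtain ⟨i, hi⟩ := h1
      have h2 := hTu.line v hv i y hy1 (tube_mono hi)
      have h3 := hTu.hom v hv i h2
      obtain ⟨h4, h5⟩ := (hρ.pos i _).1 hi.1
      have h6 : x0 i + sc (x0 i) (e i) y • e i ∈ ball v (r v) := by
        have h7 : x0 i + sc (x0 i) (e i) y • e i - v =
            (sc (x0 i) (e i) y - sc (x0 i) (e i) v) • e i := by
          rw [sub_smul, ← add_sub_add_left_eq_sub (sc (x0 i) (e i) y • e i) _ (x0 i), eq_of_rc h2]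
        rw [mem_ball, dist_eq_norm, h7, norm_smul, hL.unit, mul_one, ← dist_eq_norm]
        exact (dist_sc (hL.unit i) y v).trans_lt hy2
      have h8 := hGv v hv _ h6 h4
      rw [h5] at h8
      rw [hin i y hi, hin i _ ((tube_iff (hL.unit i) h2 h3 hy1 ht).2 hi), ← h8]
      exact (hH i (mem_cls hρ hi)).2.2.2.2.2 v _ h2 h3 y hy t ht
    · rw [hout y (not_exists.1 h1), hout _ fun i hi => ?_]
      · exact (hVc v hv).1 y hy2 t ht
      · have h2 := hTu.line v hv i _ (mem_ball_scale hy1 ht) (tube_mono hi)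
        exact h1 ⟨i, (tube_iff (hL.unit i) h2 (hTu.hom v hv i h2) hy1 ht).1 hi⟩
  · intro N hN
    obtain ⟨h1, -, s0, hs0, h2⟩ := hu v hv
    have h3 : Tendsto (fun s : ℝ => v + s • u v) (𝓝[>] 0) (𝓝 v) := by
      have h4 : Continuous fun s : ℝ => v + s • u v := by fun_prop
      have h5 := h4.tendsto 0
      rw [zero_smul, add_zero] at h5
      exact h5.mono_left nhdsWithin_le_nhds
    obtain ⟨s, h4, hs⟩ := ((h3.eventually (eventually_mem_nhds_iff.2 hN)).and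
      (Ioc_mem_nhdsGT hs0.1)).exists
    obtain ⟨A, b, hA⟩ := h2 s hs
    have h5 : v + s • u v ∈ segment ℝ v (v + u v) :=
      mem_seg.2 ⟨s, ⟨hs.1.le, hs.2.trans hs0.2⟩, rfl⟩
    have h6 : v + s • u v ∈ U := by
      refine hV.sub v hv _ (hR v hv h5) ?_
      rw [Ne, add_eq_left, smul_eq_zero, or_iff_right hs.1.ne', ← norm_eq_zero, h1]
      exact (half_pos (hV.pos v hv)).ne'
    have h7 := hfar _ h6 fun i hi => (hρ.sub i (tube_mono hi)).1.2.2 v hv h5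
    obtain ⟨W, h8, h9, h10⟩ := _root_.mem_nhds_iff.1 ((h7.and hA).and h4)
    exact ⟨W, h9, ⟨_, h10⟩, fun z hz => (h8 hz).2, A, b,
      fun z hz => (h8 hz).1.1.trans (h8 hz).1.2⟩

end glue

end EDGEH

open EDGEH in
theorem blockEDGEH (hTH : StmtTH) (hEM : StmtEMH) (hC : StmtCONE) : StmtEDGEH := by
  classical
  have hST := blockST
  intro p h U Λ S V r γ ε hp hU hUb hh hSU hS hld hE hγ hγ0 hε hV hVc
  have hE1 : ∀ x, ∃ e c : E, ‖e‖ = 1 ∧ (x ∈ S → ConeAt h x ∧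
      (∀ᶠ y in 𝓝 x, y ∈ S ↔ rc x e y = 0) ∧
      (∀ᶠ q : E × ℝ in 𝓝 (x, (0 : ℝ)), h (q.1 + q.2 • e) = h q.1 + q.2 • c) ∧
      ∀ V ∈ 𝓝 x, ∃ W : Set E, IsOpen W ∧ W.Nonempty ∧ W ⊆ V ∧
        ∃ (A : E →L[ℝ] E) (b : E), ∀ y ∈ W, h y = b + A y) := by
    intro x
    by_cases hx : x ∈ S
    · obtain ⟨e, c, h1, h2⟩ := hE x hx
      exact ⟨e, c, h1, fun _ => h2⟩
    · exact ⟨EuclideanSpace.single 0 1, 0, by simp, fun h1 => absurd h1 hx⟩
  choose e c he hE2 using hE1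
  let cls : E → Lab := fun x => (tanM h x, {y | rc x (e x) y = 0})
  let x0 : Lab → E := fun i => if hi : i ∈ cls '' S then hi.choose else 0
  have hx0 : ∀ i ∈ cls '' S, x0 i ∈ S ∧ cls (x0 i) = i := by
    intro i hi
    simp only [x0, dif_pos hi]
    exact hi.choose_spec
  have hL : Lines U S cls x0 fun i => e (x0 i) := by
    refine ⟨hU, hSU, hS, fun i => he _, fun x hx => ?_⟩
    obtain ⟨h1, h2, h3, -⟩ := hE2 x hx
    have h4 : {y | rc (x0 (cls x)) (e (x0 (cls x))) y = 0} = {y | rc x (e x) y = 0} :=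
      congrArg Prod.snd (hx0 (cls x) ⟨x, hx, rfl⟩).2
    have h5 : Tendsto (sc x (e x)) (𝓝 x) (𝓝 0) := by
      have h6 := (cont_sc x (e x)).tendsto x
      rwa [show sc x (e x) x = 0 by simp [sc]] at h6
    filter_upwards [h2.eventually_nhds, h5.eventually (hST.transl h x (e x) (c x) h1 h3).2]
      with y h6 h7
    refine ⟨h6.self_of_nhds.trans (Set.ext_iff.1 h4 y).symm, fun hy => ?_⟩
    have h8 := h6.self_of_nhds.1 hy
    rw [eq_of_rc h8] at h7
    refine Prod.ext h7.2 (Set.ext fun z => line_eq h8 ?_ z)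
    filter_upwards [h6, (hE2 y hy).2.1] with w h9 h10
    exact h10.symm.trans h9
  refine EDGEH.glue hTH hC hp hL hUb hh.bij.injOn hld Prod.fst
    (fun x hx => ((hST.isTan h x (hE2 x hx).1).1.mono fun y hy => hy.symm)) (fun i hi => ?_)
    (fun i hi v hv z t ht => ?_) hγ hγ0 hε hV hVc
  swap
  · obtain ⟨hx, hi2⟩ := hx0 i hi
    have hi3 : i.1 = tanM h (x0 i) := (congrArg Prod.fst hi2).symm
    rw [hi3]
    generalize x0 i = x at hx hv
    obtain ⟨h1, -, h3, -⟩ := hE2 x hx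
    have h4 := (hST.transl h x (e x) (c x) h1 h3).1
    have h5 := (hST.isTan h x h1).2 z t ht
    rw [← eq_of_rc hv]
    generalize sc x (e x) v = s
    have h6 : x + s • e x + t • (z - (x + s • e x)) = x + t • (z - x) + ((1 - t) * s) • e x := by
      module
    rw [h6, h4, h4, h5]
    module
  obtain ⟨hx, hi2⟩ := hx0 i hi
  have hi3 : i.1 = tanM h (x0 i) := (congrArg Prod.fst hi2).symm
  rw [hi3]
  generalize x0 i = x at hx
  obtain ⟨h1, h2, h3, h4⟩ := hE2 x hx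
  have hxU : U ∈ 𝓝 x := hU.mem_nhds (hSU hx)
  have htan := hST.isTan h x h1
  have hbij : Function.Bijective (tanM h x) := by
    refine ⟨hST.inj h x U h1 hxU hh.bij.injOn, hST.surj h x h1 fun V hV => ?_⟩
    obtain ⟨V', h5, h6, h7⟩ := _root_.mem_nhds_iff.1 (inter_mem hV hxU)
    exact mem_of_superset ((hh.opn V' h6 fun y hy => (h5 hy).2).mem_nhds ⟨x, h7, rfl⟩)
      (image_mono fun y hy => (h5 hy).1)
  obtain ⟨W, hW, hWn, hWV, A, b, hA⟩ := h4 _ htan.1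
  obtain ⟨κ, C, h5, h6, h7⟩ := hEM (tanM h x) x (e x) (c x) W A b (he x) htan.2
    (hST.transl h x (e x) (c x) h1 h3).1 hbij (fun y hy => ld_tan hxU htan h2 hld hy) hW hWn
    fun y hy => (hWV hy).trans (hA y hy)
  exact ⟨κ, C, h5, hbij, h6, h7⟩

end Vale.Agent.P073Z.Sv
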