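import Vale.Agent.P073Z.Sv.EM0H
import Vale.Agent.P073Z.Sm.EM

/-!
# P073, smoothing for all exponents: the edge model, with homogeneity
-/

open Set Metric MeasureTheory Topology Filter
open scoped ContDiff ENNReal NNReal RealInnerProductSpace

noncomputable section

namespace Vale.Agent.P073Z.Sv

open Vale.Agent.P073Z.Sm Vale.Agent.P073Z.Sm.EM

/-- Block EMH. -/
theorem blockEMH (hEM0 : StmtEM0H) : StmtEMH := by
  intro G x0 e c W A b he hh ht hb hL hW hne hA
  obtain ⟨y1, hy1, hr1⟩ := exists_off x0 e he W hW hne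
  have hWn : W ∈ 𝓝 y1 := hW.mem_nhds hy1
  -- the linear part is invertible
  have hAi : Function.Injective A := by
    have h1 : G =ᶠ[𝓝 y1] fun y => b + A y := by
      filter_upwards [hWn] with y hy using hA y hy
    have h2 : fderiv ℝ G y1 = A := by
      rw [h1.fderiv_eq]
      exact (A.hasFDerivAt.const_add b).fderiv
    have := (hL y1 hr1).2
    rwa [h2] at this
  let A' : E ≃L[ℝ] E := (LinearEquiv.ofInjectiveEndo (A : E →ₗ[ℝ] E) hAi).toContinuousLinearEquiv
  have hA' : ∀ y, A' y = A y := fun _ => rfl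
  have hAe : A e = c := by
    have hc : Continuous fun t : ℝ => y1 + t • e := by fun_prop
    have h1 : ∀ᶠ t : ℝ in 𝓝 0, y1 + t • e ∈ W := by
      refine hc.continuousAt.preimage_mem_nhds ?_
      simpa using hWn
    obtain ⟨t, h2, ht0⟩ := ((h1.filter_mono nhdsWithin_le_nhds).and
      (self_mem_nhdsWithin : ({0}ᶜ : Set ℝ) ∈ 𝓝[≠] (0 : ℝ))).exists
    have h3 := hA _ h2
    rw [ht, hA _ hy1, map_add, map_smul, add_assoc, add_right_inj, add_right_inj] at h3
    exact (smul_right_injective E (show t ≠ 0 from ht0) h3).symm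
  have hx0 : G x0 = b + A x0 := by
    have hc : Continuous fun t : ℝ => x0 + t • (y1 - x0) := by fun_prop
    have h1 : ∀ᶠ t : ℝ in 𝓝 1, x0 + t • (y1 - x0) ∈ W := by
      refine hc.continuousAt.preimage_mem_nhds ?_
      simpa using hWn
    have h1' : ∀ᶠ t : ℝ in 𝓝 1, 0 < t := lt_mem_nhds one_pos
    obtain ⟨t, ⟨h2, h2'⟩, ht1⟩ := (((h1.and h1').filter_mono nhdsWithin_le_nhds).and
      (self_mem_nhdsWithin : ({1}ᶜ : Set ℝ) ∈ 𝓝[≠] (1 : ℝ))).exists
    have h3 := hA _ h2
    rw [hh y1 t h2'.le, hA _ hy1, map_add, map_smul, map_sub] at h3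
    have h4 : (1 - t) • G x0 = (1 - t) • (b + A x0) := by
      have e1 : (1 - t) • G x0 = G x0 + t • (b + A y1 - G x0) - t • (b + A y1) := by module
      rw [e1, h3]
      module
    exact smul_right_injective E (sub_ne_zero.2 (Ne.symm ht1)) h4
  -- coordinates
  set p : E := y1 - x0 - sc x0 e y1 • e with hp
  have hr : 0 < ‖p‖ := lt_of_le_of_ne (norm_nonneg _) (Ne.symm hr1)
  have hep : ⟪e, p⟫ = 0 := by
    rw [hp, inner_sub_right, inner_smul_right, real_inner_self_eq_norm_sq, he]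
    simp [sc]
  obtain ⟨L, L1, L2, L3, L4⟩ := exists_coord e (-(‖p‖⁻¹ • p)) he
    (by rw [norm_neg, norm_smul, norm_inv, norm_norm, inv_mul_cancel₀ hr.ne'])
    (by rw [inner_neg_right, inner_smul_right, hep]; simp)
  have hsc : ∀ y, sc x0 e y = (L.symm (y - x0)).1 := fun y => L3 _
  have hrc : ∀ y, rc x0 e y = ‖(L.symm (y - x0)).2‖ := fun y => L4 _
  have hy : x0 + L (sc x0 e y1, -((‖p‖ : ℝ) : ℂ)) = y1 := by
    have e1 : ((sc x0 e y1, -((‖p‖ : ℝ) : ℂ)) : ℝ × ℂ) =
        sc x0 e y1 • ((1, 0) : ℝ × ℂ) + (-‖p‖) • ((0, 1) : ℝ × ℂ) := by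
      simp
    rw [e1, map_add, map_smul, map_smul, L1, L2, smul_neg, neg_smul, neg_neg, smul_smul,
      mul_inv_cancel₀ hr.ne', one_smul, hp]
    abel
  let T : (ℝ × ℂ) ≃L[ℝ] E := L.trans A'
  have hT : ∀ q, T q = A (L q) := fun _ => rfl
  let G' : ℝ × ℂ → ℝ × ℂ := fun q => T.symm (G (x0 + L q) - G x0)
  have hGG : ∀ y, G y = G x0 + T (G' (L.symm (y - x0))) := fun y => by simp [G']
  obtain ⟨m, Γ, hG', m1, m2, g1, g2, g3, g4⟩ := split G'
    (fun q t h => by
      have := hh (x0 + L q) t h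
      rw [add_sub_cancel_left] at this
      simp only [G', map_smul, this, add_sub_cancel_left])
    (fun s z => by
      have e1 : ((s, z) : ℝ × ℂ) = (0, z) + s • ((1, 0) : ℝ × ℂ) := by simp
      have e2 : T.symm c = (1, 0) := by
        rw [T.symm_apply_eq, hT, L1, hAe]
      have e3 : ((s, 0) : ℝ × ℂ) = s • T.symm c := by simp [e2]
      simp only [G']
      rw [e3, e1, map_add, map_smul, L1, ← add_assoc, ht, ← map_smul, ← map_add,
        add_sub_right_comm])
    ((bij_inv T.symm (G x0)).comp (hb.comp (bij_add L x0)))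
    (fun q hq => by
      have h1 : LD G (x0 + L q) := hL _ (by rw [hrc]; simpa using hq)
      exact LD.comp (G := fun y => T.symm (y - G x0)) (F := fun q => G (x0 + L q))
        (ld_inv _ _ _) (LD.comp (F := fun q => x0 + L q) h1 (ld_add _ _ _)))
    (sc x0 e y1) ‖p‖ hr
    (by
      have hc : Continuous fun q : ℝ × ℂ => x0 + L q := by fun_prop
      have h1 : ∀ᶠ q : ℝ × ℂ in 𝓝 (sc x0 e y1, -((‖p‖ : ℝ) : ℂ)), x0 + L q ∈ W := by
        refine hc.continuousAt.preimage_mem_nhds ?_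
        rw [hy]
        exact hWn
      filter_upwards [h1] with q hq
      simp only [G']
      rw [T.symm_apply_eq, hA _ hq, hx0, hT, map_add]
      abel)
  obtain ⟨κ, C, hκ, hH⟩ := hEM0 m Γ m1 m2 g1 g2 g3 g4
  set nT : ℝ≥0 := ‖(T : (ℝ × ℂ) →L[ℝ] E)‖₊ with hnT
  set nL : ℝ≥0 := ‖(L.symm : E →L[ℝ] (ℝ × ℂ))‖₊ with hnL
  have key : ∀ ρ : ℝ → ℝ, LipschitzWith κ ρ → (∀ s, 0 ≤ ρ s) → ContDiffOn ℝ ∞ ρ {s | 0 < ρ s} →
      ∃ H : E → E, Function.Bijective H ∧ LipschitzWith (nT * C * nL + nT * C) H ∧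
        (∀ y, ρ (sc x0 e y) ≤ rc x0 e y → H y = G y) ∧ (∀ y, 0 < ρ (sc x0 e y) → LD H y) ∧
        (∀ y, ‖H y - G y‖ ≤ (nT * C * nL + nT * C : ℝ≥0) * ρ (sc x0 e y)) ∧
        ∀ (v : E) (R : ℝ), rc x0 e v = 0 → HomFn ρ (sc x0 e v) R → ∀ y ∈ ball v (R / 2),
          ∀ t ∈ Ioc (0 : ℝ) 1, H (v + t • (y - v)) = G v + t • (H y - G v) := by
    intro ρ r1 r2 r3
    obtain ⟨H, H1, H2, H3, H4, H5, H6⟩ := hH ρ r1 r2 r3
    refine ⟨fun y => G x0 + T (H (L.symm (y - x0))),
      (bij_add T (G x0)).comp (H1.comp (bij_inv L.symm x0)), ?_, fun y h => ?_, fun y h => ?_,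
      fun y => ?_, fun v R hv hR y hyv t ht => ?_⟩
    · refine LipschitzWith.weaken (K := nT * C * nL) ?_ le_self_add
      refine LipschitzWith.of_dist_le_mul fun y y' => ?_
      rw [dist_add_left]
      have a1 := (T : (ℝ × ℂ) →L[ℝ] E).lipschitz.dist_le_mul (H (L.symm (y - x0)))
        (H (L.symm (y' - x0)))
      have a2 := H2.dist_le_mul (L.symm (y - x0)) (L.symm (y' - x0))
      have a3 := (L.symm : E →L[ℝ] (ℝ × ℂ)).lipschitz.dist_le_mul (y - x0) (y' - x0)
      rw [dist_sub_right] at a3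
      calc dist (T (H (L.symm (y - x0)))) (T (H (L.symm (y' - x0))))
          ≤ nT * dist (H (L.symm (y - x0))) (H (L.symm (y' - x0))) := a1
        _ ≤ nT * (C * (nL * dist y y')) := by
          gcongr
          exact a2.trans (by gcongr; exact a3)
        _ = _ := by push_cast; ring
    · rw [hsc, hrc] at h
      beta_reduce
      rw [H3 _ h, hGG y, hG']
    · rw [hsc] at h
      exact LD.comp (G := fun q => G x0 + T q) (F := fun y => H (L.symm (y - x0)))
        (ld_add _ _ _) (LD.comp (F := fun y => L.symm (y - x0)) (H4 _ h) (ld_inv _ _ _))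
    · beta_reduce
      rw [hGG y, hG', add_sub_add_left_eq_sub, ← map_sub, hsc]
      have a1 := (T : (ℝ × ℂ) →L[ℝ] E).le_opNorm (H (L.symm (y - x0)) -
        ((L.symm (y - x0)).1 + m (L.symm (y - x0)).2, Γ (L.symm (y - x0)).2))
      have a2 := H5 (L.symm (y - x0))
      have a3 := r2 (L.symm (y - x0)).1
      refine a1.trans ?_
      calc _ ≤ (nT : ℝ) * (C * ρ (L.symm (y - x0)).1) := by
            rw [hnT, coe_nnnorm]
            gcongr
        _ ≤ _ := by
            push_cast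
            have : 0 ≤ (nT : ℝ) * C * nL * ρ (L.symm (y - x0)).1 := by positivity
            nlinarith
    · have hv0 : L.symm (v - x0) = (sc x0 e v, 0) := by
        rw [hrc, norm_eq_zero] at hv
        exact Prod.ext (hsc v).symm hv
      have hm0 : m 0 = 0 := by simpa using m1 0 0 le_rfl
      have hg0 : Γ 0 = 0 := by simpa using g1 0 0 le_rfl
      have hGv : G v = G x0 + T (sc x0 e v, 0) := by
        rw [hGG v, hG', hv0]
        simp only [hm0, hg0, add_zero]
      have hq : |(L.symm (y - x0)).1 - sc x0 e v| < R / 2 := by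
        rw [← hsc]
        have a1 : sc x0 e y - sc x0 e v = ⟪e, y - v⟫ := by
          unfold sc
          rw [← inner_sub_right, sub_sub_sub_cancel_right]
        have a2 := abs_real_inner_le_norm e (y - v)
        rw [he, one_mul] at a2
        rw [a1]
        exact a2.trans_lt (mem_ball_iff_norm.1 hyv)
      have hpt : L.symm (v + t • (y - v) - x0) =
          (sc x0 e v, 0) + t • (L.symm (y - x0) - (sc x0 e v, 0)) := by
        rw [← hv0, ← map_sub, ← map_smul, ← map_add, sub_sub_sub_cancel_right, add_sub_right_comm]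
      beta_reduce
      rw [hpt, H6 _ R hR _ hq t ht, hGv, map_add, map_smul, map_sub, add_sub_add_left_eq_sub,
        add_assoc]
  refine ⟨κ, nT * C * nL + nT * C, hκ, ?_, key⟩
  obtain ⟨H, -, H2, H3, -⟩ := key (fun _ => 0) ((LipschitzWith.const 0).weaken zero_le)
    (fun _ => le_rfl) contDiffOn_const
  have : H = G := funext fun y => H3 y (norm_nonneg _)
  rwa [this] at H2

theorem thmEMH : StmtEMH := blockEMH blockEM0H

end Vale.Agent.P073Z.Sv
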