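import Vale.Agent.P073Z.Sv.Sk
import Vale.Agent.P073Z.Sm.EM0
import Vale.Agent.P073Z.Sm.SHEAR
import Vale.Agent.P073Z.Sm.PERSP
import Vale.Agent.P073Z.Sm.INV

/-!
# P073, smoothing for all exponents: the fountain maps
-/

open Set Metric Topology Filter
open scoped ContDiff NNReal

noncomputable section

namespace Vale.Agent.P073Z.Sv

open Vale.Agent.P073Z.Sm Vale.Agent.P073Z.Sm.EM0

namespace FA

theorem sqrt_lip (a c a' c' : ℝ) :
    |√(a ^ 2 + c ^ 2) - √(a' ^ 2 + c' ^ 2)| ≤ |a - a'| + |c - c'| := by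
  rw [← Complex.norm_add_mul_I, ← Complex.norm_add_mul_I]
  refine (abs_norm_sub_norm_le _ _).trans ((Complex.norm_le_abs_re_add_abs_im _).trans ?_)
  simp

/-- the amount of the shear -/
def sh (M : ℝ) (α : ℝ → ℝ) (q : ℝ × ℂ) : ℝ := M * (√(α q.1 ^ 2 + ‖q.2‖ ^ 2) - α q.1)

theorem shr_eq (M : ℝ) (α : ℝ → ℝ) (q : ℝ × ℂ) : shr M α q = (q.1 + sh M α q, q.2) := rfl

variable {M R : ℝ} {α : ℝ → ℝ} {k : ℂ → ℂ}

theorem adm_abs (h : Adm α) (s s' : ℝ) : |α s - α s'| ≤ |s - s'| := by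
  simpa [Real.dist_eq] using h.lip.dist_le_mul s s'

theorem sh_mono (hM : 0 ≤ M) (h : Adm α) {s s' : ℝ} (hs : s' ≤ s) (z : ℂ) :
    sh M α (s', z) ≤ sh M α (s, z) := by
  refine mul_le_mul_of_nonneg_left ?_ hM
  have h1 := sqrt_lip (α s') ‖z‖ (α s) ‖z‖
  have h2 := h.anti hs
  rw [sub_self, abs_zero, add_zero, abs_of_nonneg (sub_nonneg.2 h2)] at h1
  have := (le_abs_self _).trans h1
  show √(α s' ^ 2 + ‖z‖ ^ 2) - α s' ≤ √(α s ^ 2 + ‖z‖ ^ 2) - α s
  linarith

theorem sh_le (hM : 0 ≤ M) (q q' : ℝ × ℂ) :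
    |sh M α q - sh M α q'| ≤ M * (2 * |α q.1 - α q'.1| + ‖q.2 - q'.2‖) := by
  unfold sh
  rw [← mul_sub, abs_mul, abs_of_nonneg hM]
  refine mul_le_mul_of_nonneg_left ?_ hM
  have h1 := sqrt_lip (α q.1) ‖q.2‖ (α q'.1) ‖q'.2‖
  have h2 := abs_norm_sub_norm_le q.2 q'.2
  have h3 := abs_sub (√(α q.1 ^ 2 + ‖q.2‖ ^ 2) - √(α q'.1 ^ 2 + ‖q'.2‖ ^ 2)) (α q.1 - α q'.1)
  have h4 : √(α q.1 ^ 2 + ‖q.2‖ ^ 2) - α q.1 - (√(α q'.1 ^ 2 + ‖q'.2‖ ^ 2) - α q'.1) =
      √(α q.1 ^ 2 + ‖q.2‖ ^ 2) - √(α q'.1 ^ 2 + ‖q'.2‖ ^ 2) - (α q.1 - α q'.1) := by ring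
  rw [h4]
  linarith

theorem sh_lip (hM : 0 ≤ M) (h : Adm α) : LipschitzWith (3 * M.toNNReal) (sh M α) := by
  refine LipschitzWith.of_dist_le_mul fun q q' => ?_
  rw [Real.dist_eq, dist_eq_norm]
  push_cast
  rw [Real.coe_toNNReal M hM]
  have h1 := sh_le (α := α) hM q q'
  have h2 := adm_abs h q.1 q'.1
  have h4 : ‖q.2 - q'.2‖ ≤ ‖q - q'‖ := norm_snd_le (q - q')
  have h5 : |q.1 - q'.1| ≤ ‖q - q'‖ := norm_fst_le (q - q')
  have h6 : 2 * |α q.1 - α q'.1| + ‖q.2 - q'.2‖ ≤ 3 * ‖q - q'‖ := by linarith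
  have := mul_le_mul_of_nonneg_left h6 hM
  linarith

theorem shr_lip (hM : 0 ≤ M) (h : Adm α) : LipschitzWith (1 + 3 * M.toNNReal) (shr M α) :=
  lip_shear (sh_lip hM h)

theorem shr_anti (hM : 0 ≤ M) (h : Adm α) : AntilipschitzWith (1 + M.toNNReal) (shr M α) := by
  have key : ∀ q q' : ℝ × ℂ, q'.1 ≤ q.1 →
      q.1 - q'.1 ≤ (1 + M) * ‖shr M α q - shr M α q'‖ := by
    intro q q' hs
    have h1 := sh_mono hM h hs q'.2
    have h2 := sh_le (α := α) hM (q.1, q'.2) q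
    have h3 : |q.1 + sh M α q - (q'.1 + sh M α q')| ≤ ‖shr M α q - shr M α q'‖ :=
      norm_fst_le (shr M α q - shr M α q')
    have h4 : ‖q.2 - q'.2‖ ≤ ‖shr M α q - shr M α q'‖ := norm_snd_le (shr M α q - shr M α q')
    simp only [sub_self, abs_zero, mul_zero, zero_add] at h2
    rw [norm_sub_rev] at h2
    have h5 := mul_le_mul_of_nonneg_left h4 hM
    have h6 := (le_abs_self _).trans h2
    have h7 := (le_abs_self _).trans h3
    have h8 : sh M α (q'.1, q'.2) = sh M α q' := rfl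
    linarith
  refine AntilipschitzWith.of_le_mul_dist fun q q' => ?_
  rw [dist_eq_norm, dist_eq_norm]
  push_cast
  rw [Real.coe_toNNReal M hM, Prod.norm_def]
  refine max_le ?_ ?_
  · show |q.1 - q'.1| ≤ _
    rcases le_total q'.1 q.1 with hs | hs
    · rw [abs_of_nonneg (sub_nonneg.2 hs)]
      exact key q q' hs
    · rw [abs_sub_comm, abs_of_nonneg (sub_nonneg.2 hs), norm_sub_rev]
      exact key q' q hs
  · have h4 : ‖q.2 - q'.2‖ ≤ ‖shr M α q - shr M α q'‖ := norm_snd_le (shr M α q - shr M α q')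
    have := mul_nonneg hM (norm_nonneg (shr M α q - shr M α q'))
    show ‖q.2 - q'.2‖ ≤ _
    linarith

theorem shr_bij (hM : 0 ≤ M) (h : Adm α) : Function.Bijective (shr M α) ∧
    ∀ q : ℝ × ℂ, 0 < α q.1 → LD (shr M α) q := by
  obtain ⟨h1, h2⟩ := blockSHEAR (ℝ × ℂ) (sh M α) ((1 : ℝ), (0 : ℂ)) 1 one_pos
    (sh_lip hM h).continuous fun x τ hτ => by
      have e : x + τ • ((1 : ℝ), (0 : ℂ)) = (x.1 + τ, x.2) := by ext <;> simp
      have := sh_mono hM h (le_add_of_nonneg_right hτ : x.1 ≤ x.1 + τ) x.2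
      have h8 : sh M α (x.1, x.2) = sh M α x := rfl
      rw [e]
      linarith
  have hT : (fun x : ℝ × ℂ => x + sh M α x • ((1 : ℝ), (0 : ℂ))) = shr M α :=
    funext fun x => by ext <;> simp [shr_eq]
  rw [hT] at h1 h2
  refine ⟨h1, fun q hq => h2 q ?_⟩
  have a1 : ContDiffAt ℝ ∞ (fun p : ℝ × ℂ => α p.1) q := (h.smooth _ hq).comp q contDiffAt_fst
  have a2 : ContDiffAt ℝ ∞ (fun p : ℝ × ℂ => ‖p.2‖ ^ 2) q :=
    (contDiff_norm_sq ℝ).contDiffAt.comp q contDiffAt_snd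
  exact contDiffAt_const.mul ((((a1.pow 2).add a2).sqrt (by positivity)).sub a1)

theorem fib_in {q : ℝ × ℂ} (hq : 0 < α q.1) :
    fib k α q = (q.1, α q.1 • k ((α q.1)⁻¹ • q.2)) :=
  Prod.ext rfl (persp_hom (G := fun z => z) (fun _ _ _ => rfl) q.2 hq)

theorem fib_out (hk : ∀ u, R ≤ ‖u‖ → k u = u) {q : ℝ × ℂ} (hq : R * α q.1 ≤ ‖q.2‖) :
    fib k α q = q := by
  by_cases h : 0 < α q.1
  · rw [fib_in h, hk, smul_smul, mul_inv_cancel₀ h.ne', one_smul]
    rw [norm_smul, norm_inv, Real.norm_eq_abs, abs_of_pos h, inv_mul_eq_div, le_div_iff₀ h]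
    exact hq
  · simp [fib, persp, h]

theorem fib_inv {k' : ℂ → ℂ} (hk : Function.LeftInverse k' k) (q : ℝ × ℂ) :
    fib k' α (fib k α q) = q := by
  by_cases h : 0 < α q.1
  · rw [fib_in h, fib_in (q := (q.1, α q.1 • k ((α q.1)⁻¹ • q.2))) h]
    simp only [smul_smul, inv_mul_cancel₀ h.ne', one_smul, hk _, mul_inv_cancel₀ h.ne']
  · simp [fib, persp, h]

theorem fib_ld (h : Adm α) (hd : ∀ u, LD k u) {q : ℝ × ℂ} (hq : 0 < α q.1) :
    LD (fib k α) q :=
  ld_fib (smooth_scale (G := fun z => z) (fun _ _ _ => rfl) (fun z => (hd z).1) (h.smooth _ hq) hq)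
    (by
      have h2 : (fun z : ℂ => z + persp (fun u => k u - u) z (α q.1)) =
          fun z => α q.1 • k ((α q.1)⁻¹ • z) :=
        funext fun z => persp_hom (G := fun z => z) (fun _ _ _ => rfl) z hq
      show LD (fun z : ℂ => z + persp (fun u => k u - u) z (α q.1)) q.2
      rw [h2]
      exact LD.comp (G := fun w : ℂ => α q.1 • w) (ld_smul hq.ne' _)
        (LD.comp (hd _) (ld_smul (inv_ne_zero hq.ne') _)))

theorem persp_scale (hR : 0 < R) (z : ℂ) (a : ℝ) : persp (fun u => k u - u) z a =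
    persp (fun w => R⁻¹ • k (R • w) - w) z (R * a) := by
  unfold persp
  by_cases h : 0 < a
  · rw [if_pos h, if_pos (mul_pos hR h)]
    simp only [smul_sub, smul_smul]
    rw [mul_inv_cancel₀ h.ne', mul_inv_cancel₀ (mul_pos hR h).ne',
      show R * a * R⁻¹ = a by field_simp, show R * (R * a)⁻¹ = a⁻¹ by field_simp]
  · rw [if_neg h, if_neg fun h' => h ((mul_pos_iff_of_pos_left hR).1 h')]

theorem fib_lip (hR : 0 < R) (hd : ∀ u, LD k u) (hk : ∀ u, R ≤ ‖u‖ → k u = u) :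
    ∃ L : ℝ≥0, ∀ α : ℝ → ℝ, Adm α → LipschitzWith L (fib k α) := by
  have h0 : ∀ w : ℂ, 1 ≤ ‖w‖ → R⁻¹ • k (R • w) = w := fun w hw => by
    rw [hk, smul_smul, inv_mul_cancel₀ hR.ne', one_smul]
    rw [norm_smul, Real.norm_eq_abs, abs_of_pos hR]
    exact le_mul_of_one_le_right hR.le hw
  obtain ⟨L, hL, hb⟩ := lip_diff (fun w => R⁻¹ • k (R • w)) (fun w => w)
    (fun z => ((hd _).1.comp z (contDiffAt_id.const_smul R)).const_smul R⁻¹) LipschitzWith.id h0
  refine ⟨max 1 (1 + L + 2 * L * R.toNNReal), fun α h => LipschitzWith.prod_fst.prodMk ?_⟩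
  refine LipschitzWith.of_dist_le_mul fun p p' => ?_
  have h2 := blockPERSP ℂ ℂ _ L hL hb (fun w hw => by rw [h0 w hw, sub_self]) p.2 p'.2
    (R * α p.1) (R * α p'.1)
  rw [← persp_scale hR, ← persp_scale hR, ← mul_sub, abs_mul, abs_of_pos hR] at h2
  have h3 := adm_abs h p.1 p'.1
  rw [dist_eq_norm, dist_eq_norm, add_sub_add_comm]
  refine (norm_add_le _ _).trans ?_
  have h4 : ‖p.2 - p'.2‖ ≤ ‖p - p'‖ := norm_snd_le (p - p')
  have h5 : |p.1 - p'.1| ≤ ‖p - p'‖ := norm_fst_le (p - p')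
  have hL0 : (0 : ℝ) ≤ L := L.2
  have h8 := mul_le_mul_of_nonneg_left h4 hL0
  have h9 := mul_le_mul_of_nonneg_left (h3.trans h5) (mul_nonneg hL0 hR.le)
  push_cast
  rw [Real.coe_toNNReal R hR.le]
  linarith

theorem anti_weaken {X Y : Type} [PseudoEMetricSpace X] [PseudoEMetricSpace Y] {f : X → Y}
    {K K' : ℝ≥0} (h : AntilipschitzWith K f) (hK : K ≤ K') : AntilipschitzWith K' f :=
  fun x y => (h x y).trans (by gcongr)

end FA

open FA in
/-- Block FA: the fountain maps have bounded distortion. -/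
theorem blockFA : StmtFA := by
  intro M R k hM hR hb hd hk
  have hinv : Function.RightInverse (Function.invFunOn k univ) k := fun y =>
    Function.invFunOn_eq (let ⟨x, hx⟩ := hb.2 y; ⟨x, mem_univ _, hx⟩)
  have hinv' : Function.LeftInverse (Function.invFunOn k univ) k := fun x => hb.1 (hinv _)
  obtain ⟨L, hL⟩ := fib_lip hR hd hk
  obtain ⟨L', hL'⟩ := fib_lip (k := Function.invFunOn k univ) hR
    (fun u => (blockINV ℂ k univ isOpen_univ hb.1.injOn fun x _ => hd x).2 u ⟨_, mem_univ _, hinv u⟩)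
    fun u hu => by simpa [hk u hu] using hinv' u
  refine ⟨(1 + 3 * M.toNNReal) * (L * (1 + M.toNNReal)) +
    (1 + 3 * M.toNNReal) * L' * (1 + M.toNNReal), fun α h => ?_⟩
  obtain ⟨sb, sd⟩ := shr_bij hM h
  have r1 : Function.RightInverse (Function.invFun (shr M α)) (shr M α) :=
    Function.rightInverse_invFun sb.2
  have l1 : Function.LeftInverse (Function.invFun (shr M α)) (shr M α) :=
    Function.leftInverse_invFun sb.1
  have il := (shr_anti hM h).to_rightInverse r1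
  have ia := (shr_lip hM h).to_rightInverse r1
  have fa : AntilipschitzWith L' (fib k α) := (hL' α h).to_rightInverse (fib_inv hinv')
  have fb : Function.Bijective (fib k α) :=
    Function.bijective_iff_has_inverse.2 ⟨_, fib_inv hinv', fib_inv hinv⟩
  have out : ∀ q : ℝ × ℂ, R * α q.1 ≤ ‖q.2‖ → fnt M k α (shr M α q) = shr M α q := fun q hq => by
    rw [fnt, l1, fib_out hk hq]
  refine ⟨sb, sb.comp (fb.comp (Function.bijective_iff_has_inverse.2 ⟨_, r1, l1⟩)),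
    ((shr_lip hM h).comp ((hL α h).comp il)).weaken le_self_add,
    anti_weaken ((shr_anti hM h).comp (fa.comp ia)) le_add_self, out, fun q hq => ?_,
    fun q hq => ?_⟩
  · have hU : IsOpen {p : ℝ × ℂ | 0 < α p.1} :=
      isOpen_lt continuous_const (h.lip.continuous.comp continuous_fst)
    obtain ⟨i1, i2⟩ := blockINV (ℝ × ℂ) (shr M α) _ hU sb.1.injOn fun p hp => sd p hp
    have i3 : LD (Function.invFun (shr M α)) (shr M α q) := by
      refine (i2 _ ⟨q, hq, rfl⟩).congr ?_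
      filter_upwards [(i1 _ hU Subset.rfl).mem_nhds ⟨q, hq, rfl⟩] with y hy
      exact sb.1 ((r1 y).trans (Function.invFunOn_eq hy).symm)
    refine LD.comp (G := shr M α) (F := fun x => fib k α (Function.invFun (shr M α) x)) ?_
      (LD.comp (by rw [l1]; exact fib_ld h hd hq) i3)
    rw [l1]
    exact sd _ hq
  · have h1 : ∀ᶠ p : ℝ × ℂ in 𝓝 q, R * α p.1 ≤ ‖p.2‖ := by
      rcases hq with hq | hq
      · filter_upwards [(isOpen_lt (continuous_const.mul (h.lip.continuous.comp continuous_fst))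
          continuous_snd.norm).mem_nhds hq] with p hp
        exact le_of_lt hp
      · filter_upwards [continuous_fst.continuousAt.eventually hq] with p hp
        rw [hp, mul_zero]
        exact norm_nonneg _
    have h2 : Tendsto (Function.invFun (shr M α)) (𝓝 (shr M α q)) (𝓝 q) := by
      have := il.continuous.tendsto (shr M α q)
      rwa [l1] at this
    filter_upwards [h2.eventually h1] with x hx
    have := out _ hx
    rwa [r1] at this

end Vale.Agent.P073Z.Sv
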