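import Vale.Agent.P073Z.Sv.Sk
import Vale.Agent.P073Z.Sm.All0

/-!
# P073, block FACEH: smoothing along all faces, homogeneous near the vertices
-/

open Set Metric MeasureTheory Topology Filter
open scoped ContDiff ENNReal NNReal RealInnerProductSpace

noncomputable section

namespace Vale.Agent.P073Z.Sv

open Vale.Agent.P073Z.Sm Vale.Agent.P073Z.Sm.Face

namespace FaceH

theorem norm_phi (v y : E) {t : ℝ} (ht : 0 ≤ t) : ‖v + t • (y - v) - v‖ = t * ‖y - v‖ := by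
  rw [add_sub_cancel_left, norm_smul_of_nonneg ht]

theorem phi_mem {v y : E} {R t : ℝ} (hy : y ∈ ball v R) (ht : t ∈ Ioc (0 : ℝ) 1) :
    v + t • (y - v) ∈ ball v R := by
  rw [mem_ball, dist_eq_norm] at hy ⊢
  rw [norm_phi v y ht.1.le]
  nlinarith [ht.2, norm_nonneg (y - v)]

theorem phi_ne {v y : E} {t : ℝ} (hy : y ≠ v) (ht : t ∈ Ioc (0 : ℝ) 1) : v + t • (y - v) ≠ v :=
  fun h => by
    rw [add_eq_left, smul_eq_zero, sub_eq_zero] at h
    exact h.elim ht.1.ne' hy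

theorem vx_mono {U V : Set E} {r : E → ℝ} (h : Vx U V r) : Vx U V fun v => r v / 4 where
  pos v hv := by have := h.pos v hv; positivity
  nmem := h.nmem
  sub v hv y hy := h.sub v hv y (ball_subset_ball (by linarith [h.pos v hv]) hy)
  disj v hv w hw hne := (h.disj v hv w hw hne).mono (ball_subset_ball (by linarith [h.pos v hv]))
    (ball_subset_ball (by linarith [h.pos w hw]))
  fin x hx := by
    obtain ⟨W, hW, hf⟩ := h.fin x hx
    exact ⟨W, hW, hf.subset fun v hv => ⟨hv.1, hv.2.mono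
      (inter_subset_inter_right _ (ball_subset_ball (by linarith [h.pos v hv.1])))⟩⟩

/-- a vertex -/
structure Vtx (g : E → E) (U : Set E) (v : E) (R : ℝ) : Prop where
  pos : 0 < R
  nmem : v ∉ U
  sub : ∀ y ∈ ball v R, y ≠ v → y ∈ U
  map : ConeMap g v R
  lab : ∀ y ∈ ball v R, y ≠ v → y - v ∈ Lin g y ∧ tanM g y v = g v ∧
    (∀ (z : E) (t : ℝ), 0 ≤ t → tanM g y (v + t • (z - v)) = g v + t • (tanM g y z - g v)) ∧
    ∀ t ∈ Ioc (0 : ℝ) 1, Lin g (v + t • (y - v)) = Lin g y ∧ lab g (v + t • (y - v)) = lab g y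

section Cones

variable {g : E → E} {U : Set E} {v : E} {R : ℝ}

theorem Vtx.cls (h : Vtx g U v R) (P : Lab → Prop) :
    ConeSet {y | y ∈ Sk g U 1 ∧ P (Sm.lab g y)} v R := by
  intro y hy t ht
  by_cases hne : y = v
  · rw [hne, sub_self, smul_zero, add_zero]
  · obtain ⟨h1, h2⟩ := (h.lab y hy hne).2.2.2 t ht
    have h3 := h.sub y hy hne
    have h4 := h.sub _ (phi_mem hy ht) (phi_ne hne ht)
    have h5 : rk g (v + t • (y - v)) = rk g y := by rw [rk, rk, h1]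
    simp only [Sk, mem_ofPred_eq, h5, h2, h3, h4]

theorem Vtx.sk (h : Vtx g U v R) : ConeSet (Sk g U 1) v R := by
  have h1 := h.cls fun _ => True
  simpa only [and_true, ofPred_mem_eq] using h1

theorem Vtx.line (h : Vtx g U v R) {x0 e : Lab → E} (hl : Lines U (Sk g U 1) (Sm.lab g) x0 e)
    {y : E} (hy : y ∈ ball v R) (hS : y ∈ Sk g U 1) :
    rc (x0 (Sm.lab g y)) (e (Sm.lab g y)) v = 0 := by
  have h0 := (hl.loc y hS).self_of_nhds.1.1 hS
  have ht : Tendsto (fun t : ℝ => v + t • (y - v)) (𝓝[<] 1) (𝓝 y) := by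
    have : Continuous fun t : ℝ => v + t • (y - v) := by fun_prop
    simpa using (this.tendsto 1).mono_left nhdsWithin_le_nhds
  obtain ⟨t, h1, h2⟩ := ((ht.eventually (hl.loc y hS)).and
    (Ioo_mem_nhdsLT (zero_lt_one' ℝ))).exists
  have h3 := h1.1.1 ((h.sk y hy t ⟨h2.1, h2.2.le⟩).2 hS)
  have h4 := rc_phi (hl.unit _) h0 v (sub_nonneg.2 h2.2.le) 0
  rw [show y + (1 - t) • (v - y) + (0 : ℝ) • e (Sm.lab g y) = v + t • (y - v) by module, h3] at h4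
  exact (mul_eq_zero.1 h4.symm).resolve_left (sub_pos.2 h2.2).ne'

theorem Vtx.nbhd (hC : StmtCONE) (h : Vtx g U v R) {x0 e : Lab → E}
    (hl : Lines U (Sk g U 1) (Sm.lab g) x0 e) {γ : E → ℝ} (hγ : ∀ y ∈ ball v R, γ y = ‖y - v‖)
    {y : E} (hy : y ∈ ball v R) (hS : y ∈ Sk g U 1) :
    ConeSet ({z | g =ᶠ[𝓝 z] (Sm.lab g y).1} ∩
      {z | rc (x0 (Sm.lab g y)) (e (Sm.lab g y)) z < γ z}) v R := by
  have hne : y ≠ v := fun h1 => h.nmem (h1 ▸ hS.1)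
  have h1 := hC.agree g (tanM g y) v R h.map (h.lab y hy hne).2.2.1
  intro z hz t ht
  refine and_congr (h1 z hz t ht) ?_
  have h2 := rc_phi (hl.unit _) (h.line hl hy hS) z ht.1.le 0
  rw [zero_smul, add_zero] at h2
  rw [mem_ofPred_eq, mem_ofPred_eq, h2, hγ _ (phi_mem hz ht), hγ z hz, norm_phi v z ht.1.le,
    mul_lt_mul_iff_right₀ ht.1]

end Cones

section Lens

variable {X : Ctx} {v y : E} {R t : ℝ}

theorem plane {l : Lab} (F : Fc X l) (h : Vtx X.g X.U v R) (hy : y ∈ ball v (R / 32))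
    (hL : y ∈ F.L) : F.σ v = 0 ∧ X.g v = X.g F.xf + F.A (v - F.xf) := by
  have hp := F.pr_mem hL.1
  have h1 : F.pr y ∈ ball v R := by
    have := F.dist_pr_le (x := v) (Or.inr h.nmem) (F.L_sub hL)
    rw [mem_ball] at hy ⊢
    linarith [h.pos]
  obtain ⟨h2, h3, -⟩ := h.lab _ h1 fun h2 => h.nmem (h2 ▸ hp.1)
  have h4 : F.σ v = 0 := (F.lin_iff hp v).1 (by
    rw [← neg_sub]
    exact neg_mem h2)
  have htan : tanM X.g (F.pr y) = l.1 := congrArg Prod.fst hp.2.2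
  rw [htan, F.tan, show ⟪F.n, v - F.xf⟫ = 0 from h4] at h3
  exact ⟨h4, by simpa using h3.symm⟩

theorem sigma_phi {l : Lab} (F : Fc X l) (h : F.σ v = 0) (y : E) (t : ℝ) :
    F.σ (v + t • (y - v)) = t * F.σ y := by
  have h1 := F.σ_sub (v + t • (y - v)) v
  rw [h, sub_zero, add_sub_cancel_left, inner_smul_right, ← F.σ_sub, h, sub_zero] at h1
  exact h1

theorem lens_iff {l : Lab} (F : Fc X l) (h : F.σ v = 0) (ht : 0 < t)
    (hd : F.d (v + t • (y - v)) = t * F.d y) : v + t • (y - v) ∈ F.L ↔ y ∈ F.L := by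
  rw [Fc.L, mem_ofPred_eq, mem_ofPred_eq, hd, sigma_phi F h, abs_mul, abs_of_pos ht,
    mul_pos_iff_of_pos_left ht, mul_le_mul_iff_right₀ ht]

variable {F : ∀ l : X.I, Fc X l.1}

theorem hh_cone (h : Vtx X.g X.U v R) (hd : ∀ l, (F l).σ v = 0 → HomFn (F l).d v (R / 4 / 4)) :
    ConeMap (hh F) v (R / 32) := by
  intro y hy t ht
  have hv : hh F v = X.g v := hh_off fun l hl => h.nmem ((F l).N_sub ((F l).L_sub hl))
  have hy' : y ∈ ball v (R / 4 / 4) := ball_subset_ball (by linarith [h.pos]) hy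
  rw [hv]
  by_cases hL : ∃ l, y ∈ (F l).L
  · obtain ⟨l, hl⟩ := hL
    obtain ⟨h1, h2⟩ := plane (F l) h hy hl
    have h3 := hd l h1 y hy' t ht
    have h4 := sigma_phi (F l) h1 y t
    rw [Fc.σ, Fc.σ] at h4
    rw [hh_L ((lens_iff (F l) h1 ht.1 h3).2 hl), hh_L hl, Fc.H, fm, fm, h4, h3,
      X.hM.hom _ _ _ ht.1, h2]
    simp only [map_add, map_sub, map_smul]
    module
  · rw [hh_off (not_exists.1 hL), hh_off fun l hl => ?_]
    · exact h.map y (ball_subset_ball (by linarith [h.pos]) hy) t ht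
    · have h1 := (plane (F l) h (phi_mem hy ht) hl).1
      exact hL ⟨l, (lens_iff (F l) h1 ht.1 (hd l h1 y hy' t ht)).1 hl⟩

theorem hh_aff (h : Vtx X.g X.U v R) : AffNear (hh F) v := by
  intro V hV
  obtain ⟨δ, hδ, hV⟩ := Metric.mem_nhds_iff.1 hV
  have hne : (ball v (δ / 4) ∩ X.U).Nonempty := by
    have h1 : ∀ᶠ y in 𝓝[≠] v, y ∈ ball v (δ / 4) ∩ ball v R :=
      mem_nhdsWithin_of_mem_nhds (inter_mem (ball_mem_nhds v (by positivity))
        (ball_mem_nhds v h.pos))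
    obtain ⟨y, h2, h3⟩ := (h1.and self_mem_nhdsWithin).exists
    exact ⟨y, h2.1, h.sub y h2.2 h3⟩
  obtain ⟨y, hy, hyS⟩ := (Measure.dense_of_ae (measure_eq_zero_iff_ae_notMem.1
    X.null)).inter_open_nonempty (ball v (δ / 4) ∩ X.U) (isOpen_ball.inter X.opn) hne
  have hy1 := mem_ball.1 hy.1
  obtain ⟨y1, h1, A, b, h2⟩ : ∃ y1 ∈ ball v δ, ∃ (A : E →L[ℝ] E) (b : E),
      ∀ᶠ z in 𝓝 y1, hh F z = b + A z := by
    by_cases hN : ∃ l, y ∈ (F l).N
    · obtain ⟨l, hl⟩ := hN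
      obtain ⟨y1, a1, a2, A, b, a3⟩ := (F l).exists_aff (x := v) (Or.inr h.nmem) hl
      refine ⟨y1, by rw [mem_ball]; linarith, A, b, ?_⟩
      filter_upwards [hh_N' a1, a3] with z b1 b2 using b1.trans b2
    · obtain ⟨a1, A, a2⟩ := hh_free ⟨hy.2, hyS⟩ (not_exists.1 hN)
      refine ⟨y, by rw [mem_ball]; linarith, A, X.g y - A y, ?_⟩
      filter_upwards [a1.trans a2] with z hz
      rw [hz, map_sub, ContinuousLinearEquiv.coe_coe]
      abel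
  obtain ⟨W, hW, hWo, hyW⟩ := _root_.mem_nhds_iff.1 (h2.and (isOpen_ball.mem_nhds h1))
  exact ⟨W, hWo, ⟨y1, hyW⟩, fun z hz => hV (hW hz).2, A, b, fun z hz => (hW hz).1⟩

end Lens

theorem exists_fc (hFD : StmtFDH) (hFM : StmtFM) (X : Ctx) (hb : Bornology.IsBounded X.U)
    {O : Lab → Set E} (hT : Tubes X.U (Sk X.g X.U 1) (lab X.g) X.x0 X.e (fun _ => 1) O X.ρ)
    (h1 : ∀ i, ∀ y ∈ O i, X.g =ᶠ[𝓝 y] i.1) (h2 : ∀ i, ∀ y ∈ O i, rc (X.x0 i) (X.e i) y ≤ X.γ y)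
    {V : Set E} {r : E → ℝ} (hV : Vx X.U V r)
    (hg : ∀ v ∈ V, ConeMap X.g v (r v) ∧ SupFn X.γ X.U v (r v)) (hH : TubesH V r X.x0 X.e X.ρ)
    (l : X.I) {p : ℝ} (hp : 1 ≤ p) {η : ℝ≥0∞} (hη : 0 < η) : ∃ F : Fc X l.1,
      (2 * F.C : ℝ≥0∞) ^ p * volume ({y | |F.σ y| ≤ F.κ} ∩ X.U) ≤ η ∧
        ∀ v ∈ V, F.σ v = 0 → HomFn F.d v (r v / 4) := by
  obtain ⟨l, xf, hU, hr, rfl⟩ := l
  obtain ⟨A, n, a, hn, ha, hlin, htan⟩ :=
    X.st.rk2 X.g xf X.U (X.cone xf hU) (X.opn.mem_nhds hU) X.inj hr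
  obtain ⟨κ0, C, hκ0, hfm⟩ := hFM X.M A n a X.hM hn ha
  have e1 : ∀ᶠ κ : ℝ in 𝓝[>] 0, κ ≤ min (κ0 : ℝ) (1 / 3) :=
    mem_nhdsWithin_of_mem_nhds (ge_mem_nhds (lt_min hκ0 (by norm_num)))
  have e2 : ∀ᶠ κ : ℝ in 𝓝[>] 0, (C : ℝ) * κ ≤ 1 / 2 :=
    mem_nhdsWithin_of_mem_nhds ((continuous_const.mul continuous_id).continuousAt.eventually
      (ge_mem_nhds (by simp)))
  obtain ⟨κ, ⟨⟨a1, a2⟩, a3⟩, a4⟩ := (((e1.and e2).and (exists_slab X.opn hb hn xf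
    (c := (2 * C : ℝ≥0∞) ^ p) (ENNReal.rpow_ne_top_of_nonneg (by linarith)
      (ENNReal.mul_ne_top (by simp) ENNReal.coe_ne_top)) hη)).and self_mem_nhdsWithin).exists
  lift κ to ℝ≥0 using le_of_lt a4
  obtain ⟨d, d1, d2, d3, d4, d5, d6, d7, d8⟩ := hFD X.g X.U V r X.x0 X.e (fun _ => 1) O X.ρ X.γ
    xf n κ X.opn hb X.cone X.rk1 X.lines hT (fun _ => le_rfl) h1 h2
    X.lip.continuous.continuousOn X.pos hU hr hn hlin a4 hV hg hH
  have hG : fm X.M (X.g xf) A xf n a (fun _ => 0) = tanM X.g xf := funext fun y => by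
    rw [htan, fm, X.hM.out _ _ le_rfl (abs_nonneg _)]
  obtain ⟨g1, g2, -, -⟩ := hfm (X.g xf) xf (fun _ => 0) ((LipschitzWith.const 0).weaken zero_le)
    fun _ => le_rfl
  obtain ⟨f1, f2, f3, f4⟩ := hfm (X.g xf) xf d (d1.weaken (a1.trans (min_le_left _ _))) d2
  rw [hG] at g1 g2 f4
  exact ⟨⟨xf, n, a, A, d, C, κ, ⟨hU, hr, rfl⟩, hn, hlin, htan, a1.trans (min_le_right _ _), a2, d1,
    d2, d3, d4, d6, d7, g1, f1, g2, f2, fun y hy => f3 y hy (d5 y hy), f4⟩, a3, d8⟩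

end FaceH

open FaceH in
theorem blockFACEH_of (hM : StmtM) (hST : StmtST) (hT : StmtT) (hFM : StmtFM) (hP : StmtPATCH)
    (hTH : StmtTH) (hFD : StmtFDH) (hC : StmtCONE) : StmtFACEH := by
  intro p g U V r γ ε hp hU hb hc hi hcone hrk hγ hpos hε hV hg
  obtain ⟨M, hM⟩ := hM
  obtain ⟨x0, e, hl⟩ := hST.lines g U hU hcone hrk
  obtain ⟨-, hnull, -⟩ := hT Lab U _ _ x0 e hl hb
  have hv : ∀ v ∈ V, Vtx g U v (r v) := fun v hv =>
    ⟨hV.pos v hv, hV.nmem v hv, hV.sub v hv, (hg v hv).1, hC.lab g v (r v) (hg v hv).1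
      fun y hy hne => hcone y (hV.sub v hv y hy hne)⟩
  obtain ⟨ρ, hρ, -, hH⟩ := hTH Lab U _ V r _ x0 e (fun _ => 1)
    (fun i => {y | g =ᶠ[𝓝 y] i.1} ∩ {y | rc (x0 i) (e i) y < γ y}) (fun _ _ => 1) hl hb hV
    (fun v h i => (hv v h).cls fun l => l = i)
    (fun _ => one_pos) (fun i => isOpen_setOfPred_eventually_nhds.inter
      (isOpen_lt (continuous_rc _ _) hγ.continuous))
    (fun x hx => ⟨EventuallyEq.symm (hST.isTan g x (hcone x hx.1)).1,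
      ((hl.loc x hx).self_of_nhds.1.1 hx).trans_lt (hpos x hx.1)⟩)
    (fun _ => continuousOn_const) (fun _ _ _ => one_pos) fun v h y hy hS =>
      ⟨(hv v h).nbhd hC hl (hg v h).2 hy hS, fun _ _ _ t ht => by simpa using ht.2⟩
  let X : Ctx := ⟨M, g, U, γ, x0, e, ρ, hM, hST, hU, hc, hi, hcone, hrk, hγ, hpos, hl,
    fun i => (hρ.lip i).continuous, fun i s h h' => (hρ.pos i s).2 ⟨h, h'⟩, hnull⟩
  have hsub : {l | (face g U l).Nonempty} ⊆ lab g '' U := fun _ ⟨x, hx⟩ => ⟨x, hx.1, hx.2.2⟩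
  have : Countable X.I := ((hST.count g U hU hcone).mono hsub).to_subtype
  obtain ⟨η, hη, hs⟩ := ENNReal.exists_pos_sum_of_countable' hε.ne' X.I
  have hq : ∀ v ∈ V, ball v (r v / 4) ⊆ ball v (r v) := fun v h =>
    ball_subset_ball (by linarith [hV.pos v h])
  have hg4 : ∀ v ∈ V, ConeMap X.g v (r v / 4) ∧ SupFn X.γ X.U v (r v / 4) := fun v h =>
    ⟨fun y hy => (hg v h).1 y (hq v h hy), fun y hy _ t ht => by
      change t * γ y ≤ γ _
      rw [(hg v h).2 y (hq v h hy), (hg v h).2 _ (phi_mem (hq v h hy) ht), norm_phi v y ht.1.le]⟩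
  choose F hF hF' using fun l => FaceH.exists_fc hFD hFM X hb hρ (fun _ _ h => h.1)
    (fun _ _ h => le_of_lt h.2) (vx_mono hV) hg4 hH l hp (hη l)
  exact ⟨hh F, Sk g U 1, fun x hx => hh_off fun l h => hx ((F l).N_sub ((F l).L_sub h)),
    hh_cont, hh_bij hP, fun _ => hh_gauge (X := X),
    (hh_energy hp).trans ((ENNReal.tsum_le_tsum hF).trans hs.le), hl.sub, hl.cl,
    fun _ => hh_ld (X := X), hh_edge, fun v h =>
      ⟨hh_cone (X := X) (hv v h) fun l => hF' l v h, fun y hy => (hv v h).sk y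
        (ball_subset_ball (by linarith [hV.pos v h]) hy), hh_aff (X := X) (hv v h)⟩⟩

theorem blockFACEH (hTH : StmtTH) (hFD : StmtFDH) (hC : StmtCONE) : StmtFACEH :=
  blockFACEH_of blockM blockST thmT thmFM blockPATCH hTH hFD hC

end Vale.Agent.P073Z.Sv
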