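import Vale.Agent.P073Z.Sv.Sk
import Vale.Agent.P073Z.Sm.INV
import Vale.Agent.P073Z.Sm.SHEAR

/-!
# P073, smoothing for all exponents: block FB (normal form of a cone map)
-/

open Set Metric MeasureTheory Topology Filter
open scoped ContDiff ENNReal NNReal

noncomputable section

namespace Vale.Agent.P073Z.Sv

open Vale.Agent.P073Z.Sm

namespace FB

theorem euler {X : Type} [NormedAddCommGroup X] [NormedSpace ℝ X] {T : X → X}
    (hh : ∀ (q : X) (t : ℝ), 0 ≤ t → T (t • q) = t • T q) {q : X}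
    (hd : DifferentiableAt ℝ T q) : fderiv ℝ T q q = T q := by
  have h0 : HasDerivAt (fun t : ℝ => t • q) q 1 := by
    simpa using (hasDerivAt_id (1 : ℝ)).smul_const q
  have h1 : HasDerivAt (fun t : ℝ => T (t • q)) (fderiv ℝ T q q) 1 := by
    have hx : HasFDerivAt T (fderiv ℝ T q) ((1 : ℝ) • q) := by simpa using hd.hasFDerivAt
    exact hx.comp_hasDerivAt (1 : ℝ) h0
  have h2 : HasDerivAt (fun t : ℝ => t • T q) (T q) 1 := by
    simpa using (hasDerivAt_id (1 : ℝ)).smul_const (T q)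
  have h3 : (fun t : ℝ => T (t • q)) =ᶠ[𝓝 1] fun t : ℝ => t • T q :=
    (lt_mem_nhds one_pos : ∀ᶠ t : ℝ in 𝓝 1, 0 < t).mono fun t ht => hh q t ht.le
  exact h1.unique (h2.congr_of_eventuallyEq h3)

theorem neg_smul_eq {q : ℝ × ℂ} (hq : q.1 < 0) :
    q = (-q.1) • (((-1 : ℝ), (-q.1)⁻¹ • q.2) : ℝ × ℂ) := by
  have h : -q.1 ≠ 0 := (neg_pos.2 hq).ne'
  ext1
  · simp
  · simp only [Prod.smul_snd]
    rw [smul_smul, mul_inv_cancel₀ h, one_smul]

/-- projectivization of a cone map of the half space -/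
theorem exists_k {T : ℝ × ℂ → ℝ × ℂ}
    (hh : ∀ (q : ℝ × ℂ) (t : ℝ), 0 ≤ t → T (t • q) = t • T q) (hb : Function.Bijective T)
    (hid : ∀ q : ℝ × ℂ, 0 ≤ q.1 → T q = q) (hneg : ∀ q : ℝ × ℂ, q.1 < 0 → (T q).1 < 0)
    (hld : ∀ q : ℝ × ℂ, q.1 < 0 → LD T q) :
    ∃ (k : ℂ → ℂ) (lam : ℂ → ℝ), Function.Bijective k ∧ (∀ u, LD k u) ∧ (∀ u, 0 < lam u) ∧
      ∀ u, T (-1, u) = lam u • ((-1 : ℝ), k u) := by
  set lam : ℂ → ℝ := fun u => -(T (-1, u)).1 with hlam
  set k : ℂ → ℂ := fun u => (lam u)⁻¹ • (T (-1, u)).2 with hk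
  have hp : ∀ u, 0 < lam u := fun u => neg_pos.2 (hneg _ (by norm_num))
  have he : ∀ u, T (-1, u) = lam u • ((-1 : ℝ), k u) := fun u =>
    neg_smul_eq (hneg (-1, u) (by norm_num))
  refine ⟨k, lam, ⟨fun u u' h => ?_, fun w => ?_⟩, fun u => ?_, hp, he⟩
  · have h1 : ∀ u, T ((lam u)⁻¹ • ((-1 : ℝ), u)) = (-1, k u) := fun u => by
      rw [hh _ _ (inv_pos.2 (hp u)).le, he, smul_smul, inv_mul_cancel₀ (hp u).ne', one_smul]
    have h2 : (lam u)⁻¹ • (((-1 : ℝ), u) : ℝ × ℂ) = (lam u')⁻¹ • ((-1 : ℝ), u') :=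
      hb.1 (by rw [h1, h1, h])
    have h3 : (lam u)⁻¹ = (lam u')⁻¹ := by simpa using congrArg Prod.fst h2
    rw [h3] at h2
    exact congrArg Prod.snd (smul_right_injective _ (inv_pos.2 (hp u')).ne' h2)
  · obtain ⟨q, hq⟩ := hb.2 (-1, w)
    have hq1 : q.1 < 0 := by
      by_contra h
      have h1 := hid q (not_lt.1 h)
      rw [hq] at h1
      rw [← h1] at h
      norm_num at h
    refine ⟨(-q.1)⁻¹ • q.2, ?_⟩
    rw [neg_smul_eq hq1, hh _ _ (neg_pos.2 hq1).le, he, smul_smul] at hq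
    have h3 : -q.1 * lam ((-q.1)⁻¹ • q.2) = 1 := by
      have := congrArg Prod.fst hq
      simp only [Prod.smul_fst, smul_eq_mul] at this
      linarith
    rw [h3, one_smul] at hq
    exact congrArg Prod.snd hq
  · have hT := hld (-1, u) (by norm_num)
    have hs : ContDiffAt ℝ ∞ (fun u : ℂ => T (-1, u)) u :=
      hT.1.comp u (f := fun u : ℂ => (((-1 : ℝ), u) : ℝ × ℂ)) (contDiffAt_const.prodMk contDiffAt_id)
    have hls : ContDiffAt ℝ ∞ lam u := (contDiffAt_fst.comp u hs).neg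
    have hks : ContDiffAt ℝ ∞ k u := (hls.inv (hp u).ne').smul (contDiffAt_snd.comp u hs)
    refine ⟨hks, (injective_iff_map_eq_zero _).2 fun ξ hξ => ?_⟩
    have d0 : HasDerivAt (fun t : ℝ => u + t • ξ) ξ 0 := by
      simpa using ((hasDerivAt_id (0 : ℝ)).smul_const ξ).const_add u
    have d1 : HasDerivAt (fun t : ℝ => lam (u + t • ξ)) (fderiv ℝ lam u ξ) 0 := by
      have hx : HasFDerivAt lam (fderiv ℝ lam u) (u + (0 : ℝ) • ξ) := by
        simpa using (hls.differentiableAt (by simp)).hasFDerivAt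
      exact hx.comp_hasDerivAt (0 : ℝ) d0
    have d2 : HasDerivAt (fun t : ℝ => k (u + t • ξ)) 0 0 := by
      have hx : HasFDerivAt k (fderiv ℝ k u) (u + (0 : ℝ) • ξ) := by
        simpa using (hks.differentiableAt (by simp)).hasFDerivAt
      rw [← hξ]
      exact hx.comp_hasDerivAt (0 : ℝ) d0
    have d3 : HasDerivAt (fun t : ℝ => T (-1, u + t • ξ)) (fderiv ℝ T (-1, u) (0, ξ)) 0 := by
      have hx : HasFDerivAt T (fderiv ℝ T (-1, u)) (((-1 : ℝ), u + (0 : ℝ) • ξ) : ℝ × ℂ) := by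
        simpa using hT.differentiableAt.hasFDerivAt
      exact hx.comp_hasDerivAt (0 : ℝ) (f := fun t : ℝ => (((-1 : ℝ), u + t • ξ) : ℝ × ℂ))
        ((hasDerivAt_const (0 : ℝ) (-1 : ℝ)).prodMk d0)
    have d4 := d1.smul ((hasDerivAt_const (0 : ℝ) (-1 : ℝ)).prodMk d2)
    have d5 := d3.unique (d4.congr_of_eventuallyEq (Eventually.of_forall fun t => he _))
    simp only [zero_smul, add_zero, Prod.mk_zero_zero, smul_zero, zero_add] at d5
    have d6 := euler hh hT.differentiableAt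
    rw [he u] at d6
    have d7 : fderiv ℝ T (-1, u) (0, ξ) =
        fderiv ℝ T (-1, u) ((fderiv ℝ lam u ξ / lam u) • ((-1 : ℝ), u)) := by
      rw [map_smul, d6, d5, smul_smul, div_mul_cancel₀ _ (hp u).ne']
    have d8 := hT.2 d7
    have d9 : fderiv ℝ lam u ξ / lam u = 0 := by
      have := congrArg Prod.fst d8
      simp only [Prod.smul_fst, smul_eq_mul] at this
      linarith
    rw [d9, zero_smul] at d8
    exact congrArg Prod.snd d8

/-- the width of the homogeneous model -/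
def al (s : ℝ) : ℝ := max (-s) 0

theorem al_of_nonneg {s : ℝ} (h : 0 ≤ s) : al s = 0 := max_eq_right (neg_nonpos.2 h)

theorem al_of_neg {s : ℝ} (h : s < 0) : al s = -s := max_eq_left (neg_pos.2 h).le

theorem al_mul (s : ℝ) {t : ℝ} (ht : 0 ≤ t) : al (t * s) = t * al s := by
  rw [al, al, mul_max_of_nonneg _ _ ht, mul_zero, mul_neg]

theorem sqrt_anti {a b c : ℝ} (ha : 0 ≤ a) (h : a ≤ b) :
    √(b ^ 2 + c ^ 2) - b ≤ √(a ^ 2 + c ^ 2) - a := by
  have h1 : a ≤ √(a ^ 2 + c ^ 2) := Real.le_sqrt_of_sq_le (by nlinarith)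
  have h2 := Real.sq_sqrt (show 0 ≤ a ^ 2 + c ^ 2 by positivity)
  have h3 : √(b ^ 2 + c ^ 2) ≤ √(a ^ 2 + c ^ 2) + (b - a) :=
    Real.sqrt_le_iff.2 ⟨by linarith, by nlinarith⟩
  linarith

theorem shr_eq (M : ℝ) : shr M al = fun q : ℝ × ℂ =>
    q + (M * (√(al q.1 ^ 2 + ‖q.2‖ ^ 2) - al q.1)) • (((1 : ℝ), (0 : ℂ)) : ℝ × ℂ) := by
  funext q
  ext1 <;> simp [shr]

theorem shr_good {M : ℝ} (hM : 0 ≤ M) :
    Function.Bijective (shr M al) ∧ ∀ q : ℝ × ℂ, q.1 < 0 → LD (shr M al) q := by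
  have hc : Continuous al := by
    unfold al
    fun_prop
  obtain ⟨h1, h2⟩ := blockSHEAR (ℝ × ℂ)
    (fun q => M * (√(al q.1 ^ 2 + ‖q.2‖ ^ 2) - al q.1)) (1, 0) 1 one_pos (by fun_prop) (by
      intro q τ hτ
      have h3 : al (q.1 + τ) ≤ al q.1 := max_le_max (by linarith) le_rfl
      have h4 := mul_le_mul_of_nonneg_left
        (sqrt_anti (c := ‖q.2‖) (show 0 ≤ al (q.1 + τ) from le_max_right _ _) h3) hM
      simp only [Prod.fst_add, Prod.snd_add, Prod.smul_fst, Prod.smul_snd, smul_eq_mul, mul_one,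
        smul_zero, add_zero]
      linarith)
  rw [shr_eq]
  refine ⟨h1, fun q hq => h2 q ?_⟩
  have h3 : ∀ᶠ y : ℝ × ℂ in 𝓝 q, y.1 < 0 :=
    continuous_fst.continuousAt.eventually (gt_mem_nhds hq)
  have h4 : ContDiffAt ℝ ∞ (fun y : ℝ × ℂ => al y.1) q :=
    contDiffAt_fst.neg.congr_of_eventuallyEq (h3.mono fun y hy => al_of_neg hy)
  refine contDiffAt_const.mul ((((h4.pow 2).add
    ((contDiff_norm_sq ℝ).contDiffAt.comp q contDiffAt_snd)).sqrt ?_).sub h4)
  rw [al_of_neg hq]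
  exact (add_pos_of_pos_of_nonneg (pow_pos (neg_pos.2 hq) 2) (sq_nonneg _)).ne'

theorem shr_smul (M : ℝ) (q : ℝ × ℂ) {t : ℝ} (ht : 0 ≤ t) :
    shr M al (t • q) = t • shr M al q := by
  have h : √((t * al q.1) ^ 2 + ‖t • q.2‖ ^ 2) = t * √(al q.1 ^ 2 + ‖q.2‖ ^ 2) := by
    rw [norm_smul, Real.norm_of_nonneg ht, mul_pow, mul_pow, ← mul_add, Real.sqrt_mul' _
      (by positivity), Real.sqrt_sq ht]
  ext1
  · simp only [shr, Prod.smul_fst, Prod.smul_snd, smul_eq_mul, al_mul _ ht, h]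
    ring
  · rfl

end FB

open FB in
theorem blockFB : StmtFB := by
  intro T hh hb hld hid
  obtain ⟨δ, hδ, hδT⟩ := Metric.eventually_nhds_iff.1 hid
  have hK : ∀ q : ℝ × ℂ, ‖q.2‖ < δ * q.1 → T q = q := by
    intro q hq
    have h1 : 0 < q.1 := by
      by_contra h
      nlinarith [norm_nonneg q.2, not_lt.1 h]
    have h2 : q = q.1 • (((1 : ℝ), q.1⁻¹ • q.2) : ℝ × ℂ) := by
      ext1
      · simp
      · simp only [Prod.smul_snd]
        rw [smul_smul, mul_inv_cancel₀ h1.ne', one_smul]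
    rw [h2, hh _ _ h1.le, hδT]
    rw [Prod.dist_eq, dist_self, dist_zero_right, max_lt_iff]
    refine ⟨hδ, ?_⟩
    show ‖q.1⁻¹ • q.2‖ < δ
    rw [norm_smul, Real.norm_of_nonneg (inv_pos.2 h1).le, inv_mul_lt_iff₀ h1, mul_comm]
    exact hq
  have hT0 : T 0 = 0 := by simpa using hh 0 0 le_rfl
  set M : ℝ := 2 / δ with hMdef
  have hM : 0 ≤ M := by positivity
  have hδM : δ * M = 2 := by rw [hMdef]; field_simp
  obtain ⟨hSb, hSl⟩ := shr_good hM
  set S : ℝ × ℂ → ℝ × ℂ := shr M al with hS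
  set Si : ℝ × ℂ → ℝ × ℂ := Function.invFun S with hSi
  have hl : ∀ q, Si (S q) = q := Function.leftInverse_invFun hSb.1
  have hr : ∀ q, S (Si q) = q := Function.rightInverse_invFun hSb.2
  have hSh : ∀ (q : ℝ × ℂ) (t : ℝ), 0 ≤ t → S (t • q) = t • S q := fun q t ht => shr_smul M q ht
  have hSih : ∀ (q : ℝ × ℂ) (t : ℝ), 0 ≤ t → Si (t • q) = t • Si q := fun q t ht =>
    hSb.1 (by rw [hr, hSh _ _ ht, hr])
  have hS0 : S 0 = 0 := by simpa using hSh 0 0 le_rfl
  have hSil : ∀ q, (Si q).1 < 0 → LD Si q := fun q hq => by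
    have := INV.ld_left_inverse (hSl _ hq) (Eventually.of_forall hl)
    rwa [hr] at this
  have hcone : ∀ q : ℝ × ℂ, 0 ≤ q.1 → q ≠ 0 → ‖(S q).2‖ < δ * (S q).1 := by
    intro q hq h0
    have h1 : (S q).1 = q.1 + M * ‖q.2‖ := by
      simp only [hS, shr, al_of_nonneg hq]
      rw [zero_pow two_ne_zero, zero_add, Real.sqrt_sq (norm_nonneg _), sub_zero]
    have h2 : (S q).2 = q.2 := rfl
    rw [h1, h2, mul_add, ← mul_assoc, hδM]
    rcases hq.eq_or_lt with h3 | h3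
    · have h4 : q.2 ≠ 0 := fun h4 => h0 (Prod.ext h3.symm h4)
      have := norm_pos_iff.2 h4
      rw [← h3]
      linarith
    · nlinarith [norm_nonneg q.2]
  have hTS : ∀ q : ℝ × ℂ, 0 ≤ q.1 → T (S q) = S q := by
    intro q hq
    by_cases h0 : q = 0
    · rw [h0, hS0, hT0]
    · exact hK _ (hcone q hq h0)
  set U : ℝ × ℂ → ℝ × ℂ := fun q => Si (T (S q)) with hU
  have hUb : Function.Bijective U :=
    (Function.bijective_iff_has_inverse.2 ⟨S, hr, hl⟩).comp (hb.comp hSb)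
  have hUid : ∀ q : ℝ × ℂ, 0 ≤ q.1 → U q = q := fun q hq => by
    simp only [hU]
    rw [hTS q hq, hl]
  have hUneg : ∀ q : ℝ × ℂ, q.1 < 0 → (U q).1 < 0 := by
    intro q hq
    by_contra h
    have h1 := hUb.1 (hUid _ (not_lt.1 h))
    rw [h1] at h
    exact h hq
  have hSne : ∀ q : ℝ × ℂ, q.1 < 0 → S q ≠ 0 := by
    intro q hq h
    rw [← hS0] at h
    rw [hSb.1 h] at hq
    exact lt_irrefl _ hq
  have hUh : ∀ (q : ℝ × ℂ) (t : ℝ), 0 ≤ t → U (t • q) = t • U q := fun q t ht => by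
    simp only [hU]
    rw [hSh _ _ ht, hh _ _ ht, hSih _ _ ht]
  obtain ⟨k, lam, hkb, hkl, hlam, he⟩ := exists_k (T := U) hUh hUb hUid hUneg fun q hq =>
    LD.comp (G := Si) (F := fun q => T (S q)) (hSil _ (hUneg q hq))
      (LD.comp (hld _ (hSne q hq)) (hSl q hq))
  have hneg : ∀ q, (Si q).1 < 0 → (Si (T q)).1 < 0 := fun q hq => by
    have := hUneg _ hq
    simp only [hU] at this
    rwa [hr] at this
  classical
  set l : ℝ × ℂ → ℝ := fun q => if (Si q).1 < 0 then (Si (T q)).1 / (Si q).1 else 1 with hldef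
  have hl1 : ∀ q : ℝ × ℂ, ∀ᶠ y in 𝓝 q, ‖q.2‖ < δ * q.1 → l y = 1 := by
    intro q
    by_cases hq : ‖q.2‖ < δ * q.1
    · have h1 : IsOpen {y : ℝ × ℂ | ‖y.2‖ < δ * y.1} := isOpen_lt (by fun_prop) (by fun_prop)
      filter_upwards [h1.mem_nhds hq] with y hy _
      simp only [hldef]
      split_ifs with h
      · rw [hK y hy, div_self h.ne]
      · rfl
    · exact Eventually.of_forall fun y h => absurd h hq
  refine ⟨M, 3 + δ, k, l, hM, by positivity, hkb, hkl, fun u hu => ?_, fun q => ?_,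
    fun q t ht => ?_, fun q hq => ?_, ?_, fun q => ?_⟩
  · have h1 : T (S (-1, u)) = S (-1, u) := by
      refine hK _ ?_
      have h2 : ‖u‖ ≤ √((1 : ℝ) ^ 2 + ‖u‖ ^ 2) := Real.le_sqrt_of_sq_le (by nlinarith)
      have h3 : al (-1) = 1 := by rw [al_of_neg (by norm_num), neg_neg]
      show ‖u‖ < δ * (-1 + M * (√(al (-1) ^ 2 + ‖u‖ ^ 2) - al (-1)))
      rw [h3, mul_add, ← mul_assoc, hδM]
      linarith
    have h2 := he u
    simp only [hU] at h2
    rw [h1, hl] at h2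
    have h3 : lam u = 1 := by simpa using (congrArg Prod.fst h2).symm
    rw [h3, one_smul] at h2
    exact (congrArg Prod.snd h2).symm
  · simp only [hldef]
    split_ifs with h
    · exact div_pos_of_neg_of_neg (hneg q h) h
    · exact one_pos
  · simp only [hldef]
    rw [hh _ _ ht.le, hSih _ _ ht.le, hSih _ _ ht.le]
    have h1 : t * (Si q).1 < 0 ↔ (Si q).1 < 0 :=
      ⟨fun h => neg_of_mul_neg_right h ht.le, fun h => mul_neg_of_pos_of_neg ht h⟩
    simp only [Prod.smul_fst, smul_eq_mul, h1, mul_div_mul_left _ _ ht.ne']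
  · by_cases h : (Si q).1 < 0
    · have h1 : ∀ᶠ y in 𝓝 q, (Si y).1 < 0 :=
        (continuousAt_fst.comp (hSil q h).continuousAt).eventually (gt_mem_nhds h)
      refine ContDiffAt.congr_of_eventuallyEq (f := fun y => (Si (T y)).1 / (Si y).1) ?_
        (h1.mono fun y hy => if_pos hy)
      exact (contDiffAt_fst.comp q ((hSil _ (hneg q h)).1.comp q (hld q hq).1)).div
        (contDiffAt_fst.comp q (hSil q h).1) h.ne
    · have h1 := hcone (Si q) (not_lt.1 h) fun h2 => hq (by rw [← hr q, h2, hS0])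
      rw [hr] at h1
      exact (contDiffAt_const (c := (1 : ℝ))).congr_of_eventuallyEq
        ((hl1 q).mono fun y hy => hy h1)
  · exact (hl1 (1, 0)).mono fun y hy => hy (by simpa using hδ)
  · obtain ⟨q, rfl⟩ := hSb.2 q
    show T (S q) = S (fib k al (Si (l (S q) • S q)))
    by_cases h : q.1 < 0
    · have h1 : U q = (-q.1 * lam ((-q.1)⁻¹ • q.2)) • ((-1 : ℝ), k ((-q.1)⁻¹ • q.2)) := by
        conv_lhs => rw [neg_smul_eq h]
        rw [hUh _ _ (neg_pos.2 h).le, he, smul_smul]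
      set u : ℂ := (-q.1)⁻¹ • q.2 with hu
      have h2 : l (S q) = lam u := by
        simp only [hldef]
        rw [hl, if_pos h]
        show (U q).1 / q.1 = lam u
        rw [h1, div_eq_iff h.ne]
        simp only [Prod.smul_fst, smul_eq_mul]
        ring
      have h3 : 0 < -q.1 * lam u := mul_pos (neg_pos.2 h) (hlam u)
      have h4 : lam u • q = (-q.1 * lam u) • (((-1 : ℝ), u) : ℝ × ℂ) := by
        conv_lhs => rw [neg_smul_eq h]
        rw [smul_smul, mul_comm]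
      rw [h2, hSih _ _ (hlam u).le, hl, ← hr (T (S q)), h4]
      congr 1
      show U q = _
      rw [h1]
      generalize -q.1 * lam u = σ at h3
      have h5 : al (σ * -1) = σ := by rw [al_of_neg (by linarith)]; ring
      ext1
      · rfl
      · simp only [fib, persp, Prod.smul_fst, Prod.smul_snd, smul_eq_mul, h5, if_pos h3]
        rw [smul_smul σ⁻¹, inv_mul_cancel₀ h3.ne', one_smul, smul_sub, add_sub_cancel]
    · have h2 : l (S q) = 1 := by
        simp only [hldef]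
        rw [hl, if_neg h]
      rw [h2, one_smul, hl, hTS q (not_lt.1 h)]
      congr 1
      ext1
      · rfl
      · simp only [fib, persp, al_of_nonneg (not_lt.1 h), lt_irrefl, if_false, add_zero]

end Vale.Agent.P073Z.Sv
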