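import Vale.Agent.P073Z.Sv.Sk
import Vale.Agent.P073Z.Sm.INV
import Vale.Agent.P073Z.Sm.HOMLIP

/-!
# P073, smoothing for all exponents: block FC (smoothing of a radial stretch)
-/

open Set Metric MeasureTheory Topology Filter
open scoped ContDiff ENNReal NNReal

noncomputable section

namespace Vale.Agent.P073Z.Sv

open Vale.Agent.P073Z.Sm

namespace FC

section Gen

variable {X : Type} [NormedAddCommGroup X] [NormedSpace ℝ X]

/-- A smooth map which agrees far out with a Lipschitz map is Lipschitz. -/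
theorem lip_of_far [FiniteDimensional ℝ X] {F G : X → X} (hF : ∀ x, ContDiffAt ℝ ∞ F x)
    {C : ℝ≥0} (hG : LipschitzWith C G) {R : ℝ} (h0 : ∀ x, R < ‖x‖ → F x = G x) :
    ∃ L : ℝ≥0, LipschitzWith L F := by
  have : ProperSpace X := FiniteDimensional.proper_real X
  have hc : ContinuousOn (fun x => fderiv ℝ F x) (closedBall (0 : X) R) := fun x _ =>
    ((hF x).continuousAt_fderiv (by simp)).continuousWithinAt
  obtain ⟨K, hK⟩ := (isCompact_closedBall (0 : X) R).exists_bound_of_continuousOn hc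
  refine ⟨⟨max K C, le_max_of_le_right C.2⟩, lipschitzWith_of_nnnorm_fderiv_le (𝕜 := ℝ)
    (fun x => (hF x).differentiableAt (by simp)) fun x => ?_⟩
  show ‖fderiv ℝ F x‖ ≤ max K C
  by_cases hx : ‖x‖ ≤ R
  · exact (hK x (mem_closedBall_zero_iff.2 hx)).trans (le_max_left _ _)
  · have he : F =ᶠ[𝓝 x] G := by
      have : ∀ᶠ y in 𝓝 x, R < ‖y‖ :=
        continuous_norm.continuousAt.eventually (lt_mem_nhds (not_le.1 hx))
      exact this.mono h0
    rw [he.fderiv_eq]
    exact (norm_fderiv_le_of_lipschitz ℝ hG).trans (le_max_right _ _)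

/-- radial maps with a profile which increases along rays -/
theorem radial {μ : X → ℝ} {c : ℝ} (hc : 0 < c) (hμ : ∀ x, c ≤ μ x)
    (hs : ∀ x, ContDiffAt ℝ ∞ μ x)
    (hm : ∀ (x : X) (s t : ℝ), 0 < s → s ≤ t → μ (s • x) ≤ μ (t • x)) :
    Function.Bijective (fun x => μ x • x) ∧ ∀ x, LD (fun x => μ x • x) x := by
  have hp : ∀ x, 0 < μ x := fun x => hc.trans_le (hμ x)
  have hcont : Continuous μ := continuous_iff_continuousAt.2 fun x => (hs x).continuousAt
  have aux : ∀ x y : X, μ x • x = μ y • y → μ y ≤ μ x → x = y := by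
    intro x y h hle
    have h1 : y = (μ x / μ y) • x := by
      rw [div_eq_inv_mul, mul_smul, h, smul_smul, inv_mul_cancel₀ (hp y).ne', one_smul]
    have h2 : 1 ≤ μ x / μ y := (one_le_div (hp y)).2 hle
    have h3 := hm x 1 _ one_pos h2
    rw [one_smul, ← h1] at h3
    rw [h1, le_antisymm h3 hle, div_self (hp y).ne', one_smul]
  refine ⟨⟨fun x y h => ?_, fun y => ?_⟩, fun x => ?_⟩
  · rcases le_total (μ y) (μ x) with hle | hle
    · exact aux x y h hle
    · exact (aux y x (Eq.symm h) hle).symm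
  · have hf : Continuous fun t : ℝ => t * μ (t • y) := by fun_prop
    have h1 : (0 : ℝ) * μ ((0 : ℝ) • y) ≤ 1 := by simp
    have h2 : 1 ≤ c⁻¹ * μ (c⁻¹ • y) := by
      rw [le_inv_mul_iff₀ hc, mul_one]
      exact hμ _
    obtain ⟨t, ht⟩ : (1 : ℝ) ∈ range fun t : ℝ => t * μ (t • y) :=
      intermediate_value_univ 0 c⁻¹ hf ⟨h1, h2⟩
    refine ⟨t • y, ?_⟩
    have ht' : t * μ (t • y) = 1 := ht
    show μ (t • y) • t • y = y
    rw [smul_smul, mul_comm, ht', one_smul]
  · have hd : DifferentiableAt ℝ μ x := (hs x).differentiableAt (by simp)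
    refine ⟨(hs x).smul contDiffAt_id, ?_⟩
    have h1 : HasFDerivAt (fun x => μ x • x)
        (μ x • ContinuousLinearMap.id ℝ X + (fderiv ℝ μ x).smulRight x) x :=
      hd.hasFDerivAt.smul (hasFDerivAt_id x)
    rw [h1.fderiv]
    have h0 : HasDerivAt (fun t : ℝ => t • x) x 1 := by
      simpa using (hasDerivAt_id (1 : ℝ)).smul_const x
    have h2 : HasDerivAt (fun t : ℝ => μ (t • x)) (fderiv ℝ μ x x) 1 := by
      have hx : HasFDerivAt μ (fderiv ℝ μ x) ((1 : ℝ) • x) := by simpa using hd.hasFDerivAt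
      exact hx.comp_hasDerivAt (1 : ℝ) h0
    have h3 : 0 ≤ fderiv ℝ μ x x := by
      refine ge_of_tendsto h2.tendsto_slope_zero_right ?_
      filter_upwards [self_mem_nhdsWithin] with t ht
      have ht' : (0 : ℝ) < t := ht
      have := hm x 1 (1 + t) one_pos (by linarith)
      rw [smul_eq_mul]
      exact mul_nonneg (inv_pos.2 ht').le (by linarith)
    refine (injective_iff_map_eq_zero _).2 fun v hv => ?_
    have hv' : μ x • v + fderiv ℝ μ x v • x = 0 := by simpa using hv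
    have h4 : fderiv ℝ μ x v * (μ x + fderiv ℝ μ x x) = 0 := by
      have := congrArg (fderiv ℝ μ x) hv'
      rw [map_add, map_smul, map_smul, map_zero, smul_eq_mul, smul_eq_mul] at this
      linarith
    have h5 : fderiv ℝ μ x v = 0 := by
      rcases mul_eq_zero.1 h4 with h6 | h6
      · exact h6
      · linarith [hp x]
    rw [h5, zero_smul, add_zero] at hv'
    exact (smul_eq_zero.1 hv').resolve_left (hp x).ne'

/-- a radial stretch of degree zero is Lipschitz -/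
theorem lip_stretch [FiniteDimensional ℝ X] {l : X → ℝ}
    (hh : ∀ (q : X) (t : ℝ), 0 < t → l (t • q) = l q) (hs : ∀ q, q ≠ 0 → ContDiffAt ℝ ∞ l q) :
    ∃ C : ℝ≥0, LipschitzWith C fun q => l q • q := by
  refine blockHOMLIP X X _ (fun x t ht => ?_) fun x hx => (hs x hx).smul contDiffAt_id
  rcases ht.eq_or_lt with rfl | ht
  · simp
  · rw [hh x t ht, smul_comm]

theorem exists_lb [FiniteDimensional ℝ X] {l : X → ℝ} (hp : ∀ q, 0 < l q)
    (hh : ∀ (q : X) (t : ℝ), 0 < t → l (t • q) = l q) (hs : ∀ q, q ≠ 0 → ContDiffAt ℝ ∞ l q) :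
    ∃ c : ℝ, 0 < c ∧ ∀ q, c ≤ l q := by
  have : ProperSpace X := FiniteDimensional.proper_real X
  have hc : ContinuousOn (fun x => (l x)⁻¹) (sphere (0 : X) 1) := fun x hx =>
    ((hs x (HOMLIP.ne_of_mem hx)).continuousAt.inv₀ (hp x).ne').continuousWithinAt
  obtain ⟨K, hK⟩ := (isCompact_sphere (0 : X) 1).exists_bound_of_continuousOn hc
  have hK1 : 0 < max K 1 := lt_max_of_lt_right one_pos
  refine ⟨min (max K 1)⁻¹ (l 0), lt_min (inv_pos.2 hK1) (hp 0), fun q => ?_⟩
  by_cases hq : q = 0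
  · rw [hq]
    exact min_le_right _ _
  · refine (min_le_left _ _).trans ?_
    rw [← hh q _ (inv_pos.2 (norm_pos_iff.2 hq))]
    refine inv_le_of_inv_le₀ (hp _) ?_
    exact ((le_abs_self _).trans (hK _ (HOMLIP.unit_mem hq))).trans (le_max_left _ _)

/-- rescaling -/
theorem scale {B : X → X} {C : ℝ≥0} (hb : Function.Bijective B) (hl : ∀ q, LD B q)
    (h1 : LipschitzWith C B) (h2 : AntilipschitzWith C B) {ρ : ℝ} (hρ : 0 < ρ) :
    Function.Bijective (fun q => ρ • B (ρ⁻¹ • q)) ∧ (∀ q, LD (fun q => ρ • B (ρ⁻¹ • q)) q) ∧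
      LipschitzWith C (fun q => ρ • B (ρ⁻¹ • q)) ∧
      AntilipschitzWith C (fun q => ρ • B (ρ⁻¹ • q)) := by
  have hρ' : 0 < ρ⁻¹ := inv_pos.2 hρ
  have hld : ∀ t : ℝ, t ≠ 0 → ∀ q : X, LD (fun q : X => t • q) q := fun t ht q => by
    have := LD.affine (t • ContinuousLinearMap.id ℝ X) (smul_right_injective X ht) 0 0 q
    simpa using this
  refine ⟨(MulAction.bijective₀ hρ.ne').comp (hb.comp (MulAction.bijective₀ hρ'.ne')),
    fun q => (hld ρ hρ.ne' _).comp ((hl _).comp (hld _ hρ'.ne' q)),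
    LipschitzWith.of_dist_le_mul fun x y => ?_, AntilipschitzWith.of_le_mul_dist fun x y => ?_⟩
  · have := h1.dist_le_mul (ρ⁻¹ • x) (ρ⁻¹ • y)
    rw [dist_smul₀, Real.norm_of_nonneg hρ'.le] at this
    rw [dist_smul₀, Real.norm_of_nonneg hρ.le]
    calc ρ * dist (B (ρ⁻¹ • x)) (B (ρ⁻¹ • y)) ≤ ρ * (C * (ρ⁻¹ * dist x y)) :=
          mul_le_mul_of_nonneg_left this hρ.le
      _ = C * dist x y := by field_simp
  · have := h2.le_mul_dist (ρ⁻¹ • x) (ρ⁻¹ • y)
    rw [dist_smul₀, Real.norm_of_nonneg hρ'.le, inv_mul_le_iff₀ hρ] at this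
    rw [dist_smul₀, Real.norm_of_nonneg hρ.le]
    linarith

end Gen

/-- the Euclidean norm squared -/
def N (q : ℝ × ℂ) : ℝ := q.1 ^ 2 + ‖q.2‖ ^ 2

theorem N_smooth : ContDiff ℝ ∞ N :=
  (contDiff_fst.pow 2).add ((contDiff_norm_sq ℝ).comp contDiff_snd)

theorem N_smul (q : ℝ × ℂ) (t : ℝ) : N (t • q) = t ^ 2 * N q := by
  simp only [N, Prod.smul_fst, Prod.smul_snd, smul_eq_mul, norm_smul, Real.norm_eq_abs, mul_pow,
    sq_abs]
  ring

theorem N_nonneg (q : ℝ × ℂ) : 0 ≤ N q := by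
  unfold N
  positivity

theorem one_le_N {q : ℝ × ℂ} (h : 1 ≤ ‖q‖) : 1 ≤ N q := by
  rw [Prod.norm_def, le_max_iff] at h
  unfold N
  rcases h with h | h
  · rw [Real.norm_eq_abs] at h
    nlinarith [sq_abs q.1, sq_nonneg ‖q.2‖]
  · nlinarith [sq_nonneg q.1]

theorem unit (l : ℝ × ℂ → ℝ) (hp : ∀ q, 0 < l q)
    (hh : ∀ (q : ℝ × ℂ) (t : ℝ), 0 < t → l (t • q) = l q)
    (hs : ∀ q, q ≠ 0 → ContDiffAt ℝ ∞ l q) :
    ∃ (C : ℝ≥0) (B : ℝ × ℂ → ℝ × ℂ), Function.Bijective B ∧ (∀ q, LD B q) ∧ LipschitzWith C B ∧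
      AntilipschitzWith C B ∧ B 0 = 0 ∧ ∀ q, 1 ≤ ‖q‖ → B q = l q • q := by
  obtain ⟨c, hc, hcl⟩ := exists_lb hp hh hs
  set μ : ℝ × ℂ → ℝ := fun q => c + Real.smoothTransition (2 * N q - 1) * (l q - c) with hμ
  have hχ : ContDiff ℝ ∞ fun q : ℝ × ℂ => Real.smoothTransition (2 * N q - 1) :=
    Real.smoothTransition.contDiff.comp ((contDiff_const.mul N_smooth).sub contDiff_const)
  have hμs : ∀ q, ContDiffAt ℝ ∞ μ q := by
    intro q
    by_cases hq : q = 0
    · have h1 : ∀ᶠ y in 𝓝 q, N y < 1 / 2 := by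
        refine N_smooth.continuous.continuousAt.eventually (gt_mem_nhds ?_)
        rw [hq]
        simp [N]
      refine (contDiffAt_const (c := c)).congr_of_eventuallyEq (h1.mono fun y hy => ?_)
      simp only [hμ]
      rw [Real.smoothTransition.zero_of_nonpos (by linarith), zero_mul, add_zero]
    · exact contDiffAt_const.add (hχ.contDiffAt.mul ((hs q hq).sub contDiffAt_const))
  obtain ⟨hb, hl⟩ := radial (μ := μ) hc (fun q => le_add_of_nonneg_right
    (mul_nonneg (Real.smoothTransition.nonneg _) (sub_nonneg.2 (hcl q)))) hμs (by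
      intro q s t h0 hst
      simp only [hμ]
      rw [hh q s h0, hh q t (h0.trans_le hst), N_smul, N_smul]
      have h1 : s ^ 2 * N q ≤ t ^ 2 * N q :=
        mul_le_mul_of_nonneg_right (pow_le_pow_left₀ h0.le hst 2) (N_nonneg q)
      have h2 := Real.smoothTransition.monotone
        (show 2 * (s ^ 2 * N q) - 1 ≤ 2 * (t ^ 2 * N q) - 1 by linarith)
      nlinarith [hcl q])
  have hfar : ∀ q, 1 ≤ ‖q‖ → μ q • q = l q • q := by
    intro q hq
    simp only [hμ]
    rw [Real.smoothTransition.one_of_one_le (by linarith [one_le_N hq]), one_mul, add_sub_cancel]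
  obtain ⟨C1, hC1⟩ := lip_stretch hh hs
  obtain ⟨L1, hL1⟩ := lip_of_far (fun q => (hl q).1) hC1 (R := 1) fun q hq => hfar q hq.le
  obtain ⟨C2, hC2⟩ := lip_stretch (l := fun q => (l q)⁻¹) (fun q t ht => by rw [hh q t ht])
    fun q hq => (hs q hq).inv (hp q).ne'
  have hleft : Function.LeftInverse (Function.invFun fun q => μ q • q) fun q => μ q • q :=
    Function.leftInverse_invFun hb.1
  have hinv : ∀ y, LD (Function.invFun fun q => μ q • q) y := by
    intro y
    obtain ⟨q, rfl⟩ := hb.2 y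
    exact INV.ld_left_inverse (F := fun q => μ q • q) (hl q) (Eventually.of_forall hleft)
  obtain ⟨L2, hL2⟩ := lip_of_far (fun q => (hinv q).1) hC2 (R := L1) (by
    intro y hy
    obtain ⟨q, rfl⟩ := hb.2 y
    have h1 : 1 ≤ ‖q‖ := by
      by_contra h1
      have h2 := hL1.dist_le_mul q 0
      rw [smul_zero, dist_zero_right, dist_zero_right] at h2
      have h3 : (L1 : ℝ) * ‖q‖ ≤ L1 * 1 := mul_le_mul_of_nonneg_left (not_le.1 h1).le L1.2
      linarith
    rw [hleft q]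
    show q = (l (μ q • q))⁻¹ • μ q • q
    rw [hfar q h1, hh q _ (hp q), smul_smul, inv_mul_cancel₀ (hp q).ne', one_smul])
  exact ⟨max L1 L2, fun q => μ q • q, hb, hl, hL1.weaken (le_max_left _ _),
    (hL2.weaken (le_max_right _ _)).to_rightInverse hleft, smul_zero _, hfar⟩

end FC

theorem blockFC : StmtFC := by
  intro l hp hh hs
  obtain ⟨C, B, h1, h2, h3, h4, h5, h6⟩ := FC.unit l hp hh hs
  refine ⟨C, fun ρ hρ => ?_⟩
  obtain ⟨g1, g2, g3, g4⟩ := FC.scale h1 h2 h3 h4 hρ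
  refine ⟨_, g1, g2, g3, g4, by rw [smul_zero, h5, smul_zero], fun q hq => ?_⟩
  have hρ' : 0 < ρ⁻¹ := inv_pos.2 hρ
  rw [h6 _ (by rw [norm_smul, Real.norm_of_nonneg hρ'.le, le_inv_mul_iff₀ hρ, mul_one]; exact hq),
    hh q _ hρ', smul_comm, smul_smul ρ, mul_inv_cancel₀ hρ.ne', one_smul]

end Vale.Agent.P073Z.Sv
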