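import Vale.Agent.P073Z.Sv.Sk
import Vale.Agent.P073Z.Sm.FD

/-!
# P073, smoothing for all exponents, block FDH
-/

open Set Metric MeasureTheory Topology Filter
open scoped ContDiff ENNReal NNReal RealInnerProductSpace

noncomputable section

namespace Vale.Agent.P073Z.Sv

open Vale.Agent.P073Z.Sm Vale.Agent.P073Z.Sm.FD

namespace FDH

theorem mem_cone {v y : E} {a s : ℝ} (hy : y ∈ ball v a) (hs : s ∈ Ioc (0 : ℝ) 1) :
    v + s • (y - v) ∈ ball v a := by
  rw [mem_ball_iff_norm] at hy ⊢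
  rw [add_sub_cancel_left, norm_smul, Real.norm_of_nonneg hs.1.le]
  exact lt_of_le_of_lt (mul_le_of_le_one_left (norm_nonneg _) hs.2) hy

theorem cone_U {U W : Set E} {R : E → ℝ} (hX : Vx U W R) {v : E} (hv : v ∈ W) :
    ConeSet U v (R v) := by
  intro y hy s hs
  by_cases hyv : y = v
  · rw [hyv, sub_self, smul_zero, add_zero]
  · refine iff_of_true (hX.sub v hv _ (mem_cone hy hs) fun h => ?_) (hX.sub v hv y hy hyv)
    rw [add_eq_left, smul_eq_zero, sub_eq_zero] at h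
    exact h.elim hs.1.ne' hyv

theorem pr_cone {xf n v : E} (hv : ⟪n, v - xf⟫ = 0) (y : E) (s : ℝ) :
    pr xf n (v + s • (y - v)) = v + s • (pr xf n y - v) := by
  have h1 : v + s • (y - v) - xf = (v - xf) + s • ((y - xf) - (v - xf)) := by module
  unfold pr
  rw [h1, inner_add_right, inner_smul_right, inner_sub_right n (y - xf), hv]
  module

theorem sc_cone (x0 e v y : E) (s : ℝ) :
    sc x0 e (v + s • (y - v)) = sc x0 e v + s • (sc x0 e y - sc x0 e v) := by
  have h1 : v + s • (y - v) - x0 = (v - x0) + s • ((y - x0) - (v - x0)) := by module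
  unfold sc
  rw [h1, inner_add_right, inner_smul_right, inner_sub_right e (y - x0), smul_eq_mul]

theorem rc_cone {x0 e v : E} (h0 : rc x0 e v = 0) (y : E) {s : ℝ} (hs : 0 ≤ s) :
    rc x0 e (v + s • (y - v)) = s * rc x0 e y := by
  have h1 : v - x0 - sc x0 e v • e = 0 := norm_eq_zero.1 h0
  have h2 : v + s • (y - v) - x0 - sc x0 e (v + s • (y - v)) • e =
      s • (y - x0 - sc x0 e y • e) + (1 - s) • (v - x0 - sc x0 e v • e) := by
    rw [sc_cone, smul_eq_mul]
    module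
  unfold rc
  rw [h2, h1, smul_zero, add_zero, norm_smul, Real.norm_of_nonneg hs]

variable {ι : Type} {W : Set E} {R : E → ℝ} {x0 e : ι → E} {ρ : ι → ℝ → ℝ}

theorem rho_cone (hH : TubesH W R x0 e ρ) {v : E} (hv : v ∈ W) {i : ι} (he : ‖e i‖ = 1)
    (h0 : rc (x0 i) (e i) v = 0) {y : E} (hy : y ∈ ball v (R v)) {s : ℝ}
    (hs : s ∈ Ioc (0 : ℝ) 1) :
    ρ i (sc (x0 i) (e i) (v + s • (y - v))) = s * ρ i (sc (x0 i) (e i) y) := by
  rw [sc_cone]
  refine hH.hom v hv i h0 _ ?_ s hs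
  rw [mem_ball_iff_norm] at hy ⊢
  exact lt_of_le_of_lt (abs_sc_sub he y v) hy

theorem cone_tube (hH : TubesH W R x0 e ρ) {v : E} (hv : v ∈ W) {i : ι} (he : ‖e i‖ = 1)
    {c : ℝ} (hc : c ≤ 4) : ConeSet (tube (x0 i) (e i) (ρ i) c) v (R v) := by
  intro y hy s hs
  by_cases h0 : rc (x0 i) (e i) v = 0
  · simp only [tube, mem_ofPred_eq]
    rw [rho_cone hH hv he h0 hy hs, rc_cone h0 y hs.1.le, mul_pos_iff_of_pos_left hs.1,
      mul_left_comm, mul_le_mul_iff_right₀ hs.1]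
  · exact iff_of_false (fun h => h0 (hH.line v hv i _ (mem_cone hy hs) (tube_mono hc h)))
      fun h => h0 (hH.line v hv i _ hy (tube_mono hc h))

/-- the profile function -/
theorem profileH (hPERSP : StmtPERSP) : ∃ (p : ℝ → ℝ → ℝ) (L : ℝ), 0 < L ∧
    (∀ z z' r r', |p z r - p z' r'| ≤ L * |z - z'| + L * |r - r'|) ∧
    (∀ z r, 0 ≤ z → 0 ≤ p z r ∧ p z r ≤ z) ∧
    (∀ z r, 0 ≤ z → p z r ≠ 0 → 0 < r ∧ 0 < z ∧ z ≤ r) ∧
    (∀ z r, 0 < r → 0 ≤ z → z ≤ 1 / 4 * r → p z r = z) ∧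
    (∀ z r, 0 < r → ContDiffAt ℝ ∞ (fun q : ℝ × ℝ => p q.1 q.2) (z, r)) ∧
    ∀ z r s, 0 < r → 0 < s → p (s * z) (s * r) = s * p z r := by
  let χ : ContDiffBump (0 : ℝ) := ⟨1 / 2, 1, by norm_num, by norm_num⟩
  let j : ℝ → ℝ := fun u => χ u * u
  have hjs : ContDiff ℝ ∞ j := χ.contDiff.mul contDiff_id
  have hjc : HasCompactSupport j := χ.hasCompactSupport.mul_right
  obtain ⟨C, hC⟩ := hjs.lipschitzWith_of_hasCompactSupport hjc (by simp)
  have hχ0 : ∀ u : ℝ, 1 ≤ |u| → χ u = 0 := fun u hu =>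
    χ.zero_of_le_dist (by rw [Real.dist_eq, sub_zero]; exact hu)
  have hj0 : ∀ w : ℝ, 1 ≤ ‖w‖ → j w = 0 := fun w hw => by
    simp only [j]; rw [hχ0 w hw, zero_mul]
  have hjb : ∀ w, ‖j w‖ ≤ ((max C 1 : ℝ≥0) : ℝ) := fun w => by
    have h1 : (1 : ℝ) ≤ ((max C 1 : ℝ≥0) : ℝ) := by exact_mod_cast le_max_right C 1
    refine le_trans ?_ h1
    by_cases hw : 1 ≤ ‖w‖
    · rw [hj0 w hw]; simp
    · simp only [j]
      rw [norm_mul, Real.norm_eq_abs, abs_of_nonneg (χ.nonneg' w)]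
      exact mul_le_one₀ χ.le_one (norm_nonneg _) (le_of_lt (not_le.1 hw))
  have hP := hPERSP ℝ ℝ j (max C 1) (hC.weaken (le_max_left _ _)) hjb hj0
  have hval : ∀ z r : ℝ, 0 < r → persp j z r = χ (r⁻¹ * z) * z := fun z r hr => by
    unfold persp
    rw [if_pos hr]
    simp only [j, smul_eq_mul]
    field_simp
  have hL : (0 : ℝ) < ((max C 1 : ℝ≥0) : ℝ) := by
    have h1 : (1 : ℝ) ≤ ((max C 1 : ℝ≥0) : ℝ) := by exact_mod_cast le_max_right C 1
    linarith
  refine ⟨persp j, 2 * ((max C 1 : ℝ≥0) : ℝ), by linarith, ?_, ?_, ?_, ?_, ?_, ?_⟩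
  · intro z z' r r'
    have h := hP z z' r r'
    rw [Real.norm_eq_abs, Real.norm_eq_abs] at h
    nlinarith [abs_nonneg (z - z')]
  · intro z r hz
    by_cases hr : 0 < r
    · rw [hval z r hr]
      exact ⟨mul_nonneg (χ.nonneg' _) hz, mul_le_of_le_one_left hz χ.le_one⟩
    · unfold persp; rw [if_neg hr]; exact ⟨le_rfl, hz⟩
  · intro z r hz hne
    by_cases hr : 0 < r
    · rw [hval z r hr] at hne
      refine ⟨hr, lt_of_le_of_ne hz fun h => hne (by rw [← h, mul_zero]), ?_⟩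
      by_contra hlt
      push Not at hlt
      apply hne
      rw [hχ0, zero_mul]
      rw [abs_of_nonneg (by positivity), inv_mul_eq_div, le_div_iff₀ hr]
      linarith
    · exact absurd (by unfold persp; rw [if_neg hr]) hne
  · intro z r hr hz hzr
    rw [hval z r hr, χ.one_of_mem_closedBall, one_mul]
    rw [mem_closedBall, Real.dist_eq, sub_zero, abs_of_nonneg (by positivity), inv_mul_eq_div,
      div_le_iff₀ hr]
    change z ≤ 1 / 2 * r
    linarith
  · intro z r hr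
    have hev : (fun q : ℝ × ℝ => persp j q.1 q.2) =ᶠ[𝓝 (z, r)]
        fun q : ℝ × ℝ => χ (q.2⁻¹ * q.1) * q.1 := by
      have : ∀ᶠ q : ℝ × ℝ in 𝓝 (z, r), 0 < q.2 :=
        continuous_snd.continuousAt.eventually (lt_mem_nhds hr)
      filter_upwards [this] with q hq using hval q.1 q.2 hq
    refine ContDiffAt.congr_of_eventuallyEq ?_ hev
    refine ContDiffAt.mul ?_ contDiffAt_fst
    exact χ.contDiffAt.comp (z, r) ((contDiffAt_snd.inv hr.ne').mul contDiffAt_fst)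
  · intro z r s hr hs
    have e : (s * r)⁻¹ * (s * z) = r⁻¹ * z := by field_simp
    rw [hval _ _ (mul_pos hs hr), hval _ _ hr, e]
    ring

/-- the part of the width which lives inside the tubes -/
theorem tubes_partH (hST : StmtST) (hPERSP : StmtPERSP) {g : E → E} {U : Set E} {x0 e : Lab → E}
    {κt : Lab → ℝ≥0} {O : Lab → Set E} {ρ : Lab → ℝ → ℝ} {γ : E → ℝ} {xf n : E} {k : ℝ}
    (hU : IsOpen U) (hZ : Uᶜ.Nonempty)
    (hc : ∀ x ∈ U, ConeAt g x) (hL : Lines U (Sk g U 1) (lab g) x0 e)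
    (hT : Tubes U (Sk g U 1) (lab g) x0 e κt O ρ) (hκ : ∀ i, κt i ≤ 1)
    (hO : ∀ i, ∀ y ∈ O i, g =ᶠ[𝓝 y] i.1) (hγ : ∀ i, ∀ y ∈ O i, rc (x0 i) (e i) y ≤ γ y)
    (hn1 : ‖n‖ = 1) (hn : ∀ w, w ∈ Lin g xf ↔ ⟪n, w⟫ = 0) (hk : 0 < k) :
    ∃ t : Lab → E → ℝ, (∀ i y z, t i y ≤ t i z + k * dist y z) ∧ (∀ i y, 0 ≤ t i y) ∧
      (∀ i y, t i y ≤ k) ∧
      (∀ i y, ⟪n, y - xf⟫ = 0 → t i y ≠ 0 → y ∈ tube (x0 i) (e i) (ρ i) 4 ∧
        y ∈ face g U (lab g xf) ∧ t i y ≤ k * γ y ∧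
        t i y ≤ k * infDist y ((Sk g U 2 \ face g U (lab g xf)) ∪ Uᶜ)) ∧
      (∀ i, ∀ y ∈ face g U (lab g xf), y ∈ tube (x0 i) (e i) (ρ i) 4 → ContDiffAt ℝ ∞ (t i) y) ∧
      (∀ i, ∃ η : ℝ, ∀ y ∈ face g U (lab g xf), y ∈ tube (x0 i) (e i) (ρ i) (1 / 4) →
        t i y = η * rc (x0 i) (e i) y ∧ 0 < t i y) ∧
      ∀ i s, 0 < s → ∀ y ∈ face g U (lab g xf), y ∈ tube (x0 i) (e i) (ρ i) 4 →
        ∀ z ∈ face g U (lab g xf), z ∈ tube (x0 i) (e i) (ρ i) 4 →
        rc (x0 i) (e i) z = s * rc (x0 i) (e i) y →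
        ρ i (sc (x0 i) (e i) z) = s * ρ i (sc (x0 i) (e i) y) → t i z = s * t i y := by
  choose a θ hθ hal ha0 harc haF hasm hainf using tube_data hST hU hZ hc hL hT hκ hO hn1 hn
  obtain ⟨p, L, hL0, hpl, hpb, hps, hp1, hpsm, hph⟩ := profileH hPERSP
  set η : Lab → ℝ := fun i => min (k * θ i) (min k (k / (3 * L))) with hη
  have hη0 : ∀ i, 0 < η i := fun i =>
    lt_min (mul_pos hk (hθ i)) (lt_min hk (by positivity))
  have hη1 : ∀ i, η i ≤ k * θ i := fun i => min_le_left _ _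
  have hη2 : ∀ i, η i ≤ k := fun i => (min_le_right _ _).trans (min_le_left _ _)
  have hη3 : ∀ i, η i * (3 * L) ≤ k := fun i => by
    have : η i ≤ k / (3 * L) := (min_le_right _ _).trans (min_le_right _ _)
    rwa [le_div_iff₀ (by positivity)] at this
  refine ⟨fun i y => η i * p (a i y) (ρ i (sc (x0 i) (e i) y)), fun i y z => ?_,
    fun i y => mul_nonneg (hη0 i).le (hpb _ _ (ha0 i y)).1, fun i y => ?_, fun i y hy hne => ?_,
    fun i y hy hyT => ?_, fun i => ⟨η i, fun y hy hyT => ?_⟩,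
    fun i s hs y hy hyT z hz hzT h1 h2 => ?_⟩
  · have h1 := (abs_le.1 (hpl (a i y) (a i z) (ρ i (sc (x0 i) (e i) y))
      (ρ i (sc (x0 i) (e i) z)))).2
    have h2 := (hT.lip i).dist_le_mul (sc (x0 i) (e i) y) (sc (x0 i) (e i) z)
    rw [Real.dist_eq, Real.dist_eq] at h2
    have hκ' : (κt i : ℝ) ≤ 1 := by exact_mod_cast hκ i
    have h3 := abs_sc_sub (x0 := x0 i) (hL.unit i) y z
    rw [← dist_eq_norm] at h3
    have h4 : |ρ i (sc (x0 i) (e i) y) - ρ i (sc (x0 i) (e i) z)| ≤ dist y z :=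
      h2.trans ((mul_le_of_le_one_left (abs_nonneg _) hκ').trans h3)
    have h5 := mul_le_mul_of_nonneg_left (hal i y z) hL0.le
    have h6 := mul_le_mul_of_nonneg_left h4 hL0.le
    have h7 : p (a i y) (ρ i (sc (x0 i) (e i) y)) - p (a i z) (ρ i (sc (x0 i) (e i) z)) ≤
        3 * L * dist y z := by linarith
    have h8 := mul_le_mul_of_nonneg_left h7 (hη0 i).le
    have h9 := mul_le_mul_of_nonneg_right (hη3 i) (dist_nonneg (x := y) (y := z))
    beta_reduce
    nlinarith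
  · beta_reduce
    by_cases h : p (a i y) (ρ i (sc (x0 i) (e i) y)) = 0
    · rw [h, mul_zero]; exact hk.le
    · have h1 := (hps _ _ (ha0 i y) h).2.2
      have h2 := (hpb _ (ρ i (sc (x0 i) (e i) y)) (ha0 i y)).2
      have h3 := hT.le_one i (sc (x0 i) (e i) y)
      exact (mul_le_of_le_one_right (hη0 i).le (by linarith)).trans (hη2 i)
  · beta_reduce at hne ⊢
    obtain ⟨h1, h2, h3⟩ := hps _ _ (ha0 i y) (right_ne_zero_of_mul hne)
    have h4 := harc i y hy h2.ne'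
    have hT1 : y ∈ tube (x0 i) (e i) (ρ i) 1 := ⟨h1, by rw [← h4, one_mul]; exact h3⟩
    have hT4 : y ∈ tube (x0 i) (e i) (ρ i) 4 := tube_mono (by norm_num) hT1
    have hF := haF i y hy hT4 h2.ne'
    have h5 := (hpb _ (ρ i (sc (x0 i) (e i) y)) (ha0 i y)).2
    have h6 : η i * p (a i y) (ρ i (sc (x0 i) (e i) y)) ≤ η i * rc (x0 i) (e i) y := by
      rw [← h4]; exact mul_le_mul_of_nonneg_left h5 (hη0 i).le
    have h7 := rc_nonneg (x0 i) (e i) y
    refine ⟨hT4, hF, h6.trans ?_, h6.trans ?_⟩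
    · exact mul_le_mul (hη2 i) (hγ i y (hT.sub i hT4).1) h7 hk.le
    · refine (mul_le_mul_of_nonneg_right (hη1 i) h7).trans ?_
      rw [mul_assoc]
      exact mul_le_mul_of_nonneg_left (hainf i y hF hT1) hk.le
  · have hopen : IsOpen {s | 0 < ρ i s} := isOpen_lt continuous_const (hT.lip i).continuous
    have h1 : ContDiffAt ℝ ∞ (fun z => ρ i (sc (x0 i) (e i) z)) y :=
      ((hT.smooth i).contDiffAt (hopen.mem_nhds hyT.1)).comp y (contDiff_sc _ _).contDiffAt
    have h2 : ContDiffAt ℝ ∞ (fun z => (a i z, ρ i (sc (x0 i) (e i) z))) y :=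
      (hasm i y hy hyT).2.prodMk h1
    have h3 := ContDiffAt.comp (f := fun z => (a i z, ρ i (sc (x0 i) (e i) z))) y
      (hpsm _ _ hyT.1) h2
    exact contDiffAt_const.mul h3
  · have hT4 : y ∈ tube (x0 i) (e i) (ρ i) 4 := tube_mono (by norm_num) hyT
    have h1 := (hasm i y hy hT4).1
    have h2 := harc i y (lab_plane hn hy.2.2).1 h1.ne'
    have h3 : p (a i y) (ρ i (sc (x0 i) (e i) y)) = a i y :=
      hp1 _ _ hyT.1 h1.le (by rw [h2]; exact hyT.2)
    beta_reduce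
    rw [h3]
    exact ⟨by rw [h2], mul_pos (hη0 i) h1⟩
  · beta_reduce
    rw [harc i y (lab_plane hn hy.2.2).1 (hasm i y hy hyT).1.ne',
      harc i z (lab_plane hn hz.2.2).1 (hasm i z hz hzT).1.ne', h1, h2, hph _ _ _ hyT.1 hs]
    ring

end FDH

open FDH in
theorem blockFDH (hST : StmtST) (hMIN : StmtMINH) (hPERSP : StmtPERSP) (hC : StmtCONE) :
    StmtFDH := by
  intro g U W R x0 e κt O ρ γ xf n κ hU hUb hc _ hL hT hκ hO hγ hγc hγ0 _ _ hn1 hn hκ0 hX hW hH
  have hZ : Uᶜ.Nonempty := by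
    rw [nonempty_compl]
    rintro rfl
    exact NormedSpace.unbounded_univ ℝ E hUb
  have hk : (0 : ℝ) < (κ : ℝ) / 2 := by have : (0 : ℝ) < κ := hκ0; linarith
  obtain ⟨t, htl, ht0, htb, hts, htsm, htf, hth⟩ :=
    tubes_partH hST hPERSP hU hZ hc hL hT hκ hO hγ hn1 hn hk
  obtain ⟨D, hDl, hD1, hD2, hD3⟩ := sup_lip t _ _ htl ht0 htb
  set F := face g U (lab g xf) with hF
  set Z := (Sk g U 2 \ F) ∪ Uᶜ with hZdef
  have hZne : Z.Nonempty := hZ.mono subset_union_right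
  have hFpl : ∀ y ∈ F, ⟪n, y - xf⟫ = 0 := fun y hy => (lab_plane hn hy.2.2).1
  have hnear : ∀ y ∈ F, ∀ᶠ z in 𝓝 y, z ∉ Z ∧ (⟪n, z - xf⟫ = 0 → z ∈ F) := fun y hy => by
    have hcy : ∀ᶠ z in 𝓝 y, ConeAt g z := by
      filter_upwards [hU.mem_nhds hy.1] with z hz using hc z hz
    filter_upwards [near_face hST hn hcy hy.2.1 hy.2.2, hU.mem_nhds hy.1] with z hz hzU
    refine ⟨?_, fun h => ⟨hzU, hz (Or.inl h)⟩⟩
    rintro (h | h)
    · exact h.2 ⟨hzU, hz (Or.inr h.1.2)⟩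
    · exact h hzU
  have hinf : ∀ y ∈ F, 0 < infDist y Z := fun y hy => by
    rw [← infDist_pos_iff_notMem_closure hZne, mem_closure_iff_frequently, not_frequently]
    exact (hnear y hy).mono fun z hz => hz.1
  have hpc : Continuous (pr xf n) := (contDiff_pr xf n).continuous
  set V : Set E := {y | pr xf n y ∈ F ∧ ∀ i, pr xf n y ∉ tube (x0 i) (e i) (ρ i) (1 / 4)}
    with hV
  have hVo : IsOpen V := by
    rw [isOpen_iff_mem_nhds]
    intro y hy
    filter_upwards [hpc.continuousAt.eventually (hnear _ hy.1),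
      hpc.continuousAt.eventually (tubes_closed hT (c := 1 / 4) (by norm_num) hy.1.1)]
      with z h1 h2
    exact ⟨h1.2 (pr_plane hn1 z), fun i => h2 i (hy.2 i)⟩
  have cU : ∀ v ∈ W, ConeSet U v (R v) := fun v hv => cone_U hX hv
  have cL : ∀ v ∈ W, ∀ y ∈ ball v (R v), ∀ s ∈ Ioc (0 : ℝ) 1,
      rk g (v + s • (y - v)) = rk g y ∧ lab g (v + s • (y - v)) = lab g y := by
    intro v hv y hy s hs
    by_cases hyv : y = v
    · rw [hyv, sub_self, smul_zero, add_zero]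
      exact ⟨rfl, rfl⟩
    · obtain ⟨h1, h2⟩ := (hC.lab g v (R v) (hW v hv).1
        (fun z hz hzv => hc z (hX.sub v hv z hz hzv)) y hy hyv).2.2.2 s hs
      exact ⟨by unfold rk; rw [h1], h2⟩
  have cF : ∀ v ∈ W, ConeSet F v (R v) := fun v hv y hy s hs => by
    simp only [hF, face, mem_ofPred_eq]
    rw [cU v hv y hy s hs, (cL v hv y hy s hs).1, (cL v hv y hy s hs).2]
  have cZ : ∀ v ∈ W, ConeSet Z v (R v) := fun v hv y hy s hs => by
    simp only [hZdef, Sk, mem_union, Set.mem_sdiff, mem_compl_iff, mem_ofPred_eq]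
    rw [cU v hv y hy s hs, (cL v hv y hy s hs).1, cF v hv y hy s hs]
  have cT : ∀ v ∈ W, ∀ i, ∀ c ≤ (4 : ℝ), ConeSet (tube (x0 i) (e i) (ρ i) c) v (R v) :=
    fun v hv i c hc4 => cone_tube hH hv (hL.unit i) hc4
  have hball : ∀ v, ⟪n, v - xf⟫ = 0 → ∀ a, ∀ y ∈ ball v a, pr xf n y ∈ ball v a := by
    intro v hv a y hy
    have := pr_dist (xf := xf) hn1 y v
    rw [pr_id hv] at this
    exact lt_of_le_of_lt this hy
  have hhalf : ∀ v ∈ W, ball v (R v / 2) ⊆ ball v (R v) := fun v hv =>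
    ball_subset_ball (half_le_self (hX.pos v hv).le)
  obtain ⟨r, hrs, hrl, hr0, hrp, hrb, hrh⟩ := hMIN E V {y | pr xf n y ∈ U}
    {v | v ∈ W ∧ ⟪n, v - xf⟫ = 0} (fun v => R v / 2)
    (fun y => (κ : ℝ) / 2 * min 1 (min (γ (pr xf n y)) (infDist (pr xf n y) Z))) (κ / 2) hVo
    (fun y hy => hy.1.1) (by positivity) (fun K hK hKV => by
      refine hK.exists_forall_le' ?_ fun y hy => ?_
      · refine continuousOn_const.mul (continuousOn_const.inf (ContinuousOn.inf ?_ ?_))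
        · exact hγc.comp hpc.continuousOn fun y hy => (hKV hy).1.1
        · exact ((continuous_infDist_pt Z).comp hpc).continuousOn
      · exact mul_pos hk (lt_min one_pos (lt_min (hγ0 _ (hKV hy).1.1) (hinf _ (hKV hy).1))))
    (fun v hv => by
      refine ⟨half_pos (hX.pos v hv.1), fun h => hX.nmem v hv.1 (by
        have h' : pr xf n v ∈ U := h
        rwa [pr_id hv.2] at h'), fun y hy s hs => ?_, fun y hy hyV s hs => ?_⟩
      · have hy' := hhalf v hv.1 (hball v hv.2 _ y hy)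
        simp only [hV, mem_ofPred_eq]
        rw [pr_cone hv.2, cF v hv.1 _ hy' s hs]
        refine and_congr_right fun _ => forall_congr' fun i => ?_
        rw [cT v hv.1 i _ (by norm_num) _ hy' s hs]
      · have hy' := hball v hv.2 _ y hy
        have h1 := (hW v hv.1).2 _ (hhalf v hv.1 hy') hyV.1.1 s hs
        have h2 := hC.dist Z v (R v) (Or.inr (hX.nmem v hv.1)) (cZ v hv.1) _ hy' (mem_univ _) s hs
        simp only [pr_cone hv.2]
        rw [mul_left_comm]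
        refine mul_le_mul_of_nonneg_left ?_ hk.le
        rw [mul_min_of_nonneg _ _ hs.1.le, mul_min_of_nonneg _ _ hs.1.le, mul_one]
        exact min_le_min hs.2 (min_le_min h1 h2))
    (fun v hv w hw hvw => (hX.disj v hv.1 w hw.1 hvw).mono (hhalf v hv.1) (hhalf w hw.1))
    (fun x hx => by
      obtain ⟨N, hN, hfin⟩ := hX.fin _ hx
      refine ⟨pr xf n ⁻¹' N, hpc.continuousAt.preimage_mem_nhds hN, hfin.subset ?_⟩
      rintro v ⟨hv, y, hy1, hy2⟩
      exact ⟨hv.1, pr xf n y, hy1, hhalf v hv.1 (hball v hv.2 _ y hy2)⟩)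
  have hth' : ∀ v ∈ W, ⟪n, v - xf⟫ = 0 → ∀ y ∈ ball v (R v), ⟪n, y - xf⟫ = 0 →
      ∀ s ∈ Ioc (0 : ℝ) 1, ∀ i, t i (v + s • (y - v)) = s * t i y := by
    intro v hv hvp y hy hyp s hs i
    have hzp : ⟪n, v + s • (y - v) - xf⟫ = 0 := by
      rw [← pr_id hyp, ← pr_cone hvp]
      exact pr_plane hn1 _
    by_cases hyT : y ∈ F ∧ y ∈ tube (x0 i) (e i) (ρ i) 4
    · have h0 := hH.line v hv i y hy hyT.2
      exact hth i s hs.1 y hyT.1 hyT.2 _ ((cF v hv y hy s hs).2 hyT.1)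
        ((cT v hv i 4 le_rfl y hy s hs).2 hyT.2) (rc_cone h0 y hs.1.le)
        (rho_cone hH hv (hL.unit i) h0 hy hs)
    · have h1 : t i y = 0 := by
        by_contra h
        exact hyT ⟨(hts i y hyp h).2.1, (hts i y hyp h).1⟩
      have h2 : t i (v + s • (y - v)) = 0 := by
        by_contra h
        exact hyT ⟨(cF v hv y hy s hs).1 (hts i _ hzp h).2.1,
          (cT v hv i 4 le_rfl y hy s hs).1 (hts i _ hzp h).1⟩
      rw [h1, h2, mul_zero]
  have hD0 : ∀ y, 0 ≤ D y := fun y => (ht0 (lab g xf) y).trans (hD1 _ y)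
  have hiff : ∀ y, ⟪n, y - xf⟫ = 0 → (0 < r y + D y ↔ y ∈ F) := fun y hy => by
    constructor
    · intro h
      by_contra hyF
      have h1 : r y ≤ 0 := not_lt.1 fun h1 => hyF (by
        have := ((hrp y).1 h1).1
        rwa [pr_id hy] at this)
      have h2 : D y ≤ 0 := hD2 y 0 fun i => le_of_eq (by
        by_contra h2
        exact hyF (hts i y hy h2).2.1)
      linarith
    · intro hyF
      by_cases hT4 : ∃ i, y ∈ tube (x0 i) (e i) (ρ i) (1 / 4)
      · obtain ⟨i, hi⟩ := hT4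
        obtain ⟨η, hη⟩ := htf i
        linarith [(hη y hyF hi).2, hD1 i y, hr0 y]
      · push Not at hT4
        have : y ∈ V := by
          simp only [hV, mem_ofPred_eq]
          rw [pr_id hy]
          exact ⟨hyF, hT4⟩
        linarith [(hrp y).2 this, hD0 y]
  refine ⟨fun y => r (pr xf n y) + D (pr xf n y), LipschitzWith.of_le_add_mul κ fun y z => ?_,
    fun y => add_nonneg (hr0 _) (hD0 _), fun y s => by simp only [pr_add hn1],
    fun y hy => by simp only [pr_id hy]; exact hiff y hy, fun y hy => ?_, fun y hy => ?_,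
    fun i => ?_, fun v hv hvp y hy s hs => ?_⟩
  · have h1 := hrl.le_add_mul (pr xf n y) (pr xf n z)
    have h2 := hDl (pr xf n y) (pr xf n z)
    have h3 := mul_le_mul_of_nonneg_left (pr_dist (xf := xf) hn1 y z) hk.le
    push_cast at h1
    linarith
  · have hyF : pr xf n y ∈ F := (hiff _ (pr_plane hn1 y)).1 hy
    have hps : ContDiffAt ℝ ∞ (pr xf n) y := (contDiff_pr xf n).contDiffAt
    refine ((hrs _ (by
      change pr xf n (pr xf n y) ∈ U
      rw [pr_id (pr_plane hn1 y)]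
      exact hyF.1)).comp y hps).add ?_
    have hev := hpc.continuousAt.eventually (tubes_closed hT (c := 4) le_rfl hyF.1)
    by_cases hT4 : ∃ i, pr xf n y ∈ tube (x0 i) (e i) (ρ i) 4
    · obtain ⟨i, hi⟩ := hT4
      refine ((htsm i _ hyF hi).comp y hps).congr_of_eventuallyEq ?_
      filter_upwards [hev] with z hz
      refine hD3 _ i fun j hj => ?_
      by_contra h
      exact hz j (fun h' => Set.disjoint_left.1 (hT.disj hj) h' hi)
        (hts j _ (pr_plane hn1 z) h).1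
    · push Not at hT4
      refine (contDiffAt_const (c := (0 : ℝ))).congr_of_eventuallyEq ?_
      filter_upwards [hev] with z hz
      refine le_antisymm (hD2 _ 0 fun j => le_of_eq ?_) (hD0 _)
      by_contra h
      exact hz j (hT4 j) (hts j _ (pr_plane hn1 z) h).1
  · have hy' := hFpl y hy
    simp only [pr_id hy']
    have hg := hγ0 y hy.1
    have hi := hinf y hy
    have hr1 : r y ≤ (κ : ℝ) / 2 * min 1 (min (γ y) (infDist y Z)) := by
      by_cases hyV : y ∈ V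
      · have := hrb y hyV
        simp only [pr_id hy'] at this
        exact this
      · have h1 : r y ≤ 0 := not_lt.1 fun h => hyV ((hrp y).1 h)
        exact h1.trans (mul_pos hk (lt_min one_pos (lt_min hg hi))).le
    have hm1 := mul_le_mul_of_nonneg_left (min_le_left 1 (min (γ y) (infDist y Z))) hk.le
    have hm2 := mul_le_mul_of_nonneg_left
      ((min_le_right 1 _).trans (min_le_left (γ y) (infDist y Z))) hk.le
    have hm3 := mul_le_mul_of_nonneg_left
      ((min_le_right 1 _).trans (min_le_right (γ y) (infDist y Z))) hk.le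
    have hd1 : D y ≤ (κ : ℝ) / 2 := hD2 y _ fun i => htb i y
    have hd2 : D y ≤ (κ : ℝ) / 2 * γ y := hD2 y _ fun i => by
      by_cases h : t i y = 0
      · rw [h]; exact (mul_pos hk hg).le
      · exact (hts i y hy' h).2.2.1
    have hd3 : D y ≤ (κ : ℝ) / 2 * infDist y Z := hD2 y _ fun i => by
      by_cases h : t i y = 0
      · rw [h]; exact (mul_pos hk hi).le
      · exact (hts i y hy' h).2.2.2
    refine ⟨by linarith, by linarith, by linarith⟩
  · obtain ⟨η, hη⟩ := htf i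
    refine ⟨η, fun y hy hyT => ?_⟩
    have hy' := hFpl y hy
    simp only [pr_id hy']
    have h1 : r y = 0 := le_antisymm (not_lt.1 fun h => by
      have := ((hrp y).1 h).2 i
      rw [pr_id hy'] at this
      exact this hyT) (hr0 y)
    have h2 : D y = t i y := hD3 y i fun j hj => by
      by_contra h
      exact Set.disjoint_left.1 (hT.disj hj) (hts j y hy' h).1 (tube_mono (by norm_num) hyT)
    rw [h1, h2, zero_add, (hη y hy hyT).1]
  · have hy' := hball v hvp _ y hy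
    have hR := hX.pos v hv
    have h1 := hrh v ⟨hv, hvp⟩ _ (ball_subset_ball (by linarith) hy') s hs
    have h2 := hth' v hv hvp _ (ball_subset_ball (by linarith) hy') (pr_plane hn1 y) s hs
    have h3 : D (v + s • (pr xf n y - v)) ≤ s * D (pr xf n y) := hD2 _ _ fun i => by
      rw [h2]
      exact mul_le_mul_of_nonneg_left (hD1 i _) hs.1.le
    have h4 : D (pr xf n y) ≤ D (v + s • (pr xf n y - v)) / s := hD2 _ _ fun i => by
      rw [le_div_iff₀' hs.1, ← h2]
      exact hD1 i _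
    rw [le_div_iff₀' hs.1] at h4
    simp only [pr_cone hvp]
    rw [h1, le_antisymm h3 h4, mul_add]

end Vale.Agent.P073Z.Sv
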