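import Vale.Agent.P073Z.Sv.FD0
import Vale.Agent.P073Z.Sm.EM

/-!
# P073, smoothing for all exponents: block FOUNT (the fountain move)
-/

open Set Metric MeasureTheory Topology Filter
open scoped ContDiff ENNReal NNReal RealInnerProductSpace

noncomputable section

namespace Vale.Agent.P073Z.Sv

open Vale.Agent.P073Z.Sm

namespace FOUNT

/-- coordinates with a prescribed first vector -/
theorem exists_coord (e : E) (he : e ≠ 0) : ∃ L : (ℝ × ℂ) ≃L[ℝ] E, L (1, 0) = e := by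
  have hn : ‖e‖ ≠ 0 := norm_ne_zero_iff.2 he
  have h1 : ‖‖e‖⁻¹ • e‖ = 1 := norm_smul_inv_norm (𝕜 := ℝ) he
  obtain ⟨u, hu, heu⟩ := EM.exists_orth _ h1
  obtain ⟨L, hL, -⟩ := EM.exists_coord _ u h1 hu heu
  refine ⟨L.trans (LinearEquiv.smulOfNeZero ℝ E ‖e‖ hn).toContinuousLinearEquiv, ?_⟩
  change ‖e‖ • L (1, 0) = e
  rw [hL, smul_smul, mul_inv_cancel₀ hn, one_smul]

/-- a thin box around the unit segment lies in a given neighbourhood -/
theorem exists_box (N : Set (ℝ × ℂ)) (hN : IsOpen N) (h : ∀ s ∈ Icc (0 : ℝ) 1, (s, 0) ∈ N) :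
    ∃ δ : ℝ, 0 < δ ∧ ∀ ε : ℝ, 0 < ε → ε ≤ δ → Icc (-ε) 1 ×ˢ closedBall (0 : ℂ) ε ⊆ N := by
  have hc : IsCompact (Icc (0 : ℝ) 1 ×ˢ ({0} : Set ℂ)) := isCompact_Icc.prod isCompact_singleton
  obtain ⟨δ, hδ, hs⟩ := hc.exists_cthickening_subset_open hN (by
    rintro ⟨s, z⟩ ⟨h1, h2⟩
    obtain rfl : z = 0 := h2
    exact h s h1)
  refine ⟨δ, hδ, fun ε h0 hε q ⟨h1, h2⟩ => hs ?_⟩
  refine mem_cthickening_of_dist_le q (max q.1 0, 0) δ _
    ⟨⟨le_max_right _ _, max_le h1.2 zero_le_one⟩, rfl⟩ ?_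
  rw [Prod.dist_eq, max_le_iff]
  refine ⟨?_, (mem_closedBall.1 h2).trans hε⟩
  rw [Real.dist_eq]
  rcases le_total q.1 0 with h3 | h3
  · rw [max_eq_right h3, sub_zero, abs_of_nonpos h3]
    linarith [h1.1]
  · rw [max_eq_left h3, sub_self, abs_zero]
    exact hδ.le

end FOUNT

open FOUNT in
/-- Block FOUNT. -/
theorem blockFOUNT (hFD : StmtFD0) : StmtFOUNT := by
  intro T v w u hT hwv hid hu
  obtain ⟨L, hL⟩ := exists_coord (w - v) (sub_ne_zero.2 hwv)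
  obtain ⟨φ, hφ⟩ : ∃ φ : ℝ × ℂ → E, φ = fun q => v + L q := ⟨_, rfl⟩
  obtain ⟨ψ, hψ⟩ : ∃ ψ : E → ℝ × ℂ, ψ = fun y => L.symm (y - v) := ⟨_, rfl⟩
  have h1 : ∀ y, φ (ψ y) = y := fun y => by simp [hφ, hψ]
  have h2 : ∀ q, ψ (φ q) = q := fun q => by simp [hφ, hψ]
  have hφ0 : φ 0 = v := by simp [hφ]
  have hφ1 : φ (1, 0) = w := by simp [hφ, hL]
  have hψ0 : ψ v = 0 := by rw [← hφ0, h2]
  have hψ1 : ψ w = (1, 0) := by rw [← hφ1, h2]
  have hφb : Function.Bijective φ := hφ ▸ EM.bij_add L v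
  have hψb : Function.Bijective ψ := hψ ▸ EM.bij_inv L.symm v
  have hφL : ∀ q, LD φ q := fun q => hφ ▸ EM.ld_add L v q
  have hψL : ∀ y, LD ψ y := fun y => hψ ▸ EM.ld_inv L.symm v y
  obtain ⟨K1, hφl⟩ : ∃ K1, LipschitzWith K1 φ := by
    rw [hφ]
    exact ⟨_, (isometry_add_left v).lipschitz.comp L.lipschitz⟩
  obtain ⟨K2, hψl⟩ : ∃ K2, LipschitzWith K2 ψ := by
    rw [hψ]
    exact ⟨_, L.symm.lipschitz.comp (IsometryEquiv.subRight v).isometry.lipschitz⟩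
  have hφa : AntilipschitzWith K2 φ := hψl.to_rightInverse h2
  have hψa : AntilipschitzWith K1 ψ := hφl.to_rightInverse h1
  have hφc := hφl.continuous
  have hψc := hψl.continuous
  have hφh : ∀ (p q : ℝ × ℂ) (t : ℝ), φ (p + t • (q - p)) = φ p + t • (φ q - φ p) := by
    intro p q t
    simp only [hφ, map_add, map_smul, map_sub, add_sub_add_left_eq_sub, add_assoc]
  have hψh : ∀ (x y : E) (t : ℝ), ψ (x + t • (y - x)) = ψ x + t • (ψ y - ψ x) := by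
    intro x y t
    apply hφb.1
    rw [hφh, h1, h1, h1]
  obtain ⟨C, hC⟩ := hFD (fun q => ψ (T (φ q)))
    (fun q t ht => by
      have h3 := hφh 0 q t
      rw [zero_add, sub_zero, hφ0] at h3
      rw [h3, hT.hom _ t ht, hψh, hψ0, zero_add, sub_zero])
    (hψb.comp (hT.bij.comp hφb))
    (fun q hq => (hψL _).comp ((hT.ld _ fun h3 => hq (hφb.1 (h3.trans hφ0.symm))).comp (hφL q)))
    (by
      have h3 : Tendsto φ (𝓝 (1, 0)) (𝓝 w) := hφ1 ▸ hφc.tendsto (1, 0)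
      filter_upwards [h3.eventually hid] with q hq
      rw [hq, h2])
  refine ⟨max (K1 * (C * K2)) (K1 * C * K2), fun N hN hseg B hB => ?_⟩
  obtain ⟨δ, hδ, hbox⟩ := exists_box (φ ⁻¹' N) (hN.preimage hφc) fun s hs => hseg (by
    have h3 := hφh 0 (1, 0) s
    rw [zero_add, sub_zero, hφ0, hφ1, Prod.smul_mk, smul_eq_mul, mul_one, smul_zero] at h3
    rw [h3, segment_eq_image']
    exact ⟨s, hs, rfl⟩)
  obtain ⟨r, hr, hball⟩ := nhds_basis_closedBall.mem_iff.1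
    (hφc.continuousAt.preimage_mem_nhds (x := 0) (hφ0.symm ▸ hB))
  have hu0 : (L.symm u).2 ≠ 0 := fun h3 => hu (L.symm u).1 (by
    have h4 : L.symm u = (L.symm u).1 • ((1 : ℝ), (0 : ℂ)) := Prod.ext (by simp) (by simpa using h3)
    rw [← hL, ← map_smul, ← h4, L.apply_symm_apply])
  have hu1 : 0 < ‖(L.symm u).2‖ := norm_pos_iff.2 hu0
  obtain ⟨ε, ⟨⟨t1, t2⟩, t3⟩, h0⟩ :=
    ((((FD0.small 1 δ hδ).and (FD0.small 1 r hr)).and
      (FD0.small ‖L.symm u‖ (‖(L.symm u).2‖ / 2) (by positivity))).and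
      (self_mem_nhdsWithin : Ioi (0 : ℝ) ∈ 𝓝[>] (0 : ℝ))).exists
  rw [one_mul] at t1 t2
  replace h0 : 0 < ε := h0
  obtain ⟨η, Tw, a1, a2, a3, a4, a5, a6, a7, a8, a9, a10, a11⟩ := hC ε h0
  have hne : ∀ y, y ≠ w → ψ y ≠ (1, 0) := fun y hy h3 => hy (hψb.1 (h3.trans hψ1.symm))
  refine ⟨fun y => φ (η (ψ y)), fun y => φ (Tw (ψ y)),
    φ '' (Icc (-ε) 1 ×ˢ closedBall (0 : ℂ) ε),
    (isCompact_Icc.prod (isCompact_closedBall _ _)).image hφc,
    image_subset_iff.2 (hbox ε h0 t1), fun y hy => ?_, hφb.comp (a1.comp hψb),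
    (hφl.comp (a2.comp hψl)).weaken (le_max_left _ _),
    FD0.anti_weaken (hφa.comp (a3.comp hψa)) (le_max_right _ _), ?_, fun y hy => ?_,
    ⟨fun y t ht => ?_, hφb.comp (a8.comp hψb),
      fun y hy => (hφL _).comp ((a9 _ (hne y hy)).comp (hψL y))⟩, ?_, ?_⟩
  · by_cases h3 : η (ψ y) = ψ y
    · change φ (η (ψ y)) = y
      rw [h3, h1]
    · obtain ⟨b1, b2, b3⟩ := a4 _ h3
      exact absurd ⟨ψ y, ⟨⟨b2, b3⟩, mem_closedBall_zero_iff.2 b1⟩, h1 y⟩ hy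
  · change φ (η (ψ v)) ∈ B
    rw [hψ0]
    exact hball (mem_closedBall_zero_iff.2 (a5.trans t2))
  · have h3 := (hφL _).comp ((a6 _ (hne y hy)).comp (hψL y))
    simp only [h1] at h3
    exact h3
  · rw [hψh, hψ1, a7 _ t ht, add_sub_cancel, hφh, hφ1]
  · have h3 : ψ (w + u) = (1, 0) + L.symm u := by
      rw [← hψ1, hψ]
      change L.symm (w + u - v) = L.symm (w - v) + L.symm u
      rw [← map_add, add_sub_right_comm]
    have h4 : Continuous fun y => ‖(ψ y).2‖ - ε * ‖ψ y - (1, 0)‖ := by fun_prop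
    have h5 : 0 < ‖(ψ (w + u)).2‖ - ε * ‖ψ (w + u) - (1, 0)‖ := by
      rw [h3, add_sub_cancel_left, Prod.snd_add, zero_add]
      linarith
    filter_upwards [h4.continuousAt.eventually (lt_mem_nhds h5)] with y hy
    by_cases h6 : Tw (ψ y) = ψ y
    · rw [h6, h1]
    · have := a10 _ h6
      linarith
  · have h3 : Tendsto ψ (𝓝 w) (𝓝 (1, 0)) := hψ1 ▸ hψc.tendsto w
    filter_upwards [h3.eventually a11] with y hy
    rw [hy]

end Vale.Agent.P073Z.Sv
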