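import Vale.Agent.P073Z.Sv.Sk
import Vale.Agent.P073Z.Sm.MIN

/-!
# P073, smoothing for all exponents: block MINH
-/

open Set Metric MeasureTheory Topology Filter Function
open scoped ContDiff ENNReal NNReal

noncomputable section

namespace Vale.Agent.P073Z.Sv

namespace MINH

variable {X : Type} [NormedAddCommGroup X] [InnerProductSpace ℝ X]

/-- homogeneous extension of the values of `f` on the sphere of radius `s` -/
def hx (f : X → ℝ) (s : ℝ) (u : X) : ℝ := ‖u‖ / s * f ((s / ‖u‖) • u)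

theorem hx_zero (f : X → ℝ) (s : ℝ) : hx f s 0 = 0 := by simp [hx]

theorem norm_proj {s : ℝ} (hs : 0 < s) {u : X} (hu : u ≠ 0) : ‖(s / ‖u‖) • u‖ = s := by
  have h : 0 < ‖u‖ := norm_pos_iff.mpr hu
  rw [norm_smul, Real.norm_of_nonneg (div_pos hs h).le, div_mul_cancel₀ _ h.ne']

theorem hx_smul (f : X → ℝ) (s : ℝ) (u : X) {t : ℝ} (ht : 0 < t) :
    hx f s (t • u) = t * hx f s u := by
  unfold hx
  rw [norm_smul, Real.norm_of_nonneg ht.le, smul_smul]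
  have h : s / (t * ‖u‖) * t = s / ‖u‖ := by
    by_cases hu : ‖u‖ = 0
    · simp [hu]
    · field_simp
  rw [h]
  ring

theorem abs_hx {f : X → ℝ} {k s : ℝ} (hs : 0 < s) (hf : ∀ u, |f u| ≤ k * ‖u‖)
    (u : X) : |hx f s u| ≤ k * ‖u‖ := by
  by_cases hu : u = 0
  · subst hu
    simp [hx_zero]
  · have h := hf ((s / ‖u‖) • u)
    rw [norm_proj hs hu] at h
    unfold hx
    rw [abs_mul, abs_of_nonneg (div_nonneg (norm_nonneg u) hs.le)]
    calc ‖u‖ / s * |f ((s / ‖u‖) • u)| ≤ ‖u‖ / s * (k * s) :=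
          mul_le_mul_of_nonneg_left h (div_nonneg (norm_nonneg u) hs.le)
      _ = k * ‖u‖ := by field_simp

theorem lip_hx {f : X → ℝ} {k s : ℝ} (hs : 0 < s) (hk : 0 ≤ k) (h0 : f 0 = 0)
    (hf : ∀ u w, |f u - f w| ≤ k * ‖u - w‖) (u w : X) :
    |hx f s u - hx f s w| ≤ 3 * k * ‖u - w‖ := by
  have hf0 : ∀ u, |f u| ≤ k * ‖u‖ := fun u => by simpa [h0] using hf u 0
  have hd : 0 ≤ k * ‖u - w‖ := mul_nonneg hk (norm_nonneg _)
  by_cases hw : w = 0
  · subst hw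
    rw [hx_zero, sub_zero, sub_zero]
    have h := abs_hx hs hf0 u
    rw [sub_zero] at hd
    linarith
  by_cases hu : u = 0
  · subst hu
    rw [hx_zero, zero_sub, zero_sub, abs_neg, norm_neg]
    have h := abs_hx hs hf0 w
    rw [zero_sub, norm_neg] at hd
    linarith
  have ha : 0 < ‖u‖ := norm_pos_iff.mpr hu
  have hb : 0 < ‖w‖ := norm_pos_iff.mpr hw
  have hab : |‖u‖ - ‖w‖| ≤ ‖u - w‖ := abs_norm_sub_norm_le u w
  have e1 : hx f s u - hx f s w = ‖u‖ / s * (f ((s / ‖u‖) • u) - f ((s / ‖w‖) • w)) +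
      (‖u‖ - ‖w‖) / s * f ((s / ‖w‖) • w) := by
    unfold hx
    ring
  have e2 : (‖u‖ / s) • ((s / ‖u‖) • u - (s / ‖w‖) • w) =
      (u - w) + ((‖w‖ - ‖u‖) / ‖w‖) • w := by
    rw [smul_sub, smul_smul, smul_smul]
    have h1 : ‖u‖ / s * (s / ‖u‖) = 1 := by field_simp
    have h2 : ‖u‖ / s * (s / ‖w‖) = 1 - (‖w‖ - ‖u‖) / ‖w‖ := by
      field_simp
      ring
    rw [h1, h2, one_smul, sub_smul, one_smul]
    abel
  have e3 : ‖u‖ / s * ‖(s / ‖u‖) • u - (s / ‖w‖) • w‖ ≤ 2 * ‖u - w‖ := by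
    rw [← Real.norm_of_nonneg (div_pos ha hs).le, ← norm_smul, e2]
    refine (norm_add_le _ _).trans ?_
    rw [norm_smul, Real.norm_eq_abs, abs_div, abs_of_pos hb, div_mul_cancel₀ _ hb.ne',
      abs_sub_comm]
    linarith
  have b1 : |‖u‖ / s * (f ((s / ‖u‖) • u) - f ((s / ‖w‖) • w))| ≤ 2 * k * ‖u - w‖ := by
    rw [abs_mul, abs_of_pos (div_pos ha hs)]
    calc ‖u‖ / s * |f ((s / ‖u‖) • u) - f ((s / ‖w‖) • w)|
        ≤ ‖u‖ / s * (k * ‖(s / ‖u‖) • u - (s / ‖w‖) • w‖) :=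
          mul_le_mul_of_nonneg_left (hf _ _) (div_pos ha hs).le
      _ = k * (‖u‖ / s * ‖(s / ‖u‖) • u - (s / ‖w‖) • w‖) := by ring
      _ ≤ k * (2 * ‖u - w‖) := mul_le_mul_of_nonneg_left e3 hk
      _ = 2 * k * ‖u - w‖ := by ring
  have b2 : |(‖u‖ - ‖w‖) / s * f ((s / ‖w‖) • w)| ≤ k * ‖u - w‖ := by
    have h := hf0 ((s / ‖w‖) • w)
    rw [norm_proj hs hw] at h
    rw [abs_mul, abs_div, abs_of_pos hs]
    calc |‖u‖ - ‖w‖| / s * |f ((s / ‖w‖) • w)| ≤ ‖u - w‖ / s * (k * s) :=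
          mul_le_mul (div_le_div_of_nonneg_right hab hs.le) h (abs_nonneg _)
            (div_nonneg (norm_nonneg _) hs.le)
      _ = k * ‖u - w‖ := by field_simp
  rw [e1]
  refine (abs_add_le _ _).trans ?_
  linarith

theorem smooth_hx {f : X → ℝ} (hf : ContDiff ℝ ∞ f) (s : ℝ) {u : X} (hu : u ≠ 0) :
    ContDiffAt ℝ ∞ (hx f s) u := by
  have hn : ContDiffAt ℝ ∞ (fun y : X => ‖y‖) u := contDiffAt_norm ℝ hu
  have h1 : ContDiffAt ℝ ∞ (fun y : X => (s / ‖y‖) • y) u :=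
    (contDiffAt_const.div hn (norm_ne_zero_iff.mpr hu)).smul contDiffAt_id
  exact (hn.div_const s).mul (hf.contDiffAt.comp u h1)

omit [InnerProductSpace ℝ X] in
/-- product of a cutoff at scale `r` with a function vanishing at the origin -/
theorem lip_mul {ψ G : X → ℝ} {L k r : ℝ} (hr : 0 < r) (hL : 0 ≤ L) (hk : 0 ≤ k)
    (h0 : ∀ u, 0 ≤ ψ u) (h1 : ∀ u, ψ u ≤ 1) (hz : ∀ u, r ≤ ‖u‖ → ψ u = 0)
    (hψ : ∀ u w, |ψ u - ψ w| ≤ L / r * ‖u - w‖) (hG0 : G 0 = 0)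
    (hG : ∀ u w, |G u - G w| ≤ k * ‖u - w‖) (u w : X) :
    |ψ u * G u - ψ w * G w| ≤ (1 + L) * k * ‖u - w‖ := by
  have key : ∀ u w : X, ‖w‖ < r → |ψ u * G u - ψ w * G w| ≤ (1 + L) * k * ‖u - w‖ := by
    intro u w hw
    have e : ψ u * G u - ψ w * G w = ψ u * (G u - G w) + (ψ u - ψ w) * G w := by ring
    have b1 : |ψ u * (G u - G w)| ≤ k * ‖u - w‖ := by
      rw [abs_mul, abs_of_nonneg (h0 u)]
      calc ψ u * |G u - G w| ≤ 1 * (k * ‖u - w‖) :=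
            mul_le_mul (h1 u) (hG u w) (abs_nonneg _) zero_le_one
        _ = k * ‖u - w‖ := one_mul _
    have b3 : |G w| ≤ k * r := by
      have h := hG w 0
      rw [hG0, sub_zero, sub_zero] at h
      exact h.trans (mul_le_mul_of_nonneg_left hw.le hk)
    have b2 : |(ψ u - ψ w) * G w| ≤ L * k * ‖u - w‖ := by
      rw [abs_mul]
      calc |ψ u - ψ w| * |G w| ≤ L / r * ‖u - w‖ * (k * r) :=
            mul_le_mul (hψ u w) b3 (abs_nonneg _)
              (mul_nonneg (div_nonneg hL hr.le) (norm_nonneg _))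
        _ = L * k * ‖u - w‖ := by field_simp
    rw [e]
    refine (abs_add_le _ _).trans ?_
    linarith
  by_cases hw : ‖w‖ < r
  · exact key u w hw
  by_cases hu : ‖u‖ < r
  · rw [abs_sub_comm, norm_sub_rev]
    exact key w u hu
  rw [hz u (not_lt.mp hu), hz w (not_lt.mp hw), zero_mul, zero_mul, sub_zero, abs_zero]
  positivity

omit [InnerProductSpace ℝ X] in
/-- gluing of functions supported in disjoint balls -/
theorem glue {V : Set X} {r : X → ℝ} (D : X → X → ℝ)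
    (hd : ∀ v ∈ V, ∀ w ∈ V, v ≠ w → Disjoint (ball v (r v)) (ball w (r w))) :
    ∃ S : X → ℝ, (∀ v ∈ V, ∀ y ∈ ball v (r v), S y = D v y) ∧
      ∀ y, (∀ v ∈ V, y ∉ ball v (r v)) → S y = 0 := by
  classical
  refine ⟨fun y => if h : ∃ v ∈ V, y ∈ ball v (r v) then D h.choose y else 0,
    fun v hv y hy => ?_, fun y hy => ?_⟩
  · have h : ∃ v ∈ V, y ∈ ball v (r v) := ⟨v, hv, hy⟩
    have e : h.choose = v := by
      by_contra hne
      exact disjoint_left.mp (hd _ h.choose_spec.1 v hv hne) h.choose_spec.2 hy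
    simp only [dif_pos h, e]
  · have h : ¬∃ v ∈ V, y ∈ ball v (r v) := fun ⟨v, hv, hy'⟩ => hy v hv hy'
    simp only [dif_neg h]

omit [InnerProductSpace ℝ X] in
theorem lip_glue {V : Set X} {r : X → ℝ} {D : X → X → ℝ} {S : X → ℝ} {k : ℝ} (hk : 0 ≤ k)
    (hz : ∀ v ∈ V, ∀ y, y ∉ ball v (r v) → D v y = 0)
    (hD : ∀ v ∈ V, ∀ x y, |D v x - D v y| ≤ k * ‖x - y‖)
    (h1 : ∀ v ∈ V, ∀ y ∈ ball v (r v), S y = D v y)
    (h2 : ∀ y, (∀ v ∈ V, y ∉ ball v (r v)) → S y = 0) (x y : X) :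
    |S x - S y| ≤ 2 * k * ‖x - y‖ := by
  have hn : 0 ≤ k * ‖x - y‖ := mul_nonneg hk (norm_nonneg _)
  have one : ∀ x y : X, (∀ v ∈ V, x ∈ ball v (r v) → y ∉ ball v (r v)) →
      |S x| ≤ k * ‖x - y‖ := by
    intro x y h
    by_cases hx : ∃ v ∈ V, x ∈ ball v (r v)
    · obtain ⟨v, hv, hxv⟩ := hx
      have h3 := hD v hv x y
      rwa [hz v hv y (h v hv hxv), sub_zero, ← h1 v hv x hxv] at h3
    · rw [h2 x fun v hv hxv => hx ⟨v, hv, hxv⟩, abs_zero]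
      exact mul_nonneg hk (norm_nonneg _)
  by_cases h : ∃ v ∈ V, x ∈ ball v (r v) ∧ y ∈ ball v (r v)
  · obtain ⟨v, hv, hx, hy⟩ := h
    rw [h1 v hv x hx, h1 v hv y hy]
    have h3 := hD v hv x y
    linarith
  · have a := one x y fun v hv hx hy => h ⟨v, hv, hx, hy⟩
    have b := one y x fun v hv hy hx => h ⟨v, hv, hx, hy⟩
    rw [norm_sub_rev] at b
    have c := abs_sub (S x) (S y)
    linarith

theorem smooth_glue {V : Set X} {r : X → ℝ} {D : X → X → ℝ} {S : X → ℝ} {x : X}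
    (hd : ∀ v ∈ V, ∀ w ∈ V, v ≠ w → Disjoint (ball v (r v)) (ball w (r w)))
    (hz : ∀ v ∈ V, ∀ y, y ∉ ball v (r v) → D v y = 0)
    (hD : ∀ v ∈ V, ContDiffAt ℝ ∞ (D v) x)
    (h1 : ∀ v ∈ V, ∀ y ∈ ball v (r v), S y = D v y)
    (h2 : ∀ y, (∀ v ∈ V, y ∉ ball v (r v)) → S y = 0)
    (hf : ∃ W ∈ 𝓝 x, {v | v ∈ V ∧ (W ∩ ball v (r v)).Nonempty}.Finite) :
    ContDiffAt ℝ ∞ S x := by
  obtain ⟨W, hW, hF⟩ := hf
  have h3 : ContDiffAt ℝ ∞ (fun y => ∑ v ∈ hF.toFinset, D v y) x :=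
    ContDiffAt.sum fun v hv => hD v (hF.mem_toFinset.mp hv).1
  refine h3.congr_of_eventuallyEq (mem_of_superset hW fun y hy => ?_)
  show S y = ∑ v ∈ hF.toFinset, D v y
  by_cases h : ∃ v ∈ V, y ∈ ball v (r v)
  · obtain ⟨v, hv, hyv⟩ := h
    rw [h1 v hv y hyv]
    symm
    refine Finset.sum_eq_single_of_mem v (hF.mem_toFinset.mpr ⟨hv, y, hy, hyv⟩)
      fun w hw hne => ?_
    have hw' := (hF.mem_toFinset.mp hw).1
    exact hz w hw' y fun hyw => disjoint_left.mp (hd w hw' v hv hne) hyw hyv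
  · rw [h2 y fun v hv hyv => h ⟨v, hv, hyv⟩]
    exact (Finset.sum_eq_zero fun v hv =>
      hz v (hF.mem_toFinset.mp hv).1 y fun hyv => h ⟨v, (hF.mem_toFinset.mp hv).1, hyv⟩).symm

theorem exists_cut (X : Type) [NormedAddCommGroup X] [InnerProductSpace ℝ X]
    [FiniteDimensional ℝ X] :
    ∃ (L : ℝ) (ψ : ℝ → X → ℝ), 0 ≤ L ∧ ∀ r, 0 < r → ContDiff ℝ ∞ (ψ r) ∧ (∀ u, 0 ≤ ψ r u) ∧
      (∀ u, ψ r u ≤ 1) ∧ (∀ u, 3 / 4 * r ≤ ‖u‖ → ψ r u = 0) ∧ (∀ u, ‖u‖ ≤ r / 2 → ψ r u = 1) ∧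
      ∀ u w, |ψ r u - ψ r w| ≤ L / r * ‖u - w‖ := by
  let φ : ContDiffBump (0 : X) := ⟨1 / 2, 3 / 4, by norm_num, by norm_num⟩
  obtain ⟨L, hL⟩ := ContDiff.lipschitzWith_of_hasCompactSupport φ.hasCompactSupport
    (φ.contDiff (n := 1)) one_ne_zero
  refine ⟨L, fun r u => φ (r⁻¹ • u), L.2, fun r hr => ⟨?_, fun u => φ.nonneg, fun u => φ.le_one,
    fun u hu => ?_, fun u hu => ?_, fun u w => ?_⟩⟩
  · exact φ.contDiff.comp (contDiff_id.const_smul r⁻¹)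
  · refine φ.zero_of_le_dist ?_
    rw [dist_zero_right, norm_smul, Real.norm_of_nonneg (inv_pos.mpr hr).le, inv_mul_eq_div,
      le_div_iff₀ hr]
    exact hu
  · refine φ.one_of_mem_closedBall ?_
    rw [mem_closedBall, dist_zero_right, norm_smul, Real.norm_of_nonneg (inv_pos.mpr hr).le,
      inv_mul_eq_div, div_le_iff₀ hr]
    show ‖u‖ ≤ 1 / 2 * r
    linarith
  · have h := hL.dist_le_mul (r⁻¹ • u) (r⁻¹ • w)
    rw [Real.dist_eq, dist_eq_norm, ← smul_sub, norm_smul,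
      Real.norm_of_nonneg (inv_pos.mpr hr).le] at h
    calc |φ (r⁻¹ • u) - φ (r⁻¹ • w)| ≤ L * (r⁻¹ * ‖u - w‖) := h
      _ = L / r * ‖u - w‖ := by ring

/-- sign and size of the homogeneous extension -/
theorem sign_hx {A : Set X} {v : X} {r : ℝ} {γ f : X → ℝ} (hr : 0 < r) (hv : v ∉ A)
    (hA : ConeSet A v r) (hγ : SupFn γ A v r) (hp : ∀ x, 0 < f x ↔ x ∈ A)
    (hle : ∀ x ∈ A, f x ≤ γ x) {x : X} (hx' : ‖x - v‖ < 3 / 4 * r) :
    (0 < hx (fun u => f (v + u)) (3 / 4 * r) (x - v) ↔ x ∈ A) ∧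
      (x ∈ A → hx (fun u => f (v + u)) (3 / 4 * r) (x - v) ≤ γ x) := by
  by_cases hxv : x = v
  · subst hxv
    rw [sub_self, hx_zero]
    exact ⟨⟨fun h => (lt_irrefl _ h).elim, fun h => (hv h).elim⟩, fun h => (hv h).elim⟩
  have hs : 0 < 3 / 4 * r := by positivity
  have hu : x - v ≠ 0 := sub_ne_zero.mpr hxv
  have ha : 0 < ‖x - v‖ := norm_pos_iff.mpr hu
  have hy : v + (3 / 4 * r / ‖x - v‖) • (x - v) ∈ ball v r := by
    rw [mem_ball, dist_eq_norm, add_sub_cancel_left, norm_proj hs hu]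
    linarith
  have ht : ‖x - v‖ / (3 / 4 * r) ∈ Ioc (0 : ℝ) 1 := ⟨div_pos ha hs, (div_le_one hs).mpr hx'.le⟩
  have e : v + (‖x - v‖ / (3 / 4 * r)) • (v + (3 / 4 * r / ‖x - v‖) • (x - v) - v) = x := by
    rw [add_sub_cancel_left, smul_smul]
    have h1 : ‖x - v‖ / (3 / 4 * r) * (3 / 4 * r / ‖x - v‖) = 1 := by field_simp
    rw [h1, one_smul, add_sub_cancel]
  have h1 := hA _ hy _ ht
  rw [e] at h1
  unfold hx
  refine ⟨?_, fun hxA => ?_⟩
  · rw [h1, ← hp, mul_pos_iff_of_pos_left ht.1]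
  · have h2 := hγ _ hy (h1.mp hxA) _ ht
    rw [e] at h2
    exact (mul_le_mul_of_nonneg_left (hle _ (h1.mp hxA)) ht.1.le).trans h2

end MINH

open MINH in
theorem blockMINH : StmtMINH := by
  intro X _ _ _ A U V r γ κ hA hAU hκ hγ hV hd hfin
  obtain ⟨L, ψ, hL, hψ⟩ := exists_cut X
  have hc : (0 : ℝ) < 9 + 8 * L := by positivity
  have hκ' : (0 : ℝ) < κ := hκ
  obtain ⟨f, hf, hlip, hf0, hfp, hfγ⟩ := Sm.blockMIN X A γ
    ⟨κ / (9 + 8 * L), (div_pos hκ' hc).le⟩ hA (div_pos hκ' hc) hγ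
  obtain ⟨k, hk, hkκ, hfl⟩ : ∃ k : ℝ, 0 ≤ k ∧ (9 + 8 * L) * k = κ ∧
      ∀ x y, |f x - f y| ≤ k * ‖x - y‖ := by
    refine ⟨κ / (9 + 8 * L), (div_pos hκ' hc).le, mul_div_cancel₀ _ hc.ne', fun x y => ?_⟩
    have h := hlip.dist_le_mul x y
    rwa [Real.dist_eq, dist_eq_norm] at h
  let H : X → X → ℝ := fun v => hx (fun u => f (v + u)) (3 / 4 * r v)
  let D : X → X → ℝ := fun v y => ψ (r v) (y - v) * (H v (y - v) - f y)
  have hfv : ∀ v ∈ V, f v = 0 := fun v hv =>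
    le_antisymm (not_lt.mp fun h => (hV v hv).2.1 (hAU ((hfp v).mp h))) (hf0 v)
  have hz : ∀ v ∈ V, ∀ y, y ∉ ball v (r v) → D v y = 0 := by
    intro v hv y hy
    have hr := (hV v hv).1
    rw [mem_ball, dist_eq_norm, not_lt] at hy
    show ψ (r v) (y - v) * _ = 0
    rw [(hψ _ hr).2.2.2.1 _ (by linarith), zero_mul]
  have hD : ∀ v ∈ V, ∀ x y, |D v x - D v y| ≤ (1 + L) * (4 * k) * ‖x - y‖ := by
    intro v hv x y
    have hr := (hV v hv).1
    obtain ⟨-, a0, a1, a2, -, a3⟩ := hψ _ hr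
    have hg : ∀ u w : X, |f (v + u) - f (v + w)| ≤ k * ‖u - w‖ := fun u w => by
      simpa using hfl (v + u) (v + w)
    have h := lip_mul (G := fun u => H v u - f (v + u)) hr hL (k := 4 * k) (by positivity) a0 a1
      (fun u hu => a2 u (by linarith)) a3 (by simp [H, hx_zero, hfv v hv]) (fun u w => by
        have b1 := lip_hx (f := fun u => f (v + u)) (s := 3 / 4 * r v) (by positivity) hk
          (by simp [hfv v hv]) hg u w
        have b2 := hg u w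
        have e : H v u - f (v + u) - (H v w - f (v + w)) =
          (H v u - H v w) - (f (v + u) - f (v + w)) := by ring
        rw [e]
        refine (abs_sub _ _).trans ?_
        linarith) (x - v) (y - v)
    simpa [D] using h
  obtain ⟨S, h1, h2⟩ := glue D hd
  have hrep : ∀ x, ∃ θ h : ℝ, 0 ≤ θ ∧ θ ≤ 1 ∧ 0 ≤ h ∧ (0 < h ↔ x ∈ A) ∧ (x ∈ A → h ≤ γ x) ∧
      f x + S x = (1 - θ) * f x + θ * h := by
    intro x
    by_cases hS : S x = 0
    · exact ⟨0, f x, le_rfl, zero_le_one, hf0 x, hfp x, hfγ x, by rw [hS]; ring⟩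
    obtain ⟨v, hv, hxv⟩ : ∃ v ∈ V, x ∈ ball v (r v) := by
      by_contra h
      exact hS (h2 x fun v hv hxv => h ⟨v, hv, hxv⟩)
    obtain ⟨hr, hvU, hcone, hsup⟩ := hV v hv
    obtain ⟨-, a0, a1, a2, -, -⟩ := hψ _ hr
    rw [h1 v hv x hxv] at hS ⊢
    have hx' : ‖x - v‖ < 3 / 4 * r v := by
      by_contra h
      exact hS (by simp only [D, a2 _ (not_lt.mp h), zero_mul])
    have h3 := sign_hx hr (fun h => hvU (hAU h)) hcone hsup hfp hfγ hx'
    refine ⟨ψ (r v) (x - v), H v (x - v), a0 _, a1 _, ?_, h3.1, h3.2, ?_⟩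
    · exact mul_nonneg (by positivity) (hf0 _)
    · simp only [D]
      ring
  refine ⟨fun x => f x + S x, fun x hxU => ?_, ?_, fun x => ?_, fun x => ?_, fun x hxA => ?_,
    fun v hv y hy t ht => ?_⟩
  · refine hf.contDiffAt.add (smooth_glue hd hz (fun v hv => ?_) h1 h2 (hfin x hxU))
    have hne : x - v ≠ 0 := sub_ne_zero.mpr fun h => (hV v hv).2.1 (h ▸ hxU)
    have hs : ContDiffAt ℝ ∞ (fun y : X => y - v) x := contDiffAt_id.sub contDiffAt_const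
    have hH : ContDiffAt ℝ ∞ (H v) (x - v) :=
      smooth_hx (hf.comp (contDiff_const.add contDiff_id)) _ hne
    exact ((hψ _ (hV v hv).1).1.contDiffAt.comp x hs).mul
      ((ContDiffAt.comp x (g := H v) hH hs).sub hf.contDiffAt)
  · refine LipschitzWith.of_dist_le_mul fun x y => ?_
    have b1 := lip_glue (by positivity) hz hD h1 h2 x y
    have b2 := hfl x y
    have e : f x + S x - (f y + S y) = (f x - f y) + (S x - S y) := by ring
    rw [Real.dist_eq, dist_eq_norm, e, ← hkκ]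
    refine (abs_add_le _ _).trans ?_
    linarith
  · obtain ⟨θ, h, a0, a1, a2, -, -, e⟩ := hrep x
    have := hf0 x
    show 0 ≤ f x + S x
    rw [e]
    exact add_nonneg (mul_nonneg (sub_nonneg.mpr a1) this) (mul_nonneg a0 a2)
  · obtain ⟨θ, h, a0, a1, a2, a3, -, e⟩ := hrep x
    show 0 < f x + S x ↔ x ∈ A
    rw [e]
    refine ⟨fun hp => ?_, fun hxA => ?_⟩
    · by_contra hxA
      have b1 : f x = 0 := le_antisymm (not_lt.mp fun h' => hxA ((hfp x).mp h')) (hf0 x)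
      have b2 : h = 0 := le_antisymm (not_lt.mp fun h' => hxA (a3.mp h')) a2
      rw [b1, b2, mul_zero, mul_zero, add_zero] at hp
      exact lt_irrefl _ hp
    · have b1 := (hfp x).mpr hxA
      have b2 := a3.mpr hxA
      rcases a0.eq_or_lt with h0 | h0
      · rw [← h0]
        linarith
      · exact add_pos_of_nonneg_of_pos (mul_nonneg (sub_nonneg.mpr a1) b1.le) (mul_pos h0 b2)
  · obtain ⟨θ, h, a0, a1, -, -, a4, e⟩ := hrep x
    show f x + S x ≤ γ x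
    rw [e]
    have b1 := mul_le_mul_of_nonneg_left (hfγ x hxA) (sub_nonneg.mpr a1)
    have b2 := mul_le_mul_of_nonneg_left (a4 hxA) a0
    linarith
  · have hr := (hV v hv).1
    have hval : ∀ z : X, ‖z - v‖ < r v / 2 → f z + S z = H v (z - v) := by
      intro z hz'
      rw [h1 v hv z (by rw [mem_ball, dist_eq_norm]; linarith)]
      simp only [D, (hψ _ hr).2.2.2.2.1 _ hz'.le]
      ring
    rw [mem_ball, dist_eq_norm] at hy
    have hz' : ‖v + t • (y - v) - v‖ < r v / 2 := by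
      rw [add_sub_cancel_left, norm_smul, Real.norm_of_nonneg ht.1.le]
      exact (mul_le_of_le_one_left (norm_nonneg _) ht.2).trans_lt hy
    show f _ + S _ = t * (f y + S y)
    rw [hval _ hz', hval y hy, add_sub_cancel_left]
    exact hx_smul _ _ _ ht.1

end Vale.Agent.P073Z.Sv
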