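import Vale.Agent.P073Z.Sv.Sk
import Vale.Agent.P073Z.Sm.MOVE
import Vale.Agent.P073Z.Sm.DIST
import Vale.Agent.P073Z.Sm.INV

/-!
# P073, smoothing for all exponents: block MOVEH
-/

open Set Metric MeasureTheory Topology Filter
open scoped ContDiff ENNReal NNReal

noncomputable section

namespace Vale.Agent.P073Z.Sv

open Vale.Agent.P073Z.Sm Vale.Agent.P073Z.Sm.MOVE

namespace MOVEH

theorem anti_fderiv {C : ℝ≥0} {η : E → E} {x : E} (ha : AntilipschitzWith C η)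
    (hd : DifferentiableAt ℝ η x) (z : E) : ‖z‖ ≤ C * ‖fderiv ℝ η x z‖ := by
  have h := ((hd.hasFDerivAt.hasLineDerivAt z).tendsto_slope_zero_right.norm).const_mul (C : ℝ)
  refine ge_of_tendsto h ?_
  filter_upwards [self_mem_nhdsWithin] with t ht
  have ht' : (0 : ℝ) < t := ht
  have h1 := ha.le_mul_dist (x + t • z) x
  rw [dist_eq_norm, dist_eq_norm, add_sub_cancel_left, norm_smul, Real.norm_of_nonneg ht'.le] at h1
  rw [norm_smul, Real.norm_of_nonneg (inv_pos.mpr ht').le, mul_left_comm, inv_mul_eq_div,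
    le_div_iff₀ ht', mul_comm]
  exact h1

/-- uniform distortion bound for bi-Lipschitz linear maps -/
theorem exists_dist (C : ℝ≥0) {p : ℝ} (hp : 0 ≤ p) :
    ∃ c : ℝ, 0 ≤ c ∧ ∀ A : E →L[ℝ] E, ‖A‖ ≤ C → (∀ z, ‖z‖ ≤ C * ‖A z‖) →
      ‖A‖ ^ p ≤ c * |A.det| := by
  let S : Set (E →L[ℝ] E) := closedBall 0 C ∩ ⋂ z : E, {A | ‖z‖ ≤ C * ‖A z‖}
  have hS : IsCompact S := (isCompact_closedBall _ _).inter_right
    (isClosed_iInter fun z => isClosed_le continuous_const (by fun_prop))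
  have hdet : ∀ A ∈ S, |A.det| ≠ 0 := by
    intro A hA h0
    have h1 := (LinearMap.det_eq_zero_iff_ker_ne_bot (f := (A : E →ₗ[ℝ] E))).1 (abs_eq_zero.1 h0)
    refine h1 (LinearMap.ker_eq_bot'.2 fun z hz => ?_)
    have h2 : ‖z‖ ≤ C * ‖A z‖ := mem_iInter.1 hA.2 z
    have h3 : A z = 0 := hz
    rw [h3, norm_zero, mul_zero] at h2
    exact norm_le_zero_iff.1 h2
  have hc : ContinuousOn (fun A : E →L[ℝ] E => ‖A‖ ^ p / |A.det|) S :=
    ContinuousOn.div (continuous_norm.rpow_const fun _ => Or.inr hp).continuousOn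
      ContinuousLinearMap.continuous_det.abs.continuousOn hdet
  obtain ⟨M, hM⟩ := hS.exists_bound_of_continuousOn hc
  refine ⟨max M 0, le_max_right _ _, fun A h1 h2 => ?_⟩
  have hA : A ∈ S := ⟨mem_closedBall_zero_iff.2 h1, mem_iInter.2 h2⟩
  have h3 := (le_abs_self _).trans ((Real.norm_eq_abs _).symm.trans_le (hM A hA))
  have h4 : 0 < |A.det| := lt_of_le_of_ne (abs_nonneg _) (hdet A hA).symm
  rw [div_le_iff₀ h4] at h3
  exact h3.trans (mul_le_mul_of_nonneg_right (le_max_left _ _) h4.le)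

theorem hom_fix {T : E → E} {v : E} (h : Hom T v) : T v = v := by
  simpa using h.hom v 0 le_rfl

theorem ld_of_comp {T η : E → E} {v y : E} (hT : Hom T v) (hη : Continuous η) (hy : η y ≠ v)
    (h : LD (fun x => T (η x)) y) : LD η y := by
  have hi : InjOn T {v}ᶜ := hT.bij.1.injOn
  have h1 := (blockINV E T {v}ᶜ isOpen_compl_singleton hi fun x hx => hT.ld x hx).2 (T (η y))
    (mem_image_of_mem T hy)
  refine (LD.comp (G := Function.invFunOn T {v}ᶜ) (F := fun x => T (η x)) h1 h).congr ?_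
  filter_upwards [hη.continuousAt.eventually_ne hy] with x hx
  exact (hi.leftInvOn_invFunOn hx).symm

theorem chg_mono {p : ℝ} {Ω Λ K : Set E} {h h' : E → E} {δ δ' : ℝ≥0∞} (hd : δ ≤ δ')
    (H : Chg p Ω Λ h h' K δ) : Chg p Ω Λ h h' K δ' :=
  ⟨H.cpt, H.off, H.homeo, H.vol.trans hd, H.en'.trans hd, H.en.trans hd⟩

/-- one fountain move -/
theorem single (hF : StmtFOUNT) {p : ℝ} (hp : 1 ≤ p) {V : Set E} {v w u : E} (hV : IsOpen V)
    (hseg : segment ℝ v w ⊆ V) (hvw : w ≠ v) (hu : ∀ s : ℝ, u ≠ s • (w - v)) {h : E → E}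
    {Ω Λ P : Set E} {δ : ℝ≥0∞} (hVΩ : V ⊆ Ω) (hh : Homeo h Ω Λ)
    (hVP : Disjoint V P) (hld : ∀ x ∈ Ω, x ∉ P → x ≠ v → LD h x) (hN : NiceDir h v (w - v))
    (hfin : En p Ω h < ⊤) (hδ : 0 < δ) :
    ∃ (h' : E → E) (K : Set E), K ⊆ V ∧ Chg p Ω Λ h h' K δ ∧ h' w = h w ∧
      (∀ x ∈ Ω, x ∉ P → x ≠ w → LD h' x) ∧ NiceDir h' w u := by
  obtain ⟨D, T, hD, hT, hTw, hDT⟩ := hN
  rw [add_sub_cancel] at hTw
  have hp0 : 0 ≤ p := by linarith
  obtain ⟨C, H⟩ := hF T v w u hT hvw hTw hu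
  obtain ⟨c, hc0, hc⟩ := exists_dist C hp0
  have hη : 0 < min δ (δ / ENNReal.ofReal c) :=
    lt_min hδ (pos_iff_ne_zero.2 (ENNReal.div_ne_zero.2 ⟨hδ.ne', ENNReal.ofReal_ne_top⟩))
  obtain ⟨r, hr, hrK⟩ := exists_radius hV hseg hVΩ hfin hδ hη
  obtain ⟨η, Tw, K, hKc, hKN, hoff, hb, hlip, hanti, -, hTη, hTw1, hTw2, hηw⟩ :=
    H (thickening (2 * r) (segment ℝ v w)) isOpen_thickening
      (self_subset_thickening (by positivity) _) univ univ_mem
  obtain ⟨hKV, hvol, hEK⟩ := hrK K (hKN.trans (thickening_subset_cthickening _ _))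
  have hKΩ : K ⊆ Ω := hKV.trans hVΩ
  have hcont : Continuous η := hlip.continuous
  have hηK : MapsTo η K K := mapsTo_of_off hb.1 hoff Subset.rfl
  have hηΩ : BijOn η Ω Ω := bijOn_of_off hb hoff hKΩ
  have hopen : IsOpenMap η := (hanti.isInducing hcont).isOpenMap
    (by rw [hb.2.range_eq]; exact isOpen_univ)
  have hηP : ∀ x, x ∉ P → η x ∉ P := by
    intro x hx
    by_cases hxK : x ∈ K
    · exact disjoint_left.1 hVP (hKV (hηK hxK))
    · rwa [hoff x hxK]
  have hwV : w ∈ V := hseg (right_mem_segment ℝ v w)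
  refine ⟨fun x => h (η x), K, hKV, ⟨hKc, fun x hx => by rw [hoff x hx],
    homeo_comp hh ⟨hcont.continuousOn, hηΩ, fun W hW _ => hopen W hW⟩, hvol, ?_,
    hEK.trans (min_le_left _ _)⟩, ?_, fun x hx hxP hxw => ?_, h, Tw, ?_, hTw1, hTw2, ?_⟩
  · have hcount : (insert w (η ⁻¹' {v})).Countable :=
      (((finite_singleton v).preimage hb.1.injOn).insert w).countable
    have hd : ∀ x ∈ K \ insert w (η ⁻¹' {v}), LD η x := fun x hx =>
      ld_of_comp hT hcont (fun e => hx.2 (Or.inr e)) (hTη x fun e => hx.2 (Or.inl e))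
    have h1 := blockCV p c η h (K \ insert w (η ⁻¹' {v})) ∅ hp0 hc0
      (hKc.measurableSet.diff hcount.measurableSet) hb.1.injOn
      (fun x hx => (hd x hx).differentiableAt) countable_empty
      (fun x hx _ => (hld _ (hKΩ (hηK hx.1)) (disjoint_left.1 hVP (hKV (hηK hx.1)))
        fun e => hx.2 (Or.inr e)).differentiableAt)
      fun x hx => hc _ (norm_fderiv_le_of_lipschitz ℝ hlip)
        (anti_fderiv hanti (hd x hx).differentiableAt)
    rw [(blockDIST.null p K _ _ h hcount).2] at h1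
    have h2 : En p (η '' (K \ insert w (η ⁻¹' {v}))) h ≤ δ / ENNReal.ofReal c :=
      (En_mono p ((image_mono sdiff_subset).trans hηK.image_subset) h).trans
        (hEK.trans (min_le_right _ _))
    exact h1.trans ((mul_le_mul_right h2 _).trans ENNReal.mul_div_le)
  · show h (η w) = h w
    rw [hηw.self_of_nhds, hom_fix hTw1]
  · by_cases hv : η x = v
    · have h1 : LD D (T (η x)) := by
        rw [hv, hom_fix hT]
        exact hD.self_of_nhds
      refine (LD.comp (G := D) (F := fun y => T (η y)) h1 (hTη x hxw)).congr ?_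
      have h2 : Tendsto η (𝓝 x) (𝓝 v) := hv ▸ hcont.continuousAt
      exact h2.eventually hDT
    · exact (hld _ (hηΩ.mapsTo hx) (hηP x hxP) hv).comp (ld_of_comp hT hcont hv (hTη x hxw))
  · filter_upwards [hV.mem_nhds hwV, isOpen_compl_singleton.mem_nhds hvw] with y hy hyv
    exact hld y (hVΩ hy) (disjoint_left.1 hVP hy) hyv
  · filter_upwards [hηw] with y hy
    rw [hy]

theorem exists_off {O : Set E} (hO : IsOpen O) (hne : O.Nonempty) (a : E) :
    ∃ u ∈ O, ∀ s : ℝ, u ≠ s • a := by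
  by_contra hc
  push Not at hc
  have h1 : O ⊆ (ℝ ∙ a : Submodule ℝ E) := fun u hu => by
    obtain ⟨s, rfl⟩ := hc u hu
    exact Submodule.smul_mem _ _ (Submodule.mem_span_singleton_self a)
  have h2 : (ℝ ∙ a : Submodule ℝ E) = ⊤ :=
    Submodule.eq_top_of_nonempty_interior' _ (hne.mono (interior_maximal h1 hO))
  have h3 : Module.finrank ℝ (ℝ ∙ a) ≤ 1 := by
    simpa using finrank_span_le_card (R := ℝ) ({a} : Set E)
  rw [h2, finrank_top] at h3
  simp at h3

theorem scale {T : E → E} {v u : E} (hT : Hom T v) (h : ∀ᶠ y in 𝓝 (v + u), T y = y) {s : ℝ}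
    (hs : 0 < s) : ∀ᶠ y in 𝓝 (v + s • u), T y = y := by
  have h1 : Tendsto (fun y : E => v + s⁻¹ • (y - v)) (𝓝 (v + s • u)) (𝓝 (v + u)) := by
    have h2 : Continuous fun y : E => v + s⁻¹ • (y - v) := by fun_prop
    simpa [smul_smul, inv_mul_cancel₀ hs.ne'] using h2.tendsto (v + s • u)
  filter_upwards [h1.eventually h] with y hy
  have h3 := hT.hom (v + s⁻¹ • (y - v)) s hs.le
  rw [hy] at h3
  simpa [smul_smul, mul_inv_cancel₀ hs.ne'] using h3

end MOVEH

open MOVEH in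
theorem blockMOVEH (hF : StmtFOUNT) : StmtMOVEH := by
  intro p V v w hp hV hconv hv hw h Ω Λ P δ hΩ _ hVΩ hh hVP hld hN hfin hδ
  by_cases hvw : v = w
  · subst hvw
    refine ⟨h, ∅, empty_subset _, ⟨isCompact_empty, fun _ _ => rfl, hh, by simp, ?_, ?_⟩, rfl,
      hld, hN⟩
    · simp [En]
    · simp [En]
  obtain ⟨u0, -, D, T, hD, hT, hu0, hDT⟩ := hN
  have hO : IsOpen {u : E | ∀ᶠ y in 𝓝 (v + u), T y = y} :=
    isOpen_setOfPred_eventually_nhds.preimage (continuous_const_add v)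
  obtain ⟨u1, hu1, hoff⟩ := exists_off hO ⟨u0, hu0⟩ (w - v)
  obtain ⟨s, hs, hsV⟩ : ∃ s : ℝ, 0 < s ∧ v + s • u1 ∈ V := by
    have h1 : Tendsto (fun s : ℝ => v + s • u1) (𝓝[>] 0) (𝓝 v) := by
      have h2 : Continuous fun s : ℝ => v + s • u1 := by fun_prop
      simpa using (h2.tendsto 0).mono_left nhdsWithin_le_nhds
    exact ((h1.eventually (hV.mem_nhds hv)).and self_mem_nhdsWithin).exists.imp
      fun s h => ⟨h.2, h.1⟩
  have key : ∀ a : ℝ, w - v ≠ a • u1 := by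
    intro a ha
    have h0 : a ≠ 0 := fun h0 => hvw (by
      rw [h0, zero_smul] at ha
      exact (sub_eq_zero.1 ha).symm)
    exact hoff a⁻¹ (by rw [ha, smul_smul, inv_mul_cancel₀ h0, one_smul])
  have hu1ne : u1 ≠ 0 := fun h0 => hoff 0 (by rw [h0, zero_smul])
  have hδ1 : 0 < min δ 1 / 2 := ENNReal.half_pos (lt_min hδ one_pos).ne'
  have hδ2 : min δ 1 / 2 < ⊤ :=
    ENNReal.half_le_self.trans_lt ((min_le_right _ _).trans_lt ENNReal.one_lt_top)
  obtain ⟨h1, K1, hK1, hc1, -, hld1, hN1⟩ := single hF hp (V := V \ {w}) (v := v)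
    (w := v + s • u1) (u := w - (v + s • u1)) (hV.sdiff isClosed_singleton)
    (fun y hy => ⟨hconv.segment_subset hv hsV hy, fun e => by
      rw [segment_eq_image'] at hy
      obtain ⟨θ, -, hθ⟩ := hy
      refine key (θ * s) ?_
      rw [← mem_singleton_iff.1 e, ← hθ]
      simp [smul_smul]⟩)
    (fun e => smul_ne_zero hs.ne' hu1ne (add_eq_left.1 e))
    (fun a ha => key (a * s + s) (by
      rw [add_sub_cancel_left, smul_smul] at ha
      rw [add_smul, ← ha]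
      abel))
    (sdiff_subset.trans hVΩ) hh (hVP.mono_left sdiff_subset) hld
    ⟨D, T, hD, hT, by simpa using scale hT hu1 hs, hDT⟩ hfin hδ1
  have hne : w ≠ v + s • u1 := fun e => key s (by rw [e, add_sub_cancel_left])
  obtain ⟨u2, -, hu2⟩ := exists_off isOpen_univ univ_nonempty (w - (v + s • u1))
  obtain ⟨h2, K2, hK2, hc2, hw2, hld2, hN2⟩ := single hF hp hV (hconv.segment_subset hsV hw) hne
    hu2 hVΩ hc1.homeo hVP hld1 hN1 (blockDIST.chgfin p Ω Λ K1 h h1 _ hΩ hδ2 hc1 hfin) hδ1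
  refine ⟨h2, K1 ∪ K2, union_subset (hK1.trans sdiff_subset) hK2,
    chg_mono ?_ (blockDIST.trans p Ω Λ K1 K2 h h1 h2 _ _ hc1 hc2),
    hw2.trans (hc1.off w fun hw1 => (hK1 hw1).2 rfl), hld2, u2,
    fun h0 => hu2 0 (by rw [h0, zero_smul]), hN2⟩
  rw [ENNReal.add_halves]
  exact min_le_left _ _

end Vale.Agent.P073Z.Sv
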