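import Vale.Agent.P073Z.Sv.Sk
import Vale.Agent.P073Z.Sm.ST

/-!
# P073, smoothing for all exponents, block NICE: vertices are homogeneous singular points
-/

open Set Metric MeasureTheory Topology Filter

noncomputable section

namespace Vale.Agent.P073Z.Sv

open Vale.Agent.P073Z.Sm

/-- the tangent cone map is a local diffeomorphism off the apex -/
theorem NICE.ld_tan {h G : E → E} {x : E} (hG : IsTan h x G) (hld : ∀ᶠ y in 𝓝[≠] x, LD h y)
    {y : E} (hy : y ≠ x) : LD G y := by
  obtain ⟨t, ht0, h2, h3⟩ := ST.exists_pos ((ST.tendsto_hom x y).eventually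
    (hG.1.eventually_nhds.and (eventually_nhdsWithin_iff.1 hld)))
  have h5 : LD G (x + t • (y - x)) := by
    refine (h3 fun h6 => ?_).congr h2
    have h7 : t • (y - x) = 0 := add_eq_left.1 h6
    exact smul_ne_zero ht0.ne' (sub_ne_zero.2 hy) h7
  have hs : ∀ s : ℝ, s ≠ 0 → Function.Injective (s • ContinuousLinearMap.id ℝ E) :=
    fun s hs a b hab => smul_right_injective E hs hab
  have h6 : LD (fun z => x + t • (z - x)) y := LD.affine _ (hs t ht0.ne') x x y
  have h7 : LD (fun u => G x + t⁻¹ • (u - G x)) (G (x + t • (y - x))) :=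
    LD.affine _ (hs t⁻¹ (inv_ne_zero ht0.ne')) (G x) (G x) _
  refine (LD.comp (F := fun z => G (x + t • (z - x))) h7
    (LD.comp (F := fun z => x + t • (z - x)) h5 h6)).congr (Eventually.of_forall fun z => ?_)
  change G z = G x + t⁻¹ • (G (x + t • (z - x)) - G x)
  rw [hG.2 z t ht0.le, add_sub_cancel_left, smul_smul, inv_mul_cancel₀ ht0.ne', one_smul,
    add_sub_cancel]

theorem blockNICE : StmtNICE := by
  intro h Ω Λ v hΩ hh hv hc ha hld
  have hG := ST.isTan hc
  have hi := ST.inj hc (hΩ.mem_nhds hv) hh.bij.injOn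
  have hs := ST.surj hc fun V hV => mem_of_superset
    ((hh.opn _ (isOpen_interior.inter hΩ) inter_subset_right).mem_nhds
      (mem_image_of_mem h ⟨mem_interior_iff_mem_nhds.2 hV, hv⟩))
    (image_mono fun y hy => interior_subset hy.1)
  generalize tanM h v = G at hG hi hs
  obtain ⟨W, hW, hWn, hWN, A, b, hA⟩ := ha _ hG.1
  have hGA : ∀ y ∈ W, G y = b + A y := fun y hy => (hWN hy).trans (hA y hy)
  obtain ⟨w, hwv, hw⟩ := (dense_compl_singleton v).exists_mem_open hW hWn
  have hwv' : w ≠ v := hwv
  have hev : G =ᶠ[𝓝 w] fun y => b + A y := by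
    filter_upwards [hW.mem_nhds hw] with y hy using hGA y hy
  have hAi : Function.Injective A := by
    have h1 := (NICE.ld_tan hG hld hwv').2
    rwa [hev.fderiv_eq, (A.hasFDerivAt.const_add b).fderiv] at h1
  have hGv : G v = b + A v := by
    have h1 : Tendsto (fun s : ℝ => v + (1 + s) • (w - v)) (𝓝 0) (𝓝 w) := by
      have h2 : Continuous fun s : ℝ => v + (1 + s) • (w - v) := by fun_prop
      simpa using h2.tendsto 0
    obtain ⟨s, hs0, h2⟩ := ST.exists_pos (h1.eventually hev)
    beta_reduce at h2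
    rw [hG.2 w (1 + s) (by linarith), hGA w hw, map_add, map_smul, map_sub] at h2
    refine smul_right_injective E hs0.ne' ?_
    simp only
    linear_combination (norm := module) -h2
  let B : E ≃L[ℝ] E := (LinearEquiv.ofInjectiveEndo (A : E →ₗ[ℝ] E) hAi).toContinuousLinearEquiv
  have hB : ∀ y, B y = A y := fun _ => rfl
  have hBA : ∀ y, B.symm (A y) = y := fun y => by rw [← hB, B.symm_apply_apply]
  have hAB : ∀ y, A (B.symm y) = y := fun y => by rw [← hB, B.apply_symm_apply]
  refine ⟨w - v, sub_ne_zero.2 hwv', fun y => b + A y, fun y => B.symm (G y - b),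
    Eventually.of_forall fun y => ?_, ⟨fun y t ht => ?_, ?_, fun y hy => ?_⟩, ?_, ?_⟩
  · have h1 := LD.affine A hAi b 0 y
    simpa using h1
  · refine hAi ?_
    rw [hAB, hG.2 y t ht, map_add, map_smul, map_sub, hAB, hGv]
    module
  · exact B.symm.bijective.comp ((Equiv.subRight b).bijective.comp ⟨hi, hs⟩)
  · have h1 : LD (fun u => B.symm (u - b)) (G y) := by
      have h2 := LD.affine (B.symm : E →L[ℝ] E) B.symm.injective 0 b (G y)
      simpa using h2
    exact LD.comp (G := fun u => B.symm (u - b)) h1 (NICE.ld_tan hG hld hy)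
  · rw [add_sub_cancel]
    filter_upwards [hev] with y hy
    rw [hy, add_sub_cancel_left, hBA]
  · filter_upwards [hG.1] with y hy
    rw [hAB, add_sub_cancel, hy]

end Vale.Agent.P073Z.Sv
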