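import Vale.Agent.P073Z.Sv.Sk
import Vale.Agent.P073Z.Sm.T

/-!
# P073, smoothing for all exponents: block TH, thin tubes which are homogeneous near the vertices
-/

open Set Metric MeasureTheory Topology Filter
open scoped ContDiff ENNReal NNReal RealInnerProductSpace

noncomputable section

namespace Vale.Agent.P073Z.Sv

open Vale.Agent.P073Z.Sm Vale.Agent.P073Z.Sm.T

namespace TH

variable {ι : Type} {U S V : Set E} {r : E → ℝ} {cls : E → ι} {x0 e : ι → E} {O : ι → Set E}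
  {κ : ι → ℝ≥0} {β : ι → E → ℝ} {idx : ι → ℕ} {ρ : ι → ℝ → ℝ}

/-- the upper bound for the width of the tube number `i` -/
def gg (U S : Set E) (cls : E → ι) (x0 e : ι → E) (O : ι → Set E) (β : ι → E → ℝ) (idx : ι → ℕ)
    (i : ι) (s : ℝ) : ℝ :=
  min (1 / ((idx i : ℝ) + 1))
    (min (β i (x0 i + s • e i)) (infDist (x0 i + s • e i) (ZZ U S cls O i) / 12))

theorem key_est (hpos : ∀ i s, 0 < ρ i s ↔ (x0 i + s • e i ∈ S ∧ cls (x0 i + s • e i) = i))
    (hle : ∀ i s, (x0 i + s • e i ∈ S ∧ cls (x0 i + s • e i) = i) →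
      ρ i s ≤ gg U S cls x0 e O β idx i s) (i : ι) (y : E)
    (hy : y ∈ tube (x0 i) (e i) (ρ i) 4) : ft (x0 i) (e i) y ∈ S ∧
      cls (ft (x0 i) (e i) y) = i ∧ dist y (ft (x0 i) (e i) y) ≤ 4 * (1 / ((idx i : ℝ) + 1)) ∧
      ∀ z ∈ ZZ U S cls O i, dist y (ft (x0 i) (e i) y) ≤ dist (ft (x0 i) (e i) y) z / 3 := by
  have h1 := (hpos i _).1 hy.1
  have h2 := hle i _ h1
  have h3 : dist y (ft (x0 i) (e i) y) ≤ 4 * ρ i (sc (x0 i) (e i) y) := by
    rw [dist_ft]
    exact hy.2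
  have h4 := h2.trans (min_le_left _ _)
  have h5 := (h2.trans (min_le_right _ _)).trans (min_le_right _ _)
  refine ⟨h1.1, h1.2, by linarith, fun z hz => ?_⟩
  have h6 : infDist (x0 i + sc (x0 i) (e i) y • e i) (ZZ U S cls O i) ≤
    dist (ft (x0 i) (e i) y) z := infDist_le_dist_of_mem hz
  linarith

theorem tubes_of (h : Lines U S cls x0 e) (hU : Bornology.IsBounded U) (hO : ∀ i, IsOpen (O i))
    (hSO : ∀ x ∈ S, x ∈ O (cls x)) (hidx : InjOn idx (cls '' S))
    (hsm : ∀ i, ContDiffOn ℝ ∞ (ρ i) {s | 0 < ρ i s}) (hlip : ∀ i, LipschitzWith (κ i) (ρ i))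
    (hnn : ∀ i s, 0 ≤ ρ i s)
    (hpos : ∀ i s, 0 < ρ i s ↔ (x0 i + s • e i ∈ S ∧ cls (x0 i + s • e i) = i))
    (hle : ∀ i s, (x0 i + s • e i ∈ S ∧ cls (x0 i + s • e i) = i) →
      ρ i s ≤ gg U S cls x0 e O β idx i s) : Tubes U S cls x0 e κ O ρ := by
  have key := key_est hpos hle
  have hZ : ∀ i, ∀ y ∈ tube (x0 i) (e i) (ρ i) 4, y ∉ ZZ U S cls O i := by
    intro i y hy hz
    obtain ⟨h1, h2, -, h3⟩ := key i y hy
    have h4 := h3 y hz
    have h5 := infDist_pos h hU hO hSO h1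
    rw [h2] at h5
    have h6 := infDist_le_dist_of_mem (x := ft (x0 i) (e i) y) hz
    rw [dist_comm] at h4
    linarith
  refine ⟨hlip, hnn, fun i s => ?_, hsm, hpos, fun i y hy => ?_,
    fun i j hij => ?_, fun i y hy hyS => ?_, fun y hy => ?_, fun i y hyU hy => ?_⟩
  · rcases (hnn i s).eq_or_lt with h1 | h1
    · rw [← h1]
      exact zero_le_one
    · refine ((hle i s ((hpos i s).1 h1)).trans (min_le_left _ _)).trans ?_
      rw [div_le_one (by positivity)]
      linarith [Nat.cast_nonneg (α := ℝ) (idx i)]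
  · by_contra h1
    exact hZ i y hy (Or.inr h1)
  · refine Set.disjoint_left.2 fun y hi hj => ?_
    obtain ⟨a1, a2, -, a3⟩ := key i y hi
    obtain ⟨b1, b2, -, b3⟩ := key j y hj
    have h1 := a3 _ (Or.inl ⟨b1, by rw [b2]; exact hij.symm⟩)
    have h2 := b3 _ (Or.inl ⟨a1, by rw [a2]; exact hij⟩)
    have h3 := dist_triangle_left (ft (x0 i) (e i) y) (ft (x0 j) (e j) y) y
    rw [dist_comm (ft (x0 j) (e j) y)] at h2
    have h4 : dist (ft (x0 i) (e i) y) (ft (x0 j) (e j) y) = 0 :=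
      le_antisymm (by linarith) dist_nonneg
    rw [dist_eq_zero] at h4
    exact hij (by rw [← a2, h4, b2])
  · have h1 : cls y = i := by
      by_contra h1
      exact hZ i y hy (Or.inl ⟨hyS, h1⟩)
    exact ⟨h1 ▸ rc_cls h hyS, h1⟩
  · by_cases hyS : y ∈ S
    · obtain ⟨r, hr, hb⟩ := Metric.eventually_nhds_iff.1 (h.loc y hyS)
      refine ⟨ball y (r / 2), ball_mem_nhds y (by positivity),
        (finite_singleton (cls y)).subset ?_⟩
      rintro j ⟨w, hw, hwj⟩
      by_contra hj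
      obtain ⟨b1, b2, -, b3⟩ := key j w hwj
      have h1 := b3 y (Or.inl ⟨hyS, fun h2 => hj h2.symm⟩)
      have h2 := dist_triangle_left (ft (x0 j) (e j) w) y w
      have h3 : dist w y < r / 2 := hw
      have h4 := (hb (y := ft (x0 j) (e j) w) (by linarith)).2 b1
      exact hj (b2.symm.trans h4)
    · obtain ⟨r, hr, hb⟩ := Metric.isOpen_iff.1 h.cl y ⟨hy, hyS⟩
      obtain ⟨N, hN⟩ := exists_nat_one_div_lt (show 0 < r / 8 by positivity)
      refine ⟨ball y (r / 2), ball_mem_nhds y (by positivity), ?_⟩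
      refine Finite.of_finite_image (f := idx) ((finite_le_nat N).subset ?_) (hidx.mono ?_)
      · rintro _ ⟨j, ⟨w, hw, hwj⟩, rfl⟩
        obtain ⟨b1, -, b2, -⟩ := key j w hwj
        have h1 : r ≤ dist (ft (x0 j) (e j) w) y := not_lt.1 fun h1 => (hb h1).2 b1
        have h2 := dist_triangle_left (ft (x0 j) (e j) w) y w
        have h3 : dist w y < r / 2 := hw
        have h4 : 1 / ((N : ℝ) + 1) < 1 / ((idx j : ℝ) + 1) := by linarith
        have h5 := lt_of_one_div_lt_one_div (by positivity) h4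
        have h6 : (idx j : ℝ) < N := by linarith
        exact (Nat.cast_lt.1 h6).le
      · rintro j ⟨w, -, hwj⟩
        obtain ⟨b1, b2, -⟩ := key j w hwj
        exact ⟨_, b1, b2⟩
  · by_contra h0
    have h1 : ρ i (sc (x0 i) (e i) y) = 0 := le_antisymm (not_lt.1 h0) (hnn i _)
    have h2 : rc (x0 i) (e i) y ≤ 4 * ρ i (sc (x0 i) (e i) y) :=
      closure_minimal (t := {w | rc (x0 i) (e i) w ≤ 4 * ρ i (sc (x0 i) (e i) w)})
        (fun w hw => hw.2) (isClosed_le (continuous_rc _ _)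
          (continuous_const.mul ((hlip i).continuous.comp (continuous_sc _ _)))) hy
    rw [h1, mul_zero] at h2
    have h3 : ft (x0 i) (e i) y = y := ft_eq (le_antisymm h2 (norm_nonneg _))
    have h4 : y ∈ closure {w | w ∈ S ∧ cls w = i} := by
      rw [← h3]
      exact map_mem_closure (continuous_ft _ _) hy fun w hw => ⟨(key i w hw).1, (key i w hw).2.1⟩
    have h5 : y ∈ S := by
      by_contra h5
      obtain ⟨w, hw1, hw2⟩ := mem_closure_iff.1 h4 _ h.cl ⟨hyU, h5⟩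
      exact hw1.2 hw2.1
    obtain ⟨w, hw1, hw2⟩ := ((mem_closure_iff_frequently.1 h4).and_eventually (h.loc y h5)).exists
    have h6 : cls y = i := (hw2.2 hw1.1).symm.trans hw1.2
    refine h0 ((hpos i _).2 ?_)
    show ft (x0 i) (e i) y ∈ S ∧ cls (ft (x0 i) (e i) y) = i
    rw [h3]
    exact ⟨h5, h6⟩

theorem gg_bound (h : Lines U S cls x0 e) (hU : Bornology.IsBounded U) (hO : ∀ i, IsOpen (O i))
    (hSO : ∀ x ∈ S, x ∈ O (cls x)) (hβ : ∀ i, ContinuousOn (β i) U)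
    (hβ0 : ∀ i, ∀ x ∈ U, 0 < β i x) (i : ι) {K : Set ℝ} (hK : IsCompact K)
    (hKV : K ⊆ {s : ℝ | x0 i + s • e i ∈ S ∧ cls (x0 i + s • e i) = i}) :
    ∃ c : ℝ, 0 < c ∧ ∀ s ∈ K, c ≤ gg U S cls x0 e O β idx i s := by
  have hc : Continuous fun s : ℝ => x0 i + s • e i :=
    continuous_const.add (continuous_id.smul continuous_const)
  have h1 : ContinuousOn (gg U S cls x0 e O β idx i) K :=
    ContinuousOn.inf continuousOn_const (ContinuousOn.inf
      ((hβ i).comp hc.continuousOn fun s hs => h.sub (hKV hs).1)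
      (((continuous_infDist_pt _).comp hc).div_const _).continuousOn)
  rcases K.eq_empty_or_nonempty with rfl | hne
  · exact ⟨1, one_pos, fun s hs => absurd hs (notMem_empty s)⟩
  obtain ⟨s₀, hs₀, hmin⟩ := hK.exists_isMinOn hne h1
  refine ⟨_, ?_, fun s hs => hmin hs⟩
  have h2 := infDist_pos h hU hO hSO (hKV hs₀).1
  rw [(hKV hs₀).2] at h2
  exact lt_min Nat.one_div_pos_of_nat (lt_min (hβ0 i _ (h.sub (hKV hs₀).1)) (by positivity))

theorem dist_ax {a : E} (ha : ‖a‖ = 1) (x : E) (s s' : ℝ) :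
    dist (x + s • a) (x + s' • a) = dist s s' := by
  rw [dist_add_left, dist_eq_norm, ← sub_smul, norm_smul, ha, mul_one, dist_eq_norm]

theorem ax_hom (x a : E) (s₀ s t : ℝ) :
    x + (s₀ + t • (s - s₀)) • a = (x + s₀ • a) + t • ((x + s • a) - (x + s₀ • a)) := by
  rw [smul_eq_mul]
  module

theorem mem_ball_hom {X : Type} [NormedAddCommGroup X] [NormedSpace ℝ X] {v y : X} {R t : ℝ}
    (hy : y ∈ ball v R) (ht : t ∈ Ioc (0 : ℝ) 1) : v + t • (y - v) ∈ ball v R := by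
  rw [mem_ball, dist_eq_norm] at hy ⊢
  rw [add_sub_cancel_left, norm_smul, Real.norm_of_nonneg ht.1.le]
  exact (mul_le_of_le_one_left (norm_nonneg _) ht.2).trans_lt hy

/-- a vertex whose ball meets a class lies on the line of the class -/
theorem rc_vertex (h : Lines U S cls x0 e) {v y : E} {R : ℝ} {i : ι}
    (hc : ConeSet {y | y ∈ S ∧ cls y = i} v R) (hy : y ∈ ball v R) (hS : y ∈ S) (hi : cls y = i) :
    rc (x0 i) (e i) v = 0 := by
  have h1 := (hc y hy (1 / 2) ⟨by norm_num, by norm_num⟩).2 ⟨hS, hi⟩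
  have h2 := rc_cls h hS
  have h3 := rc_cls h h1.1
  rw [hi] at h2
  rw [h1.2] at h3
  have h4 := ft_eq h2
  have h5 := ft_eq h3
  rw [ft] at h4 h5
  have h6 : v = x0 i +
      (2 * sc (x0 i) (e i) (v + (1 / 2 : ℝ) • (y - v)) - sc (x0 i) (e i) y) • e i := by
    generalize sc (x0 i) (e i) (v + (1 / 2 : ℝ) • (y - v)) = b at h5 ⊢
    generalize sc (x0 i) (e i) y = a at h4 ⊢
    linear_combination (norm := module) h4 - (2 : ℝ) • h5
  rw [h6]
  exact rc_ax (h.unit i) _ _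

theorem cone_ZZ (hV : Vx U V r) {v : E} (hv : v ∈ V)
    (hc : ∀ i, ConeSet {y | y ∈ S ∧ cls y = i} v (r v)) {i : ι} (hO : ConeSet (O i) v (r v)) :
    ConeSet (ZZ U S cls O i) v (r v) := by
  intro y hy t ht
  have h1 : v + t • (y - v) ∈ U ↔ y ∈ U := by
    by_cases h : y = v
    · rw [h, sub_self, smul_zero, add_zero]
    · refine iff_of_true (hV.sub v hv _ (mem_ball_hom hy ht) fun h2 => h ?_) (hV.sub v hv y hy h)
      have h3 : t • (y - v) = 0 := add_eq_left.1 h2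
      exact sub_eq_zero.1 ((smul_eq_zero.1 h3).resolve_left ht.1.ne')
  refine or_congr ⟨fun h => ?_, fun h => ?_⟩ (not_congr (and_congr (hO y hy t ht) h1))
  · have h2 := (hc _ y hy t ht).1 ⟨h.1, rfl⟩
    exact ⟨h2.1, fun h3 => h.2 (h2.2.symm.trans h3)⟩
  · have h2 := (hc _ y hy t ht).2 ⟨h.1, rfl⟩
    exact ⟨h2.1, fun h3 => h.2 (h2.2.symm.trans h3)⟩

end TH

open TH in
theorem blockTH (hMINH : StmtMINH) (hCONE : StmtCONE) : StmtTH := by
  intro ι U S V r cls x0 e κ O β h hU hV hc hκ hO hSO hβ hβ0 hOβ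
  obtain ⟨idx, hidx⟩ := countable_iff_exists_injOn.1 (countable_cls h)
  have hvZ : ∀ v ∈ V, ∀ i, v ∈ ZZ U S cls O i := fun v hv i =>
    Or.inr fun h1 => hV.nmem v hv h1.2
  have hex : ∀ i, ∃ ρ : ℝ → ℝ,
      (∀ s ∈ {s : ℝ | x0 i + s • e i ∈ S ∧ cls (x0 i + s • e i) = i}, ContDiffAt ℝ ∞ ρ s) ∧
      LipschitzWith (κ i) ρ ∧ (∀ s, 0 ≤ ρ s) ∧
      (∀ s, 0 < ρ s ↔ s ∈ {s : ℝ | x0 i + s • e i ∈ S ∧ cls (x0 i + s • e i) = i}) ∧
      (∀ s ∈ {s : ℝ | x0 i + s • e i ∈ S ∧ cls (x0 i + s • e i) = i},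
        ρ s ≤ gg U S cls x0 e O β idx i s) ∧
      ∀ s ∈ {s : ℝ | x0 i + s • e i ∈ V ∧
          ∃ y ∈ ball (x0 i + s • e i) (r (x0 i + s • e i)), y ∈ S ∧ cls y = i},
        HomFn ρ s (r (x0 i + s • e i) / 2 / 2) := by
    intro i
    have hb : ∀ s₀ s : ℝ, x0 i + s₀ • e i ∈ V → s ∈ ball s₀ (r (x0 i + s₀ • e i) / 2) →
        x0 i + s • e i ∈ ball (x0 i + s₀ • e i) (r (x0 i + s₀ • e i) / 2) ∧
        x0 i + s • e i ∈ ball (x0 i + s₀ • e i) (r (x0 i + s₀ • e i)) := by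
      intro s₀ s h0 hs
      have h1 : x0 i + s • e i ∈ ball (x0 i + s₀ • e i) (r (x0 i + s₀ • e i) / 2) := by
        rw [mem_ball, dist_ax (h.unit i)]
        exact hs
      exact ⟨h1, ball_subset_ball (half_le_self (hV.pos _ h0).le) h1⟩
    refine hMINH ℝ _ _ _ (fun s => r (x0 i + s • e i) / 2) _ (κ i) (open_V h i) subset_rfl (hκ i)
      (fun K hK hKV => gg_bound h hU hO hSO hβ hβ0 i hK hKV) ?_ ?_ ?_
    · rintro s₀ ⟨h0, y, hy, hyS, hyi⟩
      obtain ⟨h1, h2⟩ := hOβ _ h0 y hy hyS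
      rw [hyi] at h1 h2
      refine ⟨half_pos (hV.pos _ h0), fun h3 => hV.nmem _ h0 (h.sub h3.1), fun s hs t ht => ?_,
        fun s hs hsA t ht => ?_⟩
      · have h3 := hc _ h0 i _ (hb s₀ s h0 hs).2 t ht
        rw [← ax_hom] at h3
        exact h3
      · have h3 := h2 _ (hb s₀ s h0 hs).2 (h.sub hsA.1) t ht
        have h4 := hCONE.dist _ _ _ (hvZ _ h0 i) (cone_ZZ hV h0 (hc _ h0) h1) _
          (hb s₀ s h0 hs).1 (mem_univ _) t ht
        rw [← ax_hom] at h3 h4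
        have h5 : (0 : ℝ) < 1 / ((idx i : ℝ) + 1) := Nat.one_div_pos_of_nat
        refine le_min ?_ (le_min ?_ ?_)
        · exact (mul_le_mul_of_nonneg_left (min_le_left _ _) ht.1.le).trans
            (mul_le_of_le_one_left h5.le ht.2)
        · exact (mul_le_mul_of_nonneg_left ((min_le_right _ _).trans (min_le_left _ _))
            ht.1.le).trans h3
        · refine (mul_le_mul_of_nonneg_left ((min_le_right _ _).trans (min_le_right _ _))
            ht.1.le).trans ?_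
          rw [← mul_div_assoc]
          exact div_le_div_of_nonneg_right h4 (by norm_num)
    · intro s₀ h0 s₁ h1 hne
      have h2 : x0 i + s₀ • e i ≠ x0 i + s₁ • e i := fun h2 => hne (by
        rw [← sc_ax (h.unit i) (x0 i) s₀, h2, sc_ax (h.unit i)])
      exact Set.disjoint_left.2 fun s h3 h4 => Set.disjoint_left.1 (hV.disj _ h0.1 _ h1.1 h2)
        (hb s₀ s h0.1 h3).2 (hb s₁ s h1.1 h4).2
    · intro s hs
      obtain ⟨W, hW, hf⟩ := hV.fin _ (h.sub hs.1)
      have h1 : Continuous fun s : ℝ => x0 i + s • e i :=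
        continuous_const.add (continuous_id.smul continuous_const)
      refine ⟨_, h1.continuousAt.preimage_mem_nhds hW, (hf.image (sc (x0 i) (e i))).subset ?_⟩
      rintro s₀ ⟨h0, s', h2, h3⟩
      exact ⟨_, ⟨h0.1, _, h2, (hb s₀ s' h0.1 h3).2⟩, sc_ax (h.unit i) _ _⟩
  choose ρ hsm hlip hnn hpos hle hhom using hex
  refine ⟨ρ, tubes_of h hU hO hSO hidx
      (fun i s hs => (hsm i s ((hpos i s).1 hs)).contDiffWithinAt) hlip hnn hpos hle,
    fun i s hs => ((hle i s ((hpos i s).1 hs)).trans (min_le_right _ _)).trans (min_le_left _ _),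
    fun v hv i y hy hyt => ?_, fun v hv i hrc => ?_⟩
  · obtain ⟨h1, h2, -, h3⟩ := key_est hpos hle i y hyt
    have h4 := h3 v (hvZ v hv i)
    have h5 := dist_triangle_left (ft (x0 i) (e i) y) v y
    have h6 : dist y v < r v / 4 := hy
    have h7 := hV.pos v hv
    exact rc_vertex h (hc v hv i) (mem_ball.2 (by linarith)) h1 h2
  · have h1 : x0 i + sc (x0 i) (e i) v • e i = v := ft_eq hrc
    by_cases h2 : ∃ y ∈ ball v (r v), y ∈ S ∧ cls y = i
    · have h3 := hhom i (sc (x0 i) (e i) v) (by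
        change _ ∧ _
        rw [h1]
        exact ⟨hv, h2⟩)
      rw [h1, div_div] at h3
      have h4 : (2 : ℝ) * 2 = 4 := by norm_num
      rw [h4] at h3
      exact h3
    · have h3 : ∀ s ∈ ball (sc (x0 i) (e i) v) (r v / 4), ρ i s = 0 := by
        intro s hs
        refine le_antisymm (not_lt.1 fun h4 => h2 ⟨_, ?_, (hpos i s).1 h4⟩) (hnn i s)
        have h5 : dist s (sc (x0 i) (e i) v) < r v / 4 := hs
        have h6 := hV.pos v hv
        rw [← dist_ax (h.unit i) (x0 i), h1] at h5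
        exact mem_ball.2 (by linarith)
      intro s hs t ht
      rw [h3 s hs, h3 _ (mem_ball_hom hs ht), mul_zero]

end Vale.Agent.P073Z.Sv
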