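import Vale.Agent.P073Z.Sv.Sk

/-!
# P073, smoothing for all exponents, block VX: radii for the vertices
-/

open Set Metric MeasureTheory Topology Filter

noncomputable section

namespace Vale.Agent.P073Z.Sv

open Vale.Agent.P073Z.Sm

theorem VX.exists_rad {Ω V : Set E} (hΩ : IsOpen Ω) (hV : LocFin V Ω) {v : E} (hv : v ∈ V) :
    ∃ ρ : ℝ, 0 < ρ ∧ ∀ z, z ∉ Ω \ V → z ≠ v → 3 * ρ ≤ dist z v := by
  obtain ⟨s, hs, h1⟩ := nhds_basis_closedBall.mem_iff.1 (hΩ.mem_nhds (hV.1 hv))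
  have h2 := ((hV.2 _ (isCompact_closedBall v s) h1).subset
    (sdiff_subset (t := {v}))).isClosed.isOpen_compl.mem_nhds (x := v) fun h => h.2 rfl
  obtain ⟨a, ha, h3⟩ := nhds_basis_ball.mem_iff.1 (inter_mem h2 (closedBall_mem_nhds v hs))
  refine ⟨a / 3, by positivity, fun z hz hne => ?_⟩
  by_contra h4
  have h5 : z ∈ ball v a := by
    rw [mem_ball]
    linarith [not_le.1 h4]
  obtain ⟨h6, h7⟩ := h3 h5
  exact hz ⟨h1 h7, fun h8 => h6 ⟨⟨h8, h7⟩, hne⟩⟩

theorem blockVX : StmtVX := by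
  intro Ω V r0 hΩ hb hV h0
  have h1 : ∀ v, ∃ ρ : ℝ, v ∈ V → 0 < ρ ∧ ∀ z, z ∉ Ω \ V → z ≠ v → 3 * ρ ≤ dist z v := by
    intro v
    by_cases hv : v ∈ V
    · obtain ⟨ρ, h⟩ := VX.exists_rad hΩ hV hv
      exact ⟨ρ, fun _ => h⟩
    · exact ⟨0, fun h => absurd h hv⟩
  choose ρ hρ using h1
  have hne : (Ωᶜ : Set E).Nonempty := by
    rw [nonempty_compl]
    rintro rfl
    exact NormedSpace.unbounded_univ ℝ E hb
  refine ⟨fun v => min (r0 v) (ρ v), ⟨fun v hv => lt_min (h0 v hv) (hρ v hv).1,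
    fun v hv h => h.2 hv, fun v hv y hy hyv => ?_, fun v hv w hw hvw => ?_, fun x hx => ?_⟩,
    fun v _ => min_le_left _ _, fun v hv y hy => ?_⟩
  · by_contra h
    have h2 := (hρ v hv).2 y h hyv
    have h3 := lt_of_lt_of_le (mem_ball.1 hy) (min_le_right _ _)
    linarith [(hρ v hv).1]
  · refine ball_disjoint_ball ?_
    have h2 := (hρ v hv).2 w (fun h => h.2 hw) hvw.symm
    have h3 := (hρ w hw).2 v (fun h => h.2 hv) hvw
    rw [dist_comm] at h2
    linarith [min_le_right (r0 v) (ρ v), min_le_right (r0 w) (ρ w), (hρ v hv).1, (hρ w hw).1]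
  · have hd : 0 < infDist x Ωᶜ :=
      (hΩ.isClosed_compl.notMem_iff_infDist_pos hne).1 fun h => h hx.1
    have hK : {z : E | 3 / 8 * infDist x Ωᶜ ≤ infDist z Ωᶜ} ⊆ Ω := fun z hz => by
      by_contra h
      have h2 : 3 / 8 * infDist x Ωᶜ ≤ infDist z Ωᶜ := hz
      rw [infDist_zero_of_mem (show z ∈ Ωᶜ from h)] at h2
      linarith
    have hC : IsCompact {z : E | 3 / 8 * infDist x Ωᶜ ≤ infDist z Ωᶜ} :=
      isCompact_of_isClosed_isBounded (isClosed_le continuous_const (continuous_infDist_pt _))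
        (hb.subset hK)
    refine ⟨ball x (infDist x Ωᶜ / 2), ball_mem_nhds x (half_pos hd),
      (hV.2 _ hC hK).subset ?_⟩
    rintro v ⟨hv, y, h2, h3⟩
    refine ⟨hv, ?_⟩
    have h4 : 3 * ρ v ≤ infDist v Ωᶜ := (le_infDist hne).2 fun z hz => by
      rw [dist_comm]
      exact (hρ v hv).2 z (fun h => hz h.1) fun h => hz (h ▸ hV.1 hv)
    have h5 := lt_of_lt_of_le (mem_ball.1 h3) (min_le_right _ _)
    have h6 := mem_ball'.1 h2
    have h7 := infDist_le_infDist_add_dist (x := x) (y := v) (s := Ωᶜ)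
    have h8 := dist_triangle x y v
    change 3 / 8 * infDist x Ωᶜ ≤ infDist v Ωᶜ
    linarith
  · have hv' : v ∈ (Ω \ V)ᶜ := fun h => h.2 hv
    rw [← dist_eq_norm]
    refine le_antisymm (infDist_le_dist_of_mem hv') ((le_infDist ⟨v, hv'⟩).2 fun z hz => ?_)
    by_cases h : z = v
    · rw [h]
    · have h2 := (hρ v hv).2 z hz h
      have h3 := lt_of_lt_of_le (mem_ball.1 hy) (min_le_right _ _)
      have h4 := dist_triangle z y v
      rw [dist_comm z y] at h4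
      linarith [(hρ v hv).1]

end Vale.Agent.P073Z.Sv
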