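import Vale.Agent.P073Z.Sv.Main
import Vale.Agent.P073Z.Sv.VX
import Vale.Agent.P073Z.Sv.CONE
import Vale.Agent.P073Z.Sv.NICE
import Vale.Agent.P073Z.Sv.MINH
import Vale.Agent.P073Z.Sv.TH
import Vale.Agent.P073Z.Sv.FDH
import Vale.Agent.P073Z.Sv.FACEH
import Vale.Agent.P073Z.Sv.EMH
import Vale.Agent.P073Z.Sv.EDGEH
import Vale.Agent.P073Z.Sv.FA
import Vale.Agent.P073Z.Sv.FB
import Vale.Agent.P073Z.Sv.FC
import Vale.Agent.P073Z.Sv.FOUNT
import Vale.Agent.P073Z.Sv.MOVEH
import Vale.Agent.P073Z.Sv.SWN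

/-!
# P073, smoothing for all exponents: all blocks together
-/

namespace Vale.Agent.P073Z.Sv

open Vale.Agent.P073Z.Sm

theorem thmTH : StmtTH := blockTH blockMINH blockCONE
theorem thmFDH : StmtFDH := blockFDH blockST blockMINH blockPERSP blockCONE
theorem thmFACEH : StmtFACEH := blockFACEH thmTH thmFDH blockCONE
theorem thmEDGEH : StmtEDGEH := blockEDGEH thmTH thmEMH blockCONE
theorem thmFOUNT : StmtFOUNT := blockFOUNT (blockFD0 blockFA blockFB blockFC)
theorem thmMOVEH : StmtMOVEH := blockMOVEH thmFOUNT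

/-- smoothing of everywhere conical homeomorphisms, for every exponent -/
theorem smoothingAll : StmtMAINH :=
  blockMAINH blockVX blockCONE thmFACEH thmEDGEH blockNICE thmMOVEH blockSWN

end Vale.Agent.P073Z.Sv
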