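import Vale.Agent.P073Z.Sv.Sk
import Vale.Agent.P073Z.Sm.EM0
import Vale.Agent.P073Z.Sm.E2
import Vale.Agent.P073Z.Sm.SHEAR
import Vale.Agent.P073Z.Sm.PERSP
import Vale.Agent.P073Z.Sm.HOMLIP

/-!
# P073, smoothing for all exponents: the edge model in coordinates, with homogeneity
-/

open Set Metric Topology Filter
open scoped ContDiff NNReal

noncomputable section

namespace Vale.Agent.P073Z.Sv

open Vale.Agent.P073Z.Sm Vale.Agent.P073Z.Sm.EM0

namespace EM0H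

variable {Y : Type} [NormedAddCommGroup Y] [NormedSpace ℝ Y]

theorem persp_smul (j : ℂ → Y) (z : ℂ) (r : ℝ) {t : ℝ} (ht : 0 < t) :
    persp j (t • z) (t * r) = t • persp j z r := by
  unfold persp
  by_cases hr : 0 < r
  · rw [if_pos hr, if_pos (mul_pos ht hr), smul_smul, smul_smul, mul_inv_rev, mul_assoc,
      inv_mul_cancel₀ ht.ne', mul_one]
  · rw [if_neg hr, if_neg fun h => hr ((mul_pos_iff_of_pos_left ht).1 h), smul_zero]

theorem sm_hom {G F : ℂ → Y} (hG : ∀ (z : ℂ) (t : ℝ), 0 ≤ t → G (t • z) = t • G z) {r : ℝ → ℝ}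
    {s s' t : ℝ} (ht : 0 < t) (h : r s' = t * r s) (z : ℂ) :
    sm G F r (s', t • z) = t • sm G F r (s, z) := by
  unfold sm
  simp only
  rw [h, persp_smul _ _ _ ht, hG z t ht.le, smul_add]

theorem hom_eq {m ms : ℂ → ℝ} {Γ Γs : ℂ → ℂ} {Cm L : ℝ≥0}
    (hm : ∀ (z : ℂ) (t : ℝ), 0 ≤ t → m (t • z) = t * m z)
    (hΓ : ∀ (z : ℂ) (t : ℝ), 0 ≤ t → Γ (t • z) = t • Γ z) (hm1 : ∀ w, 1 ≤ ‖w‖ → ms w = m w)
    (hs1 : ∀ w, 1 ≤ ‖w‖ → Γs w = Γ w) (hmle : ∀ z, |m z| ≤ Cm * ‖z‖)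
    (hb : ∀ w, ‖ms w - m w‖ ≤ L) {ρ : ℝ → ℝ} (hρ : LipschitzWith (1 + 4 * L + Cm)⁻¹ ρ)
    (hρm : ∀ (s : ℝ) (z : ℂ), |ρ (s + m z) - ρ s| ≤ ‖z‖) {s0 R : ℝ} (hR : HomFn ρ s0 R)
    {q : ℝ × ℂ} (hq : |q.1 - s0| < R / 2) {t : ℝ} (ht : t ∈ Ioc (0 : ℝ) 1) :
    (fun q : ℝ × ℂ =>
      (q.1 + sm m ms ρ q, sm Γ Γs (fun s => ρ s / 4) (q.1 + sm m ms ρ q, q.2)))
        ((s0, 0) + t • (q - (s0, 0))) =
      (s0, 0) + t • ((q.1 + sm m ms ρ q,
        sm Γ Γs (fun s => ρ s / 4) (q.1 + sm m ms ρ q, q.2)) - (s0, 0)) := by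
  obtain ⟨s, z⟩ := q
  have hm' : ∀ (z : ℂ) (t : ℝ), 0 ≤ t → m (t • z) = t • m z := fun z t ht => hm z t ht
  have habs := abs_nonneg (s - s0)
  simp only at hq
  have hqt : ((s0, 0) + t • ((s, z) - (s0, 0)) : ℝ × ℂ) = (s0 + t * (s - s0), t • z) := by
    ext <;> simp
  have h1 : ρ (s0 + t * (s - s0)) = t * ρ s :=
    hR s (by rw [mem_ball, Real.dist_eq]; linarith) t ht
  rw [hqt]
  by_cases hz : ρ s ≤ ‖z‖
  · have h2 : ρ (s0 + t * (s - s0)) ≤ ‖t • z‖ := by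
      rw [h1, norm_smul, Real.norm_eq_abs, abs_of_pos ht.1]
      exact mul_le_mul_of_nonneg_left hz ht.1.le
    have h3 := out_eq hm1 hs1 hρm (q := (s0 + t * (s - s0), t • z)) h2
    have h4 := out_eq hm1 hs1 hρm (q := (s, z)) hz
    beta_reduce
    rw [h3, h4]
    simp only
    rw [hm z t ht.1.le, hΓ z t ht.1.le]
    ext
    · simp only [Prod.fst_add, Prod.smul_fst, Prod.fst_sub, smul_eq_mul]
      ring
    · simp
  · have hz' : ‖z‖ < ρ s := not_le.1 hz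
    have h0 : ρ s0 = 0 := by
      have := hR s0 (mem_ball_self (by linarith)) (1 / 2) ⟨by norm_num, by norm_num⟩
      rw [sub_self, smul_zero, add_zero] at this
      linarith
    have hs : 0 ≤ ρ s := (norm_nonneg z).trans hz'.le
    have h2 : sm m ms ρ (s0 + t * (s - s0), t • z) = t * sm m ms ρ (s, z) :=
      sm_hom hm' ht.1 h1 z
    have h3 := sm_sub hb (r := ρ) (s, z) hs
    generalize sm m ms ρ (s, z) = a at h2 h3
    have h4 : |a| ≤ |s - s0| := by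
      have hden : (0 : ℝ) < 1 + 4 * L + Cm := by positivity
      have h := hρ.dist_le_mul s s0
      rw [Real.dist_eq, Real.dist_eq, h0, sub_zero, abs_of_nonneg hs] at h
      push_cast at h
      rw [inv_mul_eq_div, le_div_iff₀ hden] at h
      have h5 := abs_add_le (m z) (a - m z)
      rw [add_sub_cancel] at h5
      have h6 := hmle z
      have h7 := mul_le_mul_of_nonneg_left hz'.le Cm.2
      have h8 : 0 ≤ (L : ℝ) * ρ s := by positivity
      have h9 : |a - m z| ≤ L * ρ s := h3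
      have h10 : (Cm.1 : ℝ) = Cm := rfl
      rw [h10] at h7
      linarith
    have h5 : |s + a - s0| < R := by
      have := abs_add_le (s - s0) a
      rw [show s - s0 + a = s + a - s0 by ring] at this
      linarith
    have h6 : ρ (s0 + t * (s + a - s0)) = t * ρ (s + a) :=
      hR (s + a) (by rw [mem_ball, Real.dist_eq]; exact h5) t ht
    have h7 : s0 + t * (s - s0) + t * a = s0 + t * (s + a - s0) := by ring
    have h8 : sm Γ Γs (fun s => ρ s / 4) (s0 + t * (s + a - s0), t • z) =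
        t • sm Γ Γs (fun s => ρ s / 4) (s + a, z) :=
      sm_hom hΓ ht.1 (by rw [h6]; ring) z
    simp only
    rw [h2, h7, h8]
    ext <;> simp

end EM0H

open EM0H

theorem em0h_of (hE2 : StmtE2) (hS : StmtSHEAR) (hP : StmtPERSP) (hH : StmtHOMLIP) :
    StmtEM0H := by
  intro m Γ hm hms hΓ hΓb hΓd hΓ1
  have hm' : ∀ (z : ℂ) (t : ℝ), 0 ≤ t → m (t • z) = t • m z := fun z t ht => hm z t ht
  obtain ⟨Cm, hCm⟩ := hH ℂ ℝ m hm' hms
  obtain ⟨Cg, hCg⟩ := hH ℂ ℂ Γ hΓ fun z hz => (hΓd z hz).1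
  obtain ⟨Γs, hsb, hsd, hs1⟩ := hE2 Γ hΓ hΓb hΓd hΓ1
  obtain ⟨ms, hmd, hm0, hm1⟩ := exists_ms hms
  obtain ⟨L, hL, hLb⟩ := lip_diff ms m hmd hCm hm1
  obtain ⟨L', hL', hLb'⟩ := lip_diff Γs Γ (fun z => (hsd z).1) hCg hs1
  have hj0 : ∀ w, 1 ≤ ‖w‖ → ms w - m w = 0 := fun w hw => by rw [hm1 w hw, sub_self]
  have hj0' : ∀ w, 1 ≤ ‖w‖ → Γs w - Γ w = 0 := fun w hw => by rw [hs1 w hw, sub_self]
  have hmz : m 0 = 0 := by simpa using hm 0 0 le_rfl
  have hmle : ∀ z, |m z| ≤ Cm * ‖z‖ := fun z => by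
    have := hCm.dist_le_mul z 0
    rwa [hmz, dist_zero_right, dist_zero_right] at this
  refine ⟨(1 + 4 * L + Cm)⁻¹, max 1 (Cg + 3 * L') * (1 + (Cm + 3 * L)) + (L + L' * (1 + Cm + L)),
    by positivity, fun ρ hρ hρ0 hρs => ?_⟩
  have hρ1 : ∀ s s', |ρ s - ρ s'| ≤ |s - s'| := fun s s' => (small_lip hρ s s').1
  have hρ4 : ∀ s s', |ρ s / 4 - ρ s' / 4| ≤ |s - s'| := fun s s' => by
    have h1 := hρ1 s s'
    have h2 := abs_nonneg (ρ s - ρ s')
    rw [← sub_div, abs_div, abs_of_pos (by norm_num : (0 : ℝ) < 4)]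
    linarith
  have hρm : ∀ (s : ℝ) (z : ℂ), |ρ (s + m z) - ρ s| ≤ ‖z‖ := fun s z => by
    have h1 := (small_lip hρ (s + m z) s).2.2
    rw [add_sub_cancel_left] at h1
    have h2 : (1 + Cm) * |ρ (s + m z) - ρ s| ≤ (1 + Cm) * ‖z‖ := by
      have := hmle z
      have := norm_nonneg z
      linarith
    exact le_of_mul_le_mul_left h2 (by positivity)
  have hρa : ∀ s, 0 < ρ s → ContDiffAt ℝ ∞ ρ s := fun s hs =>
    hρs.contDiffAt ((isOpen_lt continuous_const hρ.continuous).mem_nhds hs)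
  have hμL : LipschitzWith (Cm + 3 * L) (sm m ms ρ) := lip_sum hP hCm hL hLb hj0 hρ1
  have hFL : LipschitzWith (Cg + 3 * L') (sm Γ Γs fun s => ρ s / 4) :=
    lip_sum hP hCg hL' hLb' hj0' (r := fun s => ρ s / 4) hρ4
  obtain ⟨hTb, hTd⟩ := hS (ℝ × ℂ) (sm m ms ρ) ((1 : ℝ), (0 : ℂ)) (1 / 2) (by norm_num)
    hμL.continuous (shear_ineq hP hL hLb hm1 fun s s' => (small_lip hρ s s').2.1)
  have hT : (fun x : ℝ × ℂ => x + sm m ms ρ x • ((1 : ℝ), (0 : ℂ))) =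
      fun x : ℝ × ℂ => (x.1 + sm m ms ρ x, x.2) := funext fun x => by ext <;> simp
  rw [hT] at hTb hTd
  have hDL : LipschitzWith (max 1 (Cg + 3 * L'))
      fun p : ℝ × ℂ => (p.1, sm Γ Γs (fun s => ρ s / 4) p) := LipschitzWith.prod_fst.prodMk hFL
  refine ⟨fun q => (q.1 + sm m ms ρ q, sm Γ Γs (fun s => ρ s / 4) (q.1 + sm m ms ρ q, q.2)),
    (bij_sm hΓ hΓb hsb hs1 fun s => ρ s / 4).comp hTb,
    (hDL.comp (lip_shear hμL)).weaken le_self_add, fun q hq => out_eq hm1 hs1 hρm hq,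
    fun q hq => ?_, fun q => ?_,
    fun s0 R hR q hq t ht => hom_eq hm hΓ hm1 hs1 hmle hLb hρ hρm hR hq ht⟩
  · refine LD.comp (G := fun p : ℝ × ℂ => (p.1, sm Γ Γs (fun s => ρ s / 4) p))
      (F := fun x : ℝ × ℂ => (x.1 + sm m ms ρ x, x.2))
      (ld_sm hΓ hΓd hsd hs1 (hρ.continuous.div_const 4)
        (fun s hs => (hρa s (by linarith)).div_const 4) ?_)
      (hTd q (smooth_scale hm' hmd (hρa _ hq) hq))
    by_cases hz : q.2 = 0
    · left
      have h1 : sm m ms ρ q = 0 := by rw [sm_in hm' hq, hz, smul_zero, hm0, smul_zero]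
      show 0 < ρ (q.1 + sm m ms ρ q) / 4
      rw [h1, add_zero]
      linarith
    · exact Or.inr hz
  · have hq0 := hρ0 q.1
    by_cases hq : ρ q.1 ≤ ‖q.2‖
    · beta_reduce
      rw [out_eq hm1 hs1 hρm hq, sub_self, norm_zero]
      positivity
    · refine (in_le hmle hLb hLb' hρ0 hρ1 (not_le.1 hq).le).trans ?_
      refine mul_le_mul_of_nonneg_right ?_ hq0
      rw [NNReal.coe_add]
      refine le_add_of_nonneg_of_le (NNReal.coe_nonneg _) (le_of_eq ?_)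
      push_cast
      rfl

/-- Block EM0H: the edge model in coordinates, with homogeneity. -/
theorem blockEM0H : StmtEM0H :=
  em0h_of (blockE2 blockSHEAR) blockSHEAR blockPERSP blockHOMLIP

end Vale.Agent.P073Z.Sv
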