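import Vale.Agent.P073Z.Sv.Sk
import Vale.Agent.P073Z.Sm.M
import Vale.Agent.P073Z.Sm.HOMLIP
import Vale.Agent.P073Z.Sm.INV

/-!
# P073, smoothing for all exponents: block FD0 (the fountain move in coordinates)
-/

open Set Metric MeasureTheory Topology Filter
open scoped ContDiff ENNReal NNReal RealInnerProductSpace

noncomputable section

namespace Vale.Agent.P073Z.Sv

open Vale.Agent.P073Z.Sm

namespace FD0

theorem anti_weaken {X Y : Type} [PseudoEMetricSpace X] [PseudoEMetricSpace Y] {f : X → Y}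
    {K K' : ℝ≥0} (h : AntilipschitzWith K f) (hK : K ≤ K') : AntilipschitzWith K' f :=
  fun x y => (h x y).trans (by gcongr)

theorem small (c d : ℝ) (hd : 0 < d) : ∀ᶠ θ in 𝓝[>] (0 : ℝ), c * θ ≤ d := by
  have h : Tendsto (fun θ : ℝ => c * θ) (𝓝 0) (𝓝 (c * 0)) :=
    (continuous_const.mul continuous_id).tendsto 0
  rw [mul_zero] at h
  exact (h.eventually (Iic_mem_nhds hd)).filter_mono nhdsWithin_le_nhds

/-! ### The shear and the fibre map -/

variable {M R : ℝ} {k : ℂ → ℂ} {α β : ℝ → ℝ}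

theorem shr_snd (p : ℝ × ℂ) : (shr M α p).2 = p.2 := rfl

theorem le_shr (hM : 0 ≤ M) (p : ℝ × ℂ) : p.1 ≤ (shr M α p).1 := by
  have h : α p.1 ≤ √(α p.1 ^ 2 + ‖p.2‖ ^ 2) :=
    Real.le_sqrt_of_sq_le (le_add_of_nonneg_right (sq_nonneg _))
  have := mul_nonneg hM (sub_nonneg.2 h)
  change p.1 ≤ p.1 + _
  linarith

theorem shr_le (hM : 0 ≤ M) (p : ℝ × ℂ) (h0 : 0 ≤ α p.1) : (shr M α p).1 ≤ p.1 + M * ‖p.2‖ := by
  have hn := norm_nonneg p.2
  have h : √(α p.1 ^ 2 + ‖p.2‖ ^ 2) ≤ α p.1 + ‖p.2‖ := by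
    rw [Real.sqrt_le_left (by positivity)]
    nlinarith [mul_nonneg h0 hn]
  have : M * (√(α p.1 ^ 2 + ‖p.2‖ ^ 2) - α p.1) ≤ M * ‖p.2‖ :=
    mul_le_mul_of_nonneg_left (by linarith) hM
  change p.1 + _ ≤ _
  linarith

theorem fnt_shr (h : Function.Injective (shr M α)) (p : ℝ × ℂ) :
    fnt M k α (shr M α p) = shr M α (fib k α p) := by
  unfold fnt
  rw [Function.leftInverse_invFun h p]

theorem shr_agree {p : ℝ × ℂ} (h : α p.1 = β p.1) : shr M α p = shr M β p := by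
  unfold shr
  rw [h]

theorem agree (ha : Function.Injective (shr M α)) (hb : Function.Injective (shr M β))
    {p : ℝ × ℂ} (h : α p.1 = β p.1) : fnt M k α (shr M α p) = fnt M k β (shr M α p) := by
  have h1 : fib k α p = fib k β p := by
    unfold fib
    rw [h]
  rw [fnt_shr ha, shr_agree (M := M) h, fnt_shr hb, ← h1]
  exact shr_agree h

/-- homogeneity around a point, for positive factors -/
def HomAt (c : ℝ × ℂ) (F : ℝ × ℂ → ℝ × ℂ) : Prop :=
  ∀ (q : ℝ × ℂ) (t : ℝ), 0 < t → F (c + t • q) = c + t • (F (c + q) - c)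

theorem HomAt.comp {c : ℝ × ℂ} {F G : ℝ × ℂ → ℝ × ℂ} (hF : HomAt c F) (hG : HomAt c G) :
    HomAt c fun q => F (G q) := by
  intro q t ht
  change F (G (c + t • q)) = c + t • (F (G (c + q)) - c)
  rw [hG q t ht, hF _ t ht, add_sub_cancel]

theorem HomAt.inv {c : ℝ × ℂ} {F : ℝ × ℂ → ℝ × ℂ} (hF : HomAt c F) (hb : Function.Bijective F) :
    HomAt c (Function.invFun F) := by
  intro q t ht
  apply hb.1
  rw [Function.rightInverse_invFun hb.2, hF _ t ht, add_sub_cancel,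
    Function.rightInverse_invFun hb.2, add_sub_cancel_left]

theorem homAt_shr {c : ℝ} (h : ∀ s t : ℝ, 0 < t → α (c + t * s) = t * α (c + s)) :
    HomAt (c, 0) (shr M α) := by
  intro q t ht
  have h1 : √((t * α (c + q.1)) ^ 2 + (t * ‖q.2‖) ^ 2) = t * √(α (c + q.1) ^ 2 + ‖q.2‖ ^ 2) := by
    rw [mul_pow, mul_pow, ← mul_add, Real.sqrt_mul (sq_nonneg t), Real.sqrt_sq ht.le]
  refine Prod.ext ?_ ?_
  · simp only [shr, Prod.fst_add, Prod.smul_fst, Prod.snd_add, Prod.smul_snd, smul_eq_mul,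
      zero_add, Prod.fst_sub, h _ t ht, norm_smul, Real.norm_of_nonneg ht.le, h1]
    ring
  · simp [shr]

theorem homAt_fib {c : ℝ} (h : ∀ s t : ℝ, 0 < t → α (c + t * s) = t * α (c + s)) :
    HomAt (c, 0) (fib k α) := by
  intro q t ht
  refine Prod.ext ?_ ?_
  · simp [fib]
  · simp only [fib, Prod.fst_add, Prod.smul_fst, Prod.snd_add, Prod.smul_snd, smul_eq_mul,
      zero_add, Prod.snd_sub, h _ t ht, sub_zero, smul_add, persp]
    by_cases h0 : 0 < α (c + q.1)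
    · have h2 : (t * α (c + q.1))⁻¹ • t • q.2 = (α (c + q.1))⁻¹ • q.2 := by
        rw [smul_smul]
        congr 1
        field_simp
      rw [if_pos h0, if_pos (mul_pos ht h0), h2, mul_smul]
    · have h2 : ¬ 0 < t * α (c + q.1) := fun h3 => h0 ((mul_pos_iff_of_pos_left ht).1 h3)
      rw [if_neg h0, if_neg h2, smul_zero]

theorem homAt_fnt {c : ℝ} (h : ∀ s t : ℝ, 0 < t → α (c + t * s) = t * α (c + s))
    (hb : Function.Bijective (shr M α)) : HomAt (c, 0) (fnt M k α) :=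
  (homAt_shr h).comp ((homAt_fib h).comp ((homAt_shr h).inv hb))

/-! ### Widths -/

theorem adm_max {a : ℝ → ℝ} (hs : ContDiff ℝ ∞ a)
    (hm : ∀ s s', s ≤ s' → a s' ≤ a s ∧ a s - a s' ≤ s' - s) : Adm fun s => max (a s) 0 := by
  have hl : LipschitzWith 1 a := by
    refine LipschitzWith.of_dist_le_mul fun x y => ?_
    rw [Real.dist_eq, Real.dist_eq, NNReal.coe_one, one_mul]
    rcases le_total x y with h | h
    · obtain ⟨h1, h2⟩ := hm x y h
      rw [abs_of_nonneg (by linarith), abs_of_nonpos (by linarith)]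
      linarith
    · obtain ⟨h1, h2⟩ := hm y x h
      rw [abs_of_nonpos (by linarith), abs_of_nonneg (by linarith)]
      linarith
  refine ⟨fun s => le_max_right _ _, fun s s' h => max_le_max (hm s s' h).1 le_rfl,
    hl.max_const 0, fun s h => ?_⟩
  have h1 : 0 < a s := by
    by_contra h2
    rw [max_eq_right (not_lt.1 h2)] at h
    exact lt_irrefl _ h
  refine hs.contDiffAt.congr_of_eventuallyEq ?_
  filter_upwards [hs.continuous.continuousAt.eventually (lt_mem_nhds h1)] with x hx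
  exact max_eq_left hx.le

theorem adm_zero : Adm fun s => max (-s) 0 :=
  adm_max contDiff_neg fun s s' h => ⟨by linarith, by linarith⟩

theorem adm_one {θ : ℝ} (h0 : 0 < θ) (h1 : θ ≤ 1 / 2) : Adm fun s => max (θ * (1 - s)) 0 :=
  adm_max (contDiff_const.mul (contDiff_const.sub contDiff_id)) fun s s' h =>
    ⟨by nlinarith, by nlinarith⟩

theorem one_pos_iff {θ : ℝ} (h0 : 0 < θ) (s : ℝ) : 0 < max (θ * (1 - s)) 0 ↔ s < 1 := by
  rw [lt_max_iff, or_iff_left (lt_irrefl _), mul_pos_iff_of_pos_left h0, sub_pos]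

theorem exists_width {θ : ℝ} (h0 : 0 < θ) (h1 : θ ≤ 1 / 2) :
    ∃ α : ℝ → ℝ, Adm α ∧ (∀ s, 0 < α s ↔ s < 1) ∧ (∀ s, s ≤ -(4 * θ) → α s = max (-s) 0) ∧
      (∀ s, 0 ≤ s → α s = max (θ * (1 - s)) 0) ∧ ∀ s, -(4 * θ) ≤ s → α s ≤ 4 * θ := by
  obtain ⟨Ms, hM⟩ := blockM
  have hz : ∀ t, t ≤ -θ → Ms t θ = 0 := fun t ht => by
    rw [hM.out t θ h0.le (by rw [abs_of_nonpos (by linarith)]; linarith),
      max_eq_right (by linarith)]
  have hn : ∀ t, 0 ≤ Ms t θ := fun t => by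
    have := (hM.mono (min t (-θ)) t θ h0.le (min_le_left _ _)).1
    rwa [hz _ (min_le_right _ _)] at this
  have hs : ContDiff ℝ ∞ fun s => θ * (1 - s) + Ms (-s - θ * (1 - s)) θ := by
    refine (contDiff_const.mul (contDiff_const.sub contDiff_id)).add ?_
    have h2 : ContDiff ℝ ∞ fun s : ℝ => ((-s - θ * (1 - s), θ) : ℝ × ℝ) := by fun_prop
    exact contDiffOn_univ.1 (hM.smooth.comp h2.contDiffOn fun s _ => ⟨mem_univ _, h0⟩)
  have ha : Adm fun s => max (θ * (1 - s) + Ms (-s - θ * (1 - s)) θ) 0 := by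
    refine adm_max hs fun s s' h => ?_
    obtain ⟨h2, h3⟩ := hM.mono (-s' - θ * (1 - s')) (-s - θ * (1 - s)) θ h0.le (by nlinarith)
    exact ⟨by nlinarith, by nlinarith⟩
  have hneg : ∀ s, s ≤ -(4 * θ) → max (θ * (1 - s) + Ms (-s - θ * (1 - s)) θ) 0 = max (-s) 0 := by
    intro s h
    have h2 : θ ≤ -s - θ * (1 - s) := by nlinarith
    rw [hM.out _ θ h0.le (h2.trans (le_abs_self _)), max_eq_left (h0.le.trans h2)]
    congr 1
    ring
  have hpos : ∀ s, 0 ≤ s →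
      max (θ * (1 - s) + Ms (-s - θ * (1 - s)) θ) 0 = max (θ * (1 - s)) 0 := by
    intro s h
    rw [hz _ (by nlinarith), add_zero]
  refine ⟨_, ha, fun s => ?_, hneg, hpos, fun s h => ?_⟩
  · rcases le_total 0 s with h | h
    · rw [hpos s h, one_pos_iff h0]
    · refine iff_of_true (lt_max_of_lt_left ?_) (by linarith)
      have := hn (-s - θ * (1 - s))
      nlinarith
  · refine (ha.anti h).trans ?_
    rw [hneg _ le_rfl, neg_neg]
    exact max_le le_rfl (by linarith)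

/-- the conclusion of block FA for one width -/
structure Fa (M R : ℝ) (k : ℂ → ℂ) (C : ℝ≥0) (α : ℝ → ℝ) : Prop where
  sb : Function.Bijective (shr M α)
  fb : Function.Bijective (fnt M k α)
  lip : LipschitzWith C (fnt M k α)
  alip : AntilipschitzWith C (fnt M k α)
  fix : ∀ q : ℝ × ℂ, R * α q.1 ≤ ‖q.2‖ → fnt M k α (shr M α q) = shr M α q
  ld : ∀ q : ℝ × ℂ, 0 < α q.1 → LD (fnt M k α) (shr M α q)
  loc : ∀ q : ℝ × ℂ, (R * α q.1 < ‖q.2‖ ∨ ∀ᶠ s in 𝓝 q.1, α s = 0) →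
    ∀ᶠ x in 𝓝 (shr M α q), fnt M k α x = x

variable {C : ℝ≥0}

theorem shr_one (h : α 1 = 0) : shr M α (1, 0) = (1, 0) := by
  simp [shr, h]

theorem Fa.ld_off (h : Fa M R k C α) (ha : Adm α) (hp : ∀ s, 0 < α s ↔ s < 1) (x : ℝ × ℂ)
    (hx : x ≠ (1, 0)) : LD (fnt M k α) x := by
  obtain ⟨p, rfl⟩ := h.sb.2 x
  have hz : ∀ s, 1 ≤ s → α s = 0 := fun s hs =>
    le_antisymm (not_lt.1 fun h1 => absurd ((hp s).1 h1) (not_lt.2 hs)) (ha.nonneg s)
  rcases lt_trichotomy p.1 1 with h1 | h1 | h1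
  · exact h.ld p ((hp _).2 h1)
  · refine (LD.id _).congr (h.loc p (Or.inl ?_))
    rw [hz _ h1.ge, mul_zero, norm_pos_iff]
    intro h2
    apply hx
    have : p = (1, 0) := Prod.ext h1 h2
    rw [this, shr_one (hz 1 le_rfl)]
  · refine (LD.id _).congr (h.loc p (Or.inr ?_))
    filter_upwards [lt_mem_nhds h1] with s hs
    exact hz s hs.le

/-- where two fountain maps differ -/
theorem differ {θ : ℝ} (hM : 0 ≤ M) (hR : 0 < R) (h0 : 0 < θ) (hθ : 4 * M * R * θ ≤ 1)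
    (h : Fa M R k C α) (h' : Fa M R k C fun s => max (-s) 0) (ha : Adm α)
    (hp : ∀ s, 0 < α s ↔ s < 1) (hneg : ∀ s, s ≤ -(4 * θ) → α s = max (-s) 0)
    (hpos : ∀ s, 0 ≤ s → α s = max (θ * (1 - s)) 0) (hle : ∀ s, -(4 * θ) ≤ s → α s ≤ 4 * θ)
    (x : ℝ × ℂ) (hx : fnt M k α x ≠ fnt M k (fun s => max (-s) 0) x) :
    ‖x.2‖ ≤ 4 * R * θ ∧ -(4 * θ) ≤ x.1 ∧ x.1 ≤ 1 := by
  obtain ⟨p, hp1⟩ := h.sb.2 x
  obtain ⟨p', hp2⟩ := h'.sb.2 x
  have e1 : p.2 = x.2 := by rw [← hp1]; rfl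
  have e2 : p'.2 = x.2 := by rw [← hp2]; rfl
  have a1 : -(4 * θ) ≤ p.1 := by
    by_contra h1
    apply hx
    rw [← hp1]
    exact agree h.sb.1 h'.sb.1 (hneg _ (not_le.1 h1).le)
  have a2 : -(4 * θ) ≤ p'.1 := by
    by_contra h1
    apply hx
    rw [← hp2]
    exact (agree h'.sb.1 h.sb.1 (hneg _ (not_le.1 h1).le).symm).symm
  have b1 := le_shr (α := α) hM p
  have b2 := shr_le hM p (ha.nonneg _)
  have b3 := shr_le (α := fun s => max (-s) 0) hM p' (le_max_right _ _)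
  rw [hp1] at b1 b2
  rw [hp2] at b3
  rw [e1] at b2
  rw [e2] at b3
  have hor : ‖x.2‖ < R * α p.1 ∨ ‖x.2‖ < R * max (-p'.1) 0 := by
    by_contra h1
    rw [not_or, not_lt, not_lt] at h1
    apply hx
    have c1 := h.fix p (by rw [e1]; exact h1.1)
    have c2 := h'.fix p' (by rw [e2]; exact h1.2)
    rw [hp1] at c1
    rw [hp2] at c2
    rw [c1, c2]
  have hn := norm_nonneg x.2
  have hz : ‖x.2‖ ≤ 4 * R * θ := by
    rcases hor with h1 | h1
    · have := mul_le_mul_of_nonneg_left (hle _ a1) hR.le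
      linarith
    · have : max (-p'.1) 0 ≤ 4 * θ := max_le (by linarith) (by linarith)
      have := mul_le_mul_of_nonneg_left this hR.le
      linarith
  have hz' : M * ‖x.2‖ ≤ 1 := by
    have := mul_le_mul_of_nonneg_left hz hM
    linarith
  refine ⟨hz, by linarith, ?_⟩
  rcases hor with h1 | h1
  · rcases le_total p.1 0 with h2 | h2
    · linarith
    · have h3 : p.1 < 1 := (hp _).1 ((mul_pos_iff_of_pos_left hR).1 (hn.trans_lt h1))
      rw [hpos _ h2, max_eq_left (mul_nonneg h0.le (by linarith))] at h1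
      have h4 := mul_le_mul_of_nonneg_left h1.le hM
      have h5 : M * R * θ * (1 - p.1) ≤ 1 * (1 - p.1) :=
        mul_le_mul_of_nonneg_right (by nlinarith [mul_nonneg (mul_nonneg hM hR.le) h0.le])
          (by linarith)
      nlinarith
  · have h3 : 0 < max (-p'.1) 0 := (mul_pos_iff_of_pos_left hR).1 (hn.trans_lt h1)
    rw [lt_max_iff, or_iff_left (lt_irrefl _)] at h3
    linarith

/-- where the final fountain map moves points -/
theorem moved {θ : ℝ} (hM : 0 ≤ M) (hR : 0 < R) (h0 : 0 < θ) (hθ : 4 * M * R * θ ≤ 1)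
    (h : Fa M R k C fun s => max (θ * (1 - s)) 0) (x : ℝ × ℂ)
    (hx : fnt M k (fun s => max (θ * (1 - s)) 0) x ≠ x) : ‖x.2‖ ≤ 2 * R * θ * ‖x - (1, 0)‖ := by
  obtain ⟨p, hp1⟩ := h.sb.2 x
  have e1 : p.2 = x.2 := by rw [← hp1]; rfl
  have b2 := shr_le (α := fun s => max (θ * (1 - s)) 0) hM p (le_max_right _ _)
  rw [hp1, e1] at b2
  have h1 : ‖x.2‖ < R * max (θ * (1 - p.1)) 0 := by
    by_contra h1
    apply hx
    have c1 := h.fix p (by rw [e1]; exact not_lt.1 h1)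
    rwa [hp1] at c1
  have hn := norm_nonneg x.2
  have h3 : p.1 < 1 := (one_pos_iff h0 _).1 ((mul_pos_iff_of_pos_left hR).1 (hn.trans_lt h1))
  rw [max_eq_left (mul_nonneg h0.le (by linarith))] at h1
  have h4 := mul_le_mul_of_nonneg_left h1.le hM
  have h5 : M * R * θ * (1 - p.1) ≤ 1 / 2 * (1 - p.1) :=
    mul_le_mul_of_nonneg_right (by nlinarith [mul_nonneg (mul_nonneg hM hR.le) h0.le])
      (by linarith)
  have h6 : 1 - x.1 ≤ ‖x - (1, 0)‖ := by
    refine le_trans ?_ (norm_fst_le _)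
    rw [Prod.fst_sub, Real.norm_eq_abs, abs_sub_comm]
    exact le_abs_self _
  have h7 : 1 - p.1 ≤ 2 * ‖x - (1, 0)‖ := by nlinarith
  have h8 := mul_le_mul_of_nonneg_left h7 (mul_nonneg hR.le h0.le)
  nlinarith

/-- a cone around the positive axis on which `l = 1` -/
theorem exists_cone {l : ℝ × ℂ → ℝ} (hh : ∀ (q : ℝ × ℂ) (t : ℝ), 0 < t → l (t • q) = l q)
    (h1 : ∀ᶠ q in 𝓝 ((1 : ℝ), (0 : ℂ)), l q = 1) :
    ∃ a : ℝ, 0 < a ∧ ∀ q : ℝ × ℂ, 1 ≤ q.1 → ‖q.2‖ ≤ a → l q = 1 := by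
  obtain ⟨a, ha, hb⟩ := Metric.eventually_nhds_iff.1 h1
  refine ⟨a / 2, by positivity, fun q h2 h3 => ?_⟩
  have h4 : 0 < q.1 := by linarith
  rw [← hh q q.1⁻¹ (inv_pos.2 h4)]
  apply hb
  rw [Prod.dist_eq, max_lt_iff]
  constructor
  · simp [h4.ne', ha]
  · rw [Prod.smul_snd, dist_zero_right, norm_smul, Real.norm_of_nonneg (inv_pos.2 h4).le]
    have : q.1⁻¹ * ‖q.2‖ ≤ 1 * ‖q.2‖ :=
      mul_le_mul_of_nonneg_right (inv_le_one_of_one_le₀ h2) (norm_nonneg _)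
    linarith

/-- Block FD0 without the bound on the image of the origin. -/
theorem core (hFA : StmtFA) (hFB : StmtFB) (hFC : StmtFC) (T : ℝ × ℂ → ℝ × ℂ)
    (hh : ∀ (q : ℝ × ℂ) (t : ℝ), 0 ≤ t → T (t • q) = t • T q) (hb : Function.Bijective T)
    (hL : ∀ q, q ≠ 0 → LD T q) (hid : ∀ᶠ q in 𝓝 ((1 : ℝ), (0 : ℂ)), T q = q) :
    ∃ C : ℝ≥0, ∀ ε : ℝ, 0 < ε → ∃ η Tw : ℝ × ℂ → ℝ × ℂ, Function.Bijective η ∧
      LipschitzWith C η ∧ AntilipschitzWith C η ∧
      (∀ q : ℝ × ℂ, η q ≠ q → ‖q.2‖ ≤ ε ∧ -ε ≤ q.1 ∧ q.1 ≤ 1) ∧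
      (∀ q, q ≠ (1, 0) → LD (fun x => T (η x)) q) ∧
      (∀ (q : ℝ × ℂ) (t : ℝ), 0 ≤ t →
        Tw ((1, 0) + t • q) = (1, 0) + t • (Tw ((1, 0) + q) - (1, 0))) ∧
      Function.Bijective Tw ∧ (∀ q, q ≠ (1, 0) → LD Tw q) ∧
      (∀ q : ℝ × ℂ, Tw q ≠ q → ‖q.2‖ ≤ ε * ‖q - (1, 0)‖) ∧ η =ᶠ[𝓝 (1, 0)] Tw := by
  obtain ⟨M, R, k, l, hM, hR, hkb, hkL, hkR, hl0, hlh, hls, hl1, hT⟩ := hFB T hh hb hL hid
  obtain ⟨CA, hA⟩ := hFA M R k hM hR hkb hkL hkR
  have hA' : ∀ α, Adm α → Fa M R k CA α := fun α ha => by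
    obtain ⟨h1, h2, h3, h4, h5, h6, h7⟩ := hA α ha
    exact ⟨h1, h2, h3, h4, h5, h6, h7⟩
  obtain ⟨CB, hB⟩ := hFC l hl0 hlh hls
  obtain ⟨CT, hCT⟩ := blockHOMLIP _ _ T hh fun q hq => (hL q hq).1
  have hl : Function.LeftInverse (Function.invFun T) T := Function.leftInverse_invFun hb.1
  have hr : Function.RightInverse (Function.invFun T) T := Function.rightInverse_invFun hb.2
  generalize Function.invFun T = S at hl hr
  have hT0 : T 0 = 0 := by simpa using hh 0 0 le_rfl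
  obtain ⟨CS, hCS⟩ := blockHOMLIP _ _ S
    (fun q t ht => hb.1 (by rw [hr, hh _ t ht, hr])) fun q hq => by
      have h1 : S q ≠ 0 := fun h2 => hq (by rw [← hr q, h2, hT0])
      have := INV.ld_left_inverse (G := S) (hL _ h1) (Eventually.of_forall hl)
      rw [hr] at this
      exact this.1
  have hSa : AntilipschitzWith CT S := hCT.to_rightInverse hr
  have hSb : Function.Bijective S := ⟨hr.injective, hl.surjective⟩
  obtain ⟨a, ha0, ha⟩ := exists_cone hlh hl1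
  refine ⟨max (CS * (CA * CB)) (CB * CA * CT), fun ε hε => ?_⟩
  obtain ⟨θ, ⟨⟨⟨⟨⟨t1, t2⟩, t3⟩, t4⟩, t5⟩, t6⟩, h0⟩ :=
    (((((((small 1 (1 / 2) (by norm_num)).and (small (4 * M * R) 1 one_pos)).and
      (small (CB * (4 * R)) ε hε)).and (small (CB * (4 * R)) a ha0)).and
      (small (CB * 4) ε hε)).and (small (2 * R) ε hε)).and
      (self_mem_nhdsWithin : Ioi (0 : ℝ) ∈ 𝓝[>] (0 : ℝ))).exists
  rw [one_mul] at t1
  replace h0 : 0 < θ := h0
  obtain ⟨α, hα, hp, hneg, hpos, hle⟩ := exists_width h0 t1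
  have F := hA' α hα
  have F0 := hA' _ adm_zero
  have F1 := hA' _ (adm_one h0 t1)
  obtain ⟨B, hBb, hBL, hBl, hBa, hB0, hBo⟩ := hB (min ε (1 / 2)) (lt_min hε (by norm_num))
  have hn1 : ‖((1 : ℝ), (0 : ℂ))‖ = 1 := by simp [Prod.norm_def]
  have hB1 : B (1, 0) = (1, 0) := by
    rw [hBo _ (by rw [hn1]; exact (min_le_right _ _).trans (by norm_num)), hl1.self_of_nhds,
      one_smul]
  have hw1 : fnt M k (fun s => max (θ * (1 - s)) 0) (1, 0) = (1, 0) := by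
    have h1 := F1.fix (1, 0) (by simp)
    rwa [shr_one (by simp)] at h1
  refine ⟨fun q => S (fnt M k α (B q)), fnt M k fun s => max (θ * (1 - s)) 0,
    hSb.comp (F.fb.comp hBb), (hCS.comp (F.lip.comp hBl)).weaken (le_max_left _ _),
    anti_weaken (hSa.comp (F.alip.comp hBa)) (le_max_right _ _), fun q hq => ?_, fun q hq => ?_,
    fun q t ht => ?_, F1.fb, F1.ld_off (adm_one h0 t1) (one_pos_iff h0), fun q hq => ?_, ?_⟩
  · by_cases hρ : ‖q‖ < min ε (1 / 2)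
    · obtain ⟨h1, h2⟩ := lt_min_iff.1 hρ
      have h3 := abs_le.1 ((Real.norm_eq_abs q.1).ge.trans (norm_fst_le q))
      exact ⟨(norm_snd_le q).trans h1.le, by linarith [h3.1], by linarith [h3.2]⟩
    rw [not_lt] at hρ
    have hq0 : 0 < ‖q‖ := (lt_min hε (by norm_num)).trans_le hρ
    have hBq := hBo q hρ
    have hd := differ hM hR h0 t2 F F0 hα hp hneg hpos hle (l q • q) fun h1 => hq (by
      change S (fnt M k α (B q)) = q
      rw [hBq, h1, ← hT, hl])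
    obtain ⟨d1, d2, d3⟩ := hd
    have hlq := hl0 q
    have hC : 1 ≤ (CB : ℝ) * l q := by
      have h1 := hBa.le_mul_dist q 0
      rw [hB0, hBq, dist_zero_right, dist_zero_right, norm_smul, Real.norm_of_nonneg hlq.le,
        ← mul_assoc] at h1
      exact le_of_mul_le_mul_right (by linarith) hq0
    rw [Prod.smul_snd, norm_smul, Real.norm_of_nonneg hlq.le] at d1
    rw [Prod.smul_fst, smul_eq_mul] at d2 d3
    have hz : ‖q.2‖ ≤ CB * (4 * R) * θ := by
      have h1 := mul_le_mul_of_nonneg_right hC (norm_nonneg q.2)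
      have h2 := mul_le_mul_of_nonneg_left d1 CB.coe_nonneg
      nlinarith
    refine ⟨hz.trans t3, ?_, ?_⟩
    · rcases le_total 0 q.1 with h3 | h3
      · linarith
      · have h1 := mul_le_mul_of_nonneg_right hC (neg_nonneg.2 h3)
        have h2 := mul_le_mul_of_nonneg_left d2 CB.coe_nonneg
        nlinarith
    · by_contra h3
      rw [ha q (not_le.1 h3).le (hz.trans t4), one_mul] at d3
      exact h3 d3
  · have h1 : (fun x => T (S (fnt M k α (B x)))) = fun x => fnt M k α (B x) :=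
      funext fun x => hr _
    change LD (fun x => T (S (fnt M k α (B x)))) q
    rw [h1]
    exact (F.ld_off hα hp _ fun h2 => hq (hBb.1 (h2.trans hB1.symm))).comp (hBL q)
  · rcases ht.eq_or_lt with rfl | ht
    · rw [zero_smul, zero_smul, add_zero, hw1]
    · refine homAt_fnt (fun s t ht => ?_) F1.sb q t ht
      rw [mul_max_of_nonneg _ _ ht.le, mul_zero]
      congr 1
      ring
  · exact (moved hM hR h0 t2 F1 q hq).trans (mul_le_mul_of_nonneg_right t6 (norm_nonneg _))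
  · have c1 : ∀ᶠ q in 𝓝 ((1 : ℝ), (0 : ℂ)), 1 / 2 < ‖q‖ :=
      continuous_norm.continuousAt.eventually (lt_mem_nhds (hn1.symm ▸ by norm_num : 1 / 2 < ‖((1 : ℝ), (0 : ℂ))‖))
    have c2 : ∀ᶠ q in 𝓝 ((1 : ℝ), (0 : ℂ)), 0 < q.1 - M * ‖q.2‖ := by
      have : Continuous fun q : ℝ × ℂ => q.1 - M * ‖q.2‖ := by fun_prop
      exact this.continuousAt.eventually (lt_mem_nhds (by simp))
    have c3 : Tendsto (fnt M k fun s => max (θ * (1 - s)) 0) (𝓝 (1, 0)) (𝓝 (1, 0)) := by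
      have := F1.lip.continuous.tendsto (1, 0)
      rwa [hw1] at this
    filter_upwards [c1, c2, hl1, c3.eventually hid] with q h1 h2 h3 h4
    rw [hBo q ((min_le_right _ _).trans h1.le), h3, one_smul]
    obtain ⟨p, rfl⟩ := F.sb.2 q
    have h5 := shr_le hM p (hα.nonneg _)
    rw [shr_snd] at h2
    rw [agree F.sb.1 F1.sb.1 (hpos _ (by linarith))]
    exact (congrArg S h4).symm.trans (hl _)

end FD0

open FD0 in
/-- Block FD0. -/
theorem blockFD0 (hFA : StmtFA) (hFB : StmtFB) (hFC : StmtFC) : StmtFD0 := by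
  intro T hh hb hL hid
  obtain ⟨C, hC⟩ := core hFA hFB hFC T hh hb hL hid
  refine ⟨C, fun ε hε => ?_⟩
  have hC0 := C.coe_nonneg
  have hd : 0 < ε / (2 * (C + 1)) := by positivity
  have hle : ε / (2 * (C + 1)) ≤ ε := div_le_self hε.le (by linarith)
  have he : 2 * (C + 1) * (ε / (2 * (C + 1))) = ε := by field_simp
  generalize ε / (2 * (C + 1)) = d at hd hle he
  obtain ⟨η, Tw, h1, h2, h3, h4, h5, h6, h7, h8, h9, h10⟩ := hC d hd
  refine ⟨η, Tw, h1, h2, h3, fun q hq => ?_, ?_, h5, h6, h7, h8, fun q hq => ?_, h10⟩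
  · obtain ⟨a, b, c⟩ := h4 q hq
    exact ⟨a.trans hle, by linarith, c⟩
  · have hn : ‖((2 * d : ℝ) : ℂ)‖ = 2 * d := by
      rw [Complex.norm_real, Real.norm_of_nonneg (by linarith)]
    have hn' : ‖(((0 : ℝ), ((2 * d : ℝ) : ℂ)) : ℝ × ℂ)‖ = 2 * d := by
      rw [Prod.norm_def, hn, norm_zero, max_eq_right (by linarith)]
    have hx : η (0, ((2 * d : ℝ) : ℂ)) = (0, ((2 * d : ℝ) : ℂ)) := by
      by_contra h
      have := (h4 _ h).1
      rw [hn] at this
      linarith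
    have h11 := h2.dist_le_mul 0 (0, ((2 * d : ℝ) : ℂ))
    rw [hx, dist_zero_left, hn', dist_eq_norm] at h11
    have h12 := norm_le_norm_add_norm_sub' (η 0) (0, ((2 * d : ℝ) : ℂ))
    rw [hn'] at h12
    nlinarith
  · exact (h9 q hq).trans (mul_le_mul_of_nonneg_right hle (norm_nonneg _))

end Vale.Agent.P073Z.Sv
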