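import Vale.Agent.P073Z.Sv.Sk
import Vale.Agent.P073Z.Sm.All0

/-!
# P073, smoothing for all exponents: assembly
-/

open Set Metric MeasureTheory Topology Filter
open scoped ContDiff ENNReal NNReal RealInnerProductSpace

noncomputable section

namespace Vale.Agent.P073Z.Sv

open Vale.Agent.P073Z.Sm Vale.Agent.P073Z.Sm.Main

namespace Main

theorem coneMap_mono {g : E → E} {v : E} {r r' : ℝ} (h : ConeMap g v r) (hr : r' ≤ r) :
    ConeMap g v r' := fun y hy => h y (ball_subset_ball hr hy)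

theorem coneSet_mono {A : Set E} {v : E} {r r' : ℝ} (h : ConeSet A v r) (hr : r' ≤ r) :
    ConeSet A v r' := fun y hy => h y (ball_subset_ball hr hy)

/-- a gauge which is the distance to the vertex near each vertex -/
theorem gaugeH (hVX : StmtVX) {k : E → E} {Ω Λ V : Set E} {δ : ℝ} (r0 : E → ℝ) (hΩ : IsOpen Ω)
    (hbΩ : Bornology.IsBounded Ω) (hΛ : IsOpen Λ) (hbΛ : Bornology.IsBounded Λ)
    (hk : Homeo k Ω Λ) (hδ : 0 < δ) (hV : LocFin V Ω) (hr0 : ∀ v ∈ V, 0 < r0 v) :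
    ∃ γ r : E → ℝ, LipschitzWith 1 γ ∧ (∀ x ∈ Ω \ V, 0 < γ x ∧ γ x ≤ δ ∧
      γ x ≤ infDist x (Ω \ V)ᶜ ∧ γ x ≤ infDist (k x) Λᶜ / 2) ∧ Vx (Ω \ V) V r ∧
      (∀ v ∈ V, r v ≤ r0 v) ∧ ∀ v ∈ V, ∀ y ∈ ball v (r v), γ y = ‖y - v‖ := by
  obtain ⟨γ1, hl, h1⟩ := gauge blockMIN hΩ hbΩ hΛ hbΛ hk.cont hk.bij.mapsTo hδ
  obtain ⟨r, hVx, hr, hd⟩ := hVX Ω V (fun v => min (r0 v) (γ1 v / 2)) hΩ hbΩ hV
    (fun v hv => lt_min (hr0 v hv) (half_pos (h1 v (hV.1 hv)).1))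
  have hU : IsOpen (Ω \ V) := (blockLF V Ω hΩ hV).2 V subset_rfl
  refine ⟨fun x => min (infDist x (Ω \ V)ᶜ) (γ1 x), r, ?_, fun x hx => ⟨?_, ?_, ?_, ?_⟩, hVx,
    fun v hv => (hr v hv).trans (min_le_left _ _), fun v hv y hy => ?_⟩
  · simpa using (lipschitz_infDist_pt (Ω \ V)ᶜ).min hl
  · exact lt_min (infDist_compl_pos hU (hbΩ.subset sdiff_subset) hx) (h1 x hx.1).1
  · exact (min_le_right _ _).trans (h1 x hx.1).2.1
  · exact min_le_left _ _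
  · exact (min_le_right _ _).trans (h1 x hx.1).2.2.2
  · show min (infDist y (Ω \ V)ᶜ) (γ1 y) = ‖y - v‖
    rw [hd v hv y hy]
    refine min_eq_left ?_
    have h2 := hl.dist_le_mul v y
    have h3 : r v ≤ γ1 v / 2 := (hr v hv).trans (min_le_right _ _)
    rw [mem_ball, dist_eq_norm] at hy
    rw [Real.dist_eq, dist_comm, dist_eq_norm] at h2
    have h4 := (le_abs_self _).trans h2
    simp only [NNReal.coe_one, one_mul] at h4
    linarith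

theorem nice_germ (h h' : E → E) (x : E) (he : h' =ᶠ[𝓝 x] h) (hn : Nice h x) : Nice h' x := by
  obtain ⟨u, hu, D, T, h1, h2, h3, h4⟩ := hn
  exact ⟨u, hu, D, T, h1, h2, h3, he.trans h4⟩

end Main

open Main in
theorem blockMAINH (hVX : StmtVX) (hC : StmtCONE) (hFACE : StmtFACEH) (hEDGE : StmtEDGEH)
    (hN : StmtNICE) (hMV : StmtMOVEH) (hSW : StmtSWN) : StmtMAINH := by
  intro p g Ω Λ ε hp1 hΩ hΛ hbΩ hbΛ hg hcone hE hε
  have hD := blockDIST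
  have hTOP := blockTOP
  set e : ℝ≥0∞ := min ε 1 / 3 with he
  have he0 : 0 < e := ENNReal.div_pos (lt_min hε one_pos).ne' (by norm_num)
  have het : e < ⊤ := ENNReal.div_lt_top (ne_top_of_le_ne_top ENNReal.one_ne_top (min_le_right _ _))
    (by norm_num)
  have he3 : e + (e + e) ≤ ε := by
    have : e + (e + e) = min ε 1 := by
      have h3 : e + (e + e) = 3 * e := by ring
      rw [h3, he, ENNReal.mul_div_cancel (by norm_num) (by norm_num)]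
    rw [this]; exact min_le_left _ _
  set V : Set E := Sk g Ω 0 with hV0
  have hV : LocFin V Ω := blockST.vert g _ hΩ hcone
  obtain ⟨hVc, hVo⟩ := blockLF V _ hΩ hV
  have hU : IsOpen (Ω \ V) := hVo V subset_rfl
  have hUΩ : Ω \ V ⊆ Ω := sdiff_subset
  have hbU : Bornology.IsBounded (Ω \ V) := hbΩ.subset hUΩ
  obtain ⟨δ, hδ, hde⟩ := hD.de p Ω e hp1 hbΩ he0
  have hnull : ∀ a b : E → E, Dist p (Ω \ V) a b = Dist p Ω a b := fun a b =>
    (hD.null p Ω V a b hVc).1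
  -- faces
  have hr0 : ∀ v : E, ∃ r : ℝ, v ∈ V → 0 < r ∧ ConeMap g v r := fun v => by
    by_cases hv : v ∈ V
    · obtain ⟨r, hr⟩ := (hC.radius g v).1 (hcone v (hV.1 hv))
      exact ⟨r, fun _ => hr⟩
    · exact ⟨1, fun h => (hv h).elim⟩
  choose r0 hr0 using hr0
  obtain ⟨γ, r, hγl, hγ, hVx, hr, hγv⟩ := gaugeH hVX r0 hΩ hbΩ hΛ hbΛ hg hδ hV
    (fun v hv => (hr0 v hv).1)
  obtain ⟨h, S, hoff, hcont, hbij, hclose, hDE, hSU, hSo, hLD, hEC, hhv⟩ :=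
    hFACE p g (Ω \ V) V r γ (ENNReal.ofReal δ) hp1 hU hbU (hg.cont.mono hUΩ)
      (hg.bij.injOn.mono hUΩ) (fun x hx => hcone x hx.1)
      (fun x hx => by
        by_contra hlt
        exact hx.2 ⟨hx.1, by omega⟩)
      hγl (fun x hx => (hγ x hx).1) (ENNReal.ofReal_pos.2 hδ) hVx
      (fun v hv => ⟨coneMap_mono (hr0 v hv).2 (hr v hv), hγv v hv⟩)
  have hh : Homeo h Ω Λ := hTOP g h Ω Λ _ hΩ hΛ hbΛ hU hUΩ hg hoff hcont hbij
    (fun x hx => ⟨(hclose x hx).trans (hγ x hx).2.2.1, (hclose x hx).trans (hγ x hx).2.2.2⟩)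
  have d1 : Dist p Ω h g ≤ e := by
    rw [← hnull]
    exact hde _ h g hU hUΩ hDE (fun x hx => (hclose x hx).trans (hγ x hx).2.1)
  -- edges
  obtain ⟨γ', r', hγl', hγ', hVx', hr', hγv'⟩ := gaugeH hVX (fun v => r v / 32) hΩ hbΩ hΛ hbΛ hh hδ
    hV (fun v hv => by have := hVx.pos v hv; positivity)
  obtain ⟨h', hoff', hLD', hbij', hclose', hDE', hhv'⟩ :=
    hEDGE p h (Ω \ V) (h '' (Ω \ V)) S V r' γ' (ENNReal.ofReal δ) hp1 hU hbU (restr hh hUΩ) hSU hSo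
      hLD hEC hγl' (fun x hx => (hγ' x hx).1) (ENNReal.ofReal_pos.2 hδ) hVx'
      (fun v hv => ⟨coneMap_mono (hhv v hv).1 (hr' v hv), coneSet_mono (hhv v hv).2.1 (hr' v hv),
        (hhv v hv).2.2, hγv' v hv⟩)
  have hh' : Homeo h' Ω Λ := hTOP h h' Ω Λ _ hΩ hΛ hbΛ hU hUΩ hh hoff'
    (fun x hx => (hLD' x hx).continuousAt.continuousWithinAt) hbij'
    (fun x hx => ⟨(hclose' x hx).trans (hγ' x hx).2.2.1, (hclose' x hx).trans (hγ' x hx).2.2.2⟩)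
  have d2 : Dist p Ω h' h ≤ e := by
    rw [← hnull]
    exact hde _ h' h hU hUΩ hDE' (fun x hx => (hclose' x hx).trans (hγ' x hx).2.1)
  have hEh : En p Ω h < ⊤ := hD.fin p Ω h g hp1 hE (d1.trans_lt het)
  have hEh' : En p Ω h' < ⊤ := hD.fin p Ω h' h hp1 hEh (d2.trans_lt het)
  -- vertices
  have hnice : ∀ v ∈ V, Nice h' v := fun v hv =>
    hN h' Ω Λ v hΩ hh' (hV.1 hv) (hhv' v hv).1 (hhv' v hv).2 (by
      have h1 : ball v (r' v) ∈ 𝓝[≠] v :=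
        mem_nhdsWithin_of_mem_nhds (ball_mem_nhds _ (hVx'.pos v hv))
      filter_upwards [h1, self_mem_nhdsWithin] with y hy hyv
      exact hLD' y (hVx'.sub v hv y hy hyv))
  obtain ⟨F, hF, hFL, d3⟩ := hSW Nice p hp1 nice_germ
    (fun W v w hW hc hv hw => hMV p W v w hp1 hW hc hv hw) h' Ω Λ V e hΩ hΛ hbΩ hbΛ hh' hV hnice
    (fun x hx hxV => hLD' x ⟨hx, hxV⟩) hEh' he0
  obtain ⟨-, hG⟩ := blockINV E F Ω hΩ hF.bij.injOn hFL
  refine ⟨F, Function.invFunOn F Ω, fun x hx => (hFL x hx).1.contDiffWithinAt,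
    fun y hy => (hG y (by rw [hF.bij.image_eq]; exact hy)).1.contDiffWithinAt, hF.bij,
    hF.bij.invOn_invFunOn, ?_⟩
  have t1 := hD.tri p Ω F h' g hp1 hΩ hF.cont hh'.cont hg.cont
  have t2 := hD.tri p Ω h' h g hp1 hΩ hh'.cont hh.cont hg.cont
  calc Dist p Ω F g ≤ e + (e + e) :=
        t1.trans (add_le_add d3 (t2.trans (add_le_add d2 d1)))
    _ ≤ ε := he3

end Vale.Agent.P073Z.Sv
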