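import Vale.Agent.P073Z.Sv.Sk
import Vale.Agent.P073Z.Sm.Stage
import Vale.Agent.P073Z.Sm.Swindle
import Vale.Agent.P073Z.Sm.CONN
import Vale.Agent.P073Z.Sm.LF
import Vale.Agent.P073Z.Sm.DIST
import Vale.Agent.P073Z.Sm.EXH
import Vale.Agent.P073Z.Sm.INV

/-!
# P073, smoothing for all exponents: block SWN (the swindle for an abstract type of points)
-/

open Set Metric MeasureTheory Topology Filter
open scoped ContDiff ENNReal NNReal

noncomputable section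

namespace Vale.Agent.P073Z.Sv

open Vale.Agent.P073Z.Sm

namespace SWN

open Vale.Agent.P073Z.Sm.Stage

variable {N : (E → E) → E → Prop} {p : ℝ}

theorem mv_mono {V W : Set E} {v w : E} (h : MvN N p V v w) (hVW : V ⊆ W) : MvN N p W v w := by
  intro g Ω Λ P δ h1 h2 h3 h4 h5 h6 hn h7 h8
  obtain ⟨g', K, a, r⟩ := h g Ω Λ P δ h1 h2 (hVW.trans h3) h4 (h5.mono_left hVW) h6 hn h7 h8
  exact ⟨g', K, a.trans hVW, r⟩

/-- moving without control of the value at the new point -/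
def MwN (N : (E → E) → E → Prop) (p : ℝ) (V : Set E) (v w : E) : Prop :=
  ∀ (h : E → E) (Ω Λ P : Set E) (δ : ℝ≥0∞), IsOpen Ω → IsOpen Λ → V ⊆ Ω → Homeo h Ω Λ →
    Disjoint V P → (∀ x ∈ Ω, x ∉ P → x ≠ v → LD h x) → N h v → En p Ω h < ⊤ → 0 < δ →
    ∃ (h' : E → E) (K : Set E), K ⊆ V ∧ Chg p Ω Λ h h' K δ ∧
      (∀ x ∈ Ω, x ∉ P → x ≠ w → LD h' x) ∧ N h' w

theorem mwn_of {V : Set E} {v w : E} (h : MvN N p V v w) : MwN N p V v w := by
  intro g Ω Λ P δ h1 h2 h3 h4 h5 h6 hn h7 h8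
  obtain ⟨g', K, a, b, _, c⟩ := h g Ω Λ P δ h1 h2 h3 h4 h5 h6 hn h7 h8
  exact ⟨g', K, a, b, c⟩

theorem mwn_trans {V : Set E} {u v w : E} (h : MwN N p V u v) (k : MwN N p V v w) :
    MwN N p V u w := by
  intro g Ω Λ P δ h1 h2 h3 h4 h5 h6 hn h7 h8
  obtain ⟨η, e0, e1, e2⟩ := half h8
  obtain ⟨g1, K1, a1, b1, c1, n1⟩ := h g Ω Λ P η h1 h2 h3 h4 h5 h6 hn h7 e0
  obtain ⟨g2, K2, a2, b2, c2⟩ := k g1 Ω Λ P η h1 h2 h3 b1.homeo h5 c1 n1
    (blockDIST.chgfin _ _ _ _ _ _ _ h1 e1 b1 h7) e0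
  exact ⟨g2, K1 ∪ K2, union_subset a1 a2,
    chg_mono (blockDIST.trans _ _ _ _ _ _ _ _ _ _ b1 b2) e2, c2⟩

/-- moves inside convex open sets -/
def Cvx (N : (E → E) → E → Prop) (p : ℝ) : Prop :=
  ∀ (V : Set E) (v w : E), IsOpen V → Convex ℝ V → v ∈ V → w ∈ V → MvN N p V v w

/-- the type of a point depends only on the germ -/
def Germ (N : (E → E) → E → Prop) : Prop :=
  ∀ (h h' : E → E) (x : E), h' =ᶠ[𝓝 x] h → N h x → N h' x

theorem mwn_all (hM : Cvx N p) {V : Set E} (hV : IsOpen V) (hc : IsPreconnected V) {v w : E}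
    (hv : v ∈ V) (hw : w ∈ V) : MwN N p V v w := by
  refine hc.induction₂' (MwN N p V) (fun x hx => ?_)
    (fun _ _ _ _ _ _ a b => mwn_trans a b) hv hw
  obtain ⟨r, hr, hb⟩ := Metric.isOpen_iff.1 hV x hx
  refine mem_nhdsWithin_of_mem_nhds ?_
  filter_upwards [ball_mem_nhds x hr] with y hy
  exact ⟨mwn_of (mv_mono (hM _ x y isOpen_ball (convex_ball x r) (mem_ball_self hr) hy) hb),
    mwn_of (mv_mono (hM _ y x isOpen_ball (convex_ball x r) hy (mem_ball_self hr)) hb)⟩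

/-- moving inside a connected open set -/
theorem movec (hM : Cvx N p) {V : Set E} {v w : E} (hV : IsOpen V) (hc : IsPreconnected V)
    (hv : v ∈ V) (hw : w ∈ V) : MvN N p V v w := by
  intro g Ω Λ P δ k1 k2 k3 k4 k5 k6 kn k7 k8
  by_cases hvw : v = w
  · subst hvw
    exact ⟨g, ∅, empty_subset _, chg_refl k4 δ, rfl, k6, kn⟩
  obtain ⟨r, hr, hb⟩ := Metric.isOpen_iff.1 hV w hw
  obtain ⟨w', hw'⟩ := ((countable_singleton w).dense_compl ℝ).inter_open_nonempty (ball w r)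
    isOpen_ball ⟨w, mem_ball_self hr⟩
  have hV' : IsOpen (V \ {w}) := hV.sdiff isClosed_singleton
  have hc' : IsPreconnected (V \ {w}) := blockCONN V {w} hV hc (countable_singleton w)
  obtain ⟨η, e0, e1, e2⟩ := half k8
  obtain ⟨g1, K1, a1, b1, c1, n1⟩ := mwn_all hM hV' hc' (v := v) (w := w') ⟨hv, hvw⟩
    ⟨hb hw'.1, hw'.2⟩ g Ω Λ P η k1 k2 (sdiff_subset.trans k3) k4 (k5.mono_left sdiff_subset) k6 kn
    k7 e0
  obtain ⟨g2, K2, a2, b2, d2, c2⟩ := mv_mono (hM _ w' w isOpen_ball (convex_ball w r) hw'.1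
    (mem_ball_self hr)) hb g1 Ω Λ P η k1 k2 k3 b1.homeo k5 c1 n1
    (blockDIST.chgfin _ _ _ _ _ _ _ k1 e1 b1 k7) e0
  refine ⟨g2, K1 ∪ K2, union_subset (a1.trans sdiff_subset) a2,
    chg_mono (blockDIST.trans _ _ _ _ _ _ _ _ _ _ b1 b2) e2, ?_, c2⟩
  rw [d2]
  exact b1.off w fun hK => (a1 hK).2 rfl

/-- one stage of the swindle -/
theorem stage (hG : Germ N) (hM : Cvx N p) {h : E → E} {Ω Λ P D D' K' : Set E} {δ : ℝ≥0∞}
    (hΩ : IsOpen Ω) (hΛ : IsOpen Λ) (hh : Homeo h Ω Λ) (hP : LocFin P Ω) (hn : ∀ x ∈ P, N h x)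
    (hDc : IsCompact D) (hF : Full Ω D) (hPD : Disjoint P D) (hD'c : IsCompact D')
    (hD'Ω : D' ⊆ Ω) (hK'c : IsCompact K') (hK'Λ : K' ⊆ Λ) (hld : ∀ x ∈ Ω, x ∉ P → LD h x)
    (hen : En p Ω h < ⊤) (hδ : 0 < δ) :
    ∃ (h' : E → E) (P' K : Set E), Chg p Ω Λ h h' K δ ∧ Disjoint K D ∧ LocFin P' Ω ∧
      (∀ x ∈ P', N h' x) ∧ (∀ x ∈ P', x ∉ D' ∧ h' x ∉ K') ∧ ∀ x ∈ Ω, x ∉ P' → LD h' x := by
  have hL := blockLF
  have hE := blockEXH
  have hD := blockDIST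
  have main : ∀ B : Set E, B.Finite → ∀ (h : E → E) (P : Set E) (δ : ℝ≥0∞), Homeo h Ω Λ →
      LocFin P Ω → (∀ x ∈ P, N h x) → Disjoint P D → (∀ x ∈ Ω, x ∉ P → LD h x) → En p Ω h < ⊤ →
      0 < δ → (∀ x ∈ P, x ∉ B → x ∉ D' ∧ h x ∉ K') →
      ∃ (h' : E → E) (P' K : Set E), Chg p Ω Λ h h' K δ ∧ Disjoint K D ∧ LocFin P' Ω ∧
        (∀ x ∈ P', N h' x) ∧ (∀ x ∈ P', x ∉ D' ∧ h' x ∉ K') ∧ ∀ x ∈ Ω, x ∉ P' → LD h' x := by
    intro B hB
    induction B, hB using Set.Finite.induction_on with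
    | empty =>
      intro h P δ hh hP hn _ hld _ _ hb
      exact ⟨h, P, ∅, chg_refl hh δ, empty_disjoint _, hP, hn,
        fun x hx => hb x hx (notMem_empty x), hld⟩
    | @insert v B _ _ ih =>
      intro h P δ hh hP hn hPD hld hen hδ hb
      by_cases hv : v ∈ P
      swap
      · refine ih h P δ hh hP hn hPD hld hen hδ fun x hx hxB => hb x hx ?_
        rintro (rfl | h')
        exacts [hv hx, hxB h']
      have hvD : v ∈ Ω \ D := ⟨hP.1 hv, fun h' => disjoint_left.1 hPD hv h'⟩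
      set W := connectedComponentIn (Ω \ D) v with hW
      have hWo : IsOpen W := (hΩ.sdiff hDc.isClosed).connectedComponentIn
      have hWs : W ⊆ Ω \ D := connectedComponentIn_subset _ _
      have hCc : (P \ {v}).Countable := (hL P Ω hΩ hP).1.mono sdiff_subset
      have hVo : IsOpen (W \ (P \ {v})) := by
        have e : W \ (P \ {v}) = W ∩ (Ω \ (P \ {v})) := by
          ext x
          exact ⟨fun a => ⟨a.1, (hWs a.1).1, a.2⟩, fun a => ⟨a.1, a.2.2⟩⟩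
        rw [e]
        exact hWo.inter ((hL P Ω hΩ hP).2 _ sdiff_subset)
      have hVc : IsPreconnected (W \ (P \ {v})) :=
        blockCONN W _ hWo isPreconnected_connectedComponentIn hCc
      have hvV : v ∈ W \ (P \ {v}) := ⟨mem_connectedComponentIn hvD, fun a => a.2 rfl⟩
      have hA : IsCompact (D' ∪ (Ω ∩ h ⁻¹' K')) :=
        hD'c.union (hE.pre h Ω Λ K' hΩ hΛ hh hK'c hK'Λ).1
      obtain ⟨y, hy, hyA⟩ := hF v hvD _ hA (union_subset hD'Ω inter_subset_left)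
      obtain ⟨w, ⟨hwW, hwA⟩, hwC⟩ := (hCc.dense_compl ℝ).inter_open_nonempty
        (W \ (D' ∪ (Ω ∩ h ⁻¹' K'))) (hWo.sdiff hA.isClosed) ⟨y, hy, hyA⟩
      obtain ⟨η, e0, e1, e2⟩ := half hδ
      obtain ⟨h1, K1, a1, b1, d1, c1, n1⟩ := movec hM hVo hVc hvV ⟨hwW, hwC⟩ h Ω Λ (P \ {v}) η
        hΩ hΛ (fun x hx => (hWs hx.1).1) hh (disjoint_left.2 fun x hx hx' => hx.2 hx')
        (fun x hx hx' hxv => hld x hx fun hxP => hx' ⟨hxP, hxv⟩) (hn v hv) hen e0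
      obtain ⟨h2, P', K2, b2, u2, r⟩ := ih h1 (insert w (P \ {v})) η b1.homeo
        ⟨insert_subset (hWs hwW).1 (sdiff_subset.trans hP.1), fun K hK hKΩ =>
          ((hP.2 K hK hKΩ).insert w).subset fun x hx =>
            hx.1.elim Or.inl fun a => Or.inr ⟨a.1, hx.2⟩⟩
        (by
          rintro x (rfl | hx)
          · exact n1
          · refine hG h h1 x ?_ (hn x hx.1)
            filter_upwards [b1.cpt.isClosed.isOpen_compl.mem_nhds fun a => (a1 a).2 hx] with y hy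
            exact b1.off y hy)
        (disjoint_left.2 fun x hx hx' => hx.elim (fun a => (hWs hwW).2 (a ▸ hx'))
          fun a => disjoint_left.1 hPD a.1 hx')
        (fun x hx hx' => c1 x hx (fun a => hx' (Or.inr a)) fun a => hx' (Or.inl a))
        (hD.chgfin _ _ _ _ _ _ _ hΩ e1 b1 hen) e0 (by
          rintro x (rfl | hx) hxB
          · rw [d1]
            exact ⟨fun a => hwA (Or.inl a), fun a => hwA (Or.inr ⟨(hWs hwW).1, a⟩)⟩
          · rw [b1.off x fun a => (a1 a).2 hx]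
            refine hb x hx.1 ?_
            rintro (a | a)
            exacts [hx.2 a, hxB a])
      exact ⟨h2, P', K1 ∪ K2, chg_mono (hD.trans _ _ _ _ _ _ _ _ _ _ b1 b2) e2,
        disjoint_union_left.2 ⟨disjoint_left.2 fun x hx => (hWs (a1 hx).1).2, u2⟩, r⟩
  refine main _ (hP.2 _ (hD'c.union (hE.pre h Ω Λ K' hΩ hΛ hh hK'c hK'Λ).1)
    (union_subset hD'Ω inter_subset_left)) h P δ hh hP hn hPD hld hen hδ fun x hx hxB => ?_
  exact ⟨fun a => hxB ⟨hx, Or.inl a⟩, fun a => hxB ⟨hx, Or.inr ⟨hP.1 hx, a⟩⟩⟩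

/-- the map `h` with singular set `P` is admissible -/
structure Ad (N : (E → E) → E → Prop) (p : ℝ) (Ω Λ : Set E) (h : E → E) (P : Set E) : Prop where
  homeo : Homeo h Ω Λ
  lf : LocFin P Ω
  n : ∀ x ∈ P, N h x
  ld : ∀ x ∈ Ω, x ∉ P → LD h x
  en : En p Ω h < ⊤

open Vale.Agent.P073Z.Sm.Swindle (Fz)

variable {Ω Λ : Set E}

theorem halfStep (hG : Germ N) (hM : Cvx N p) (h1 : 1 ≤ p) (hΩ : IsOpen Ω) (hΛ : IsOpen Λ)
    (bΛ : Bornology.IsBounded Λ) {h : E → E} {P D D' K' : Set E} (a : Ad N p Ω Λ h P)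
    (z : Fz Ω P D) (c1 : IsCompact D') (s1 : D' ⊆ Ω) (c2 : IsCompact K') (s2 : K' ⊆ Λ)
    {η : ℝ≥0∞} (hη : 0 < η) :
    ∃ (h' : E → E) (P' : Set E), Ad N p Ω Λ h' P' ∧ EqOn h' h D ∧ Dist p Ω h' h ≤ η ∧
      ∀ x ∈ P', x ∉ D' ∧ h' x ∉ K' := by
  obtain ⟨δ, hδ, H⟩ := blockDIST.chg p Λ η h1 bΛ hη
  obtain ⟨h', P', K, c, kD, lf, n, out, ld⟩ := stage hG hM hΩ hΛ a.homeo a.lf a.n z.cpt z.full
    z.dis c1 s1 c2 s2 a.ld a.en (δ := min δ 1) (lt_min hδ one_pos)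
  exact ⟨h', P', ⟨c.homeo, lf, n, ld, blockDIST.chgfin p Ω Λ K h h' _ hΩ
    ((min_le_right _ _).trans_lt ENNReal.one_lt_top) c a.en⟩,
    fun x hx => c.off x (disjoint_right.1 kD hx),
    H Ω K h h' hΩ a.homeo.bij.mapsTo (chg_mono c (min_le_left δ 1)), out⟩

theorem step (hG : Germ N) (hM : Cvx N p) (h1 : 1 ≤ p) (hΩ : IsOpen Ω) (hΛ : IsOpen Λ)
    (bΩ : Bornology.IsBounded Ω) (bΛ : Bornology.IsBounded Λ) {h : E → E} {P D A B : Set E}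
    (a : Ad N p Ω Λ h P) (z : Fz Ω P D) (c1 : IsCompact A) (s1 : A ⊆ Ω) (c2 : IsCompact B)
    (s2 : B ⊆ Λ) {η : ℝ≥0∞} (hη : 0 < η) :
    ∃ (h' : E → E) (P' D' : Set E), Ad N p Ω Λ h' P' ∧ Fz Ω P' D' ∧ EqOn h' h D ∧
      Dist p Ω h' h ≤ η ∧ D ⊆ D' ∧ A ⊆ D' ∧ B ⊆ h' '' D' := by
  have hE := blockEXH
  have hη' : 0 < η / 2 := ENNReal.half_pos hη.ne'
  obtain ⟨K, -, k1, k2, -⟩ := hE.exh Ω hΩ bΩ
  obtain ⟨L, -, l1, l2, -⟩ := hE.exh Λ hΛ bΛ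
  obtain ⟨m, hm⟩ := k2 (D ∪ A) (z.cpt.union c1) (union_subset z.sub s1)
  obtain ⟨f, R, a1, e1, d1, o1⟩ := halfStep hG hM h1 hΩ hΛ bΛ a z (k1 m).1 (k1 m).2.1
    isCompact_empty (empty_subset _) hη'
  obtain ⟨n, hn⟩ := l2 (f '' K m ∪ B)
    (((k1 m).1.image_of_continuousOn (a1.homeo.cont.mono (k1 m).2.1)).union c2)
    (union_subset (image_subset_iff.2 fun x hx => a1.homeo.bij.mapsTo ((k1 m).2.1 hx)) s2)
  obtain ⟨h', P', a2, e2, d2, o2⟩ := halfStep hG hM h1 hΩ hΛ bΛ a1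
    ⟨(k1 m).1, (k1 m).2.1, (k1 m).2.2, disjoint_left.2 fun x hx => (o1 x hx).1⟩ isCompact_empty
    (empty_subset _) (l1 n).1 (l1 n).2.1 hη'
  have pre := hE.pre h' Ω Λ (L n) hΩ hΛ a2.homeo (l1 n).1 (l1 n).2.1
  have sub : K m ⊆ Ω ∩ h' ⁻¹' L n := fun x hx =>
    ⟨(k1 m).2.1 hx, by rw [mem_preimage, e2 hx]; exact hn (Or.inl (mem_image_of_mem f hx))⟩
  refine ⟨h', P', Ω ∩ h' ⁻¹' L n, a2, ⟨pre.1, inter_subset_left, pre.2 (l1 n).2.2,
    disjoint_left.2 fun x hx hx' => (o2 x hx).2 hx'.2⟩,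
    fun x hx => (e2 (hm (Or.inl hx))).trans (e1 hx), ?_, fun x hx => sub (hm (Or.inl hx)),
    fun x hx => sub (hm (Or.inr hx)), fun y hy => ?_⟩
  · refine (blockDIST.tri p Ω h' f h h1 hΩ a2.homeo.cont a1.homeo.cont a.homeo.cont).trans ?_
    rw [← ENNReal.add_halves η]
    exact add_le_add d2 d1
  · obtain ⟨x, hx, rfl⟩ := a2.homeo.bij.surjOn (s2 hy)
    exact mem_image_of_mem _ ⟨hx, hn (Or.inr hy)⟩

end SWN

open SWN Vale.Agent.P073Z.Sm.Swindle in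
/-- Block SWN. -/
theorem blockSWN : StmtSWN := by
  classical
  intro N p h1 hG hM g Ω Λ P ε hΩ hΛ bΩ bΛ hg hP hn hld hen hε
  have hE := blockEXH
  have hD := blockDIST
  obtain ⟨η, η0, ηs⟩ := ENNReal.exists_pos_sum_of_countable hε.ne' ℕ
  obtain ⟨K, -, k1, -, k3⟩ := hE.exh Ω hΩ bΩ
  obtain ⟨L, -, l1, -, l3⟩ := hE.exh Λ hΛ bΛ
  let T := {t : (E → E) × Set E × Set E // SWN.Ad N p Ω Λ t.1 t.2.1 ∧ Fz Ω t.2.1 t.2.2}
  have st : ∀ (j : ℕ) (s : T), ∃ s' : T, EqOn s'.1.1 s.1.1 s.1.2.2 ∧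
      Dist p Ω s'.1.1 s.1.1 ≤ η j ∧ s.1.2.2 ⊆ s'.1.2.2 ∧ K j ⊆ s'.1.2.2 ∧
      L j ⊆ s'.1.1 '' s'.1.2.2 := fun j s => by
    obtain ⟨h', P', D', a, z, r⟩ := SWN.step hG hM h1 hΩ hΛ bΩ bΛ s.2.1 s.2.2 (k1 j).1
      (k1 j).2.1 (l1 j).1 (l1 j).2.1 (η := η j) (ENNReal.coe_pos.2 (η0 j))
    exact ⟨⟨(h', P', D'), a, z⟩, r⟩
  choose f hf using st
  let s0 : T := ⟨(g, P, ∅), ⟨hg, hP, hn, hld, hen⟩,
    isCompact_empty, empty_subset _, hE.empty Ω hΩ bΩ, disjoint_empty _⟩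
  let s : ℕ → T := fun j => Nat.rec s0 f j
  obtain ⟨h, R, D, a, z, e0, r⟩ : ∃ (h : ℕ → E → E) (R D : ℕ → Set E),
      (∀ j, SWN.Ad N p Ω Λ (h j) (R j)) ∧ (∀ j, Fz Ω (R j) (D j)) ∧ h 0 = g ∧
      ∀ j, EqOn (h (j + 1)) (h j) (D j) ∧ Dist p Ω (h (j + 1)) (h j) ≤ η j ∧ D j ⊆ D (j + 1) ∧
        K j ⊆ D (j + 1) ∧ L j ⊆ h (j + 1) '' D (j + 1) :=
    ⟨fun j => (s j).1.1, fun j => (s j).1.2.1, fun j => (s j).1.2.2, fun j => (s j).2.1,
      fun j => (s j).2.2, rfl, fun j => hf j (s j)⟩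
  have mono : Monotone D := monotone_nat_of_le_succ fun j => (r j).2.2.1
  have stab : ∀ i j, i ≤ j → EqOn (h j) (h i) (D i) := fun i j hij => by
    induction j, hij using Nat.le_induction with
    | base => exact fun _ _ => rfl
    | succ j hij ih => exact fun x hx => ((r j).1 (mono hij hx)).trans (ih hx)
  obtain ⟨F, F1⟩ : ∃ F : E → E, ∀ j, EqOn F (h j) (D j) := by
    refine ⟨fun x => if hx : ∃ j, x ∈ D j then h hx.choose x else g x, fun j x hx => ?_⟩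
    have hx' : ∃ j, x ∈ D j := ⟨j, hx⟩
    exact (dif_pos hx').trans ((stab _ _ (le_max_left _ j) hx'.choose_spec).symm.trans
      (stab _ _ (le_max_right _ j) hx))
  have nb : ∀ x ∈ Ω, ∀ᶠ j in atTop, D j ∈ 𝓝 x := fun x hx => by
    obtain ⟨j, hj⟩ := k3 x hx
    filter_upwards [eventually_ge_atTop (j + 1)] with i hi
    exact mem_of_superset hj ((r j).2.2.2.1.trans (mono hi))
  have ld : ∀ x ∈ Ω, LD F x := fun x hx => by
    obtain ⟨j, hj⟩ := (nb x hx).exists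
    exact ((a j).ld x hx (disjoint_right.1 (z j).dis (mem_of_mem_nhds hj))).congr
      (eventually_of_mem hj (F1 j))
  have inj : InjOn F Ω := fun x hx y hy e => by
    obtain ⟨j, j1, j2⟩ := ((nb x hx).and (nb y hy)).exists
    rw [F1 j (mem_of_mem_nhds j1), F1 j (mem_of_mem_nhds j2)] at e
    exact (a j).homeo.bij.injOn hx hy e
  refine ⟨F, ⟨fun x hx => (ld x hx).continuousAt.continuousWithinAt,
    ⟨fun x hx => ?_, inj, fun y hy => ?_⟩, (blockINV E F Ω hΩ inj ld).1⟩, ld, ?_⟩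
  · obtain ⟨j, hj⟩ := (nb x hx).exists
    rw [F1 j (mem_of_mem_nhds hj)]
    exact (a j).homeo.bij.mapsTo hx
  · obtain ⟨j, hj⟩ := l3 y hy
    obtain ⟨x, hx, rfl⟩ := (r j).2.2.2.2 (mem_of_mem_nhds hj)
    exact ⟨x, (z _).sub hx, F1 _ hx⟩
  · refine hD.lim p Ω h F g ε h1 hΩ (fun j => (a j).homeo.cont) hg.cont
      (fun x hx => (nb x hx).mono fun j hj => eventually_of_mem hj fun y hy => (F1 j hy).symm)
      fun j => le_trans ?_ ((ENNReal.sum_le_tsum (Finset.range j)).trans ηs.le)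
    induction j with
    | zero => rw [e0, hD.self]; exact zero_le
    | succ j ih =>
      rw [Finset.sum_range_succ_comm]
      exact (hD.tri p Ω _ (h j) g h1 hΩ (a _).homeo.cont (a j).homeo.cont hg.cont).trans
        (add_le_add (r j).2.1 ih)

end Vale.Agent.P073Z.Sv
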