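import Vale.Agent.P073Z.Sm.Sk

/-!
# P073, smoothing for all exponents: statements of the blocks

The smoothing along faces and edges is done homogeneously near the vertices; homogeneous
singular points are then moved along segments by maps of bounded distortion.
-/

open Set Metric MeasureTheory Topology Filter
open scoped ContDiff ENNReal NNReal RealInnerProductSpace

noncomputable section

namespace Vale.Agent.P073Z.Sv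

open Vale.Agent.P073Z.Sm

/-- the vertices `V` (outside `U`) with their radii -/
structure Vx (U V : Set E) (r : E → ℝ) : Prop where
  pos : ∀ v ∈ V, 0 < r v
  nmem : ∀ v ∈ V, v ∉ U
  sub : ∀ v ∈ V, ∀ y ∈ ball v (r v), y ≠ v → y ∈ U
  disj : ∀ v ∈ V, ∀ w ∈ V, v ≠ w → Disjoint (ball v (r v)) (ball w (r w))
  fin : ∀ x ∈ U, ∃ W ∈ 𝓝 x, {v | v ∈ V ∧ (W ∩ ball v (r v)).Nonempty}.Finite

section Hom

variable {X : Type} [NormedAddCommGroup X] [NormedSpace ℝ X]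

/-- `A` is a cone with apex `v` inside the ball of radius `r` -/
def ConeSet (A : Set X) (v : X) (r : ℝ) : Prop :=
  ∀ y ∈ ball v r, ∀ t ∈ Ioc (0 : ℝ) 1, (v + t • (y - v) ∈ A ↔ y ∈ A)

/-- `f` is homogeneous around `v` inside the ball of radius `r` -/
def HomFn (f : X → ℝ) (v : X) (r : ℝ) : Prop :=
  ∀ y ∈ ball v r, ∀ t ∈ Ioc (0 : ℝ) 1, f (v + t • (y - v)) = t * f y

/-- `f` is superhomogeneous around `v` inside the ball of radius `r`, on `A` -/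
def SupFn (f : X → ℝ) (A : Set X) (v : X) (r : ℝ) : Prop :=
  ∀ y ∈ ball v r, y ∈ A → ∀ t ∈ Ioc (0 : ℝ) 1, t * f y ≤ f (v + t • (y - v))

end Hom

/-- `g` is a cone map with apex `v` inside the ball of radius `r` -/
def ConeMap (g : E → E) (v : E) (r : ℝ) : Prop :=
  ∀ y ∈ ball v r, ∀ t ∈ Ioc (0 : ℝ) 1, g (v + t • (y - v)) = g v + t • (g y - g v)

/-- `h` is affine on open sets arbitrarily close to `v` -/
def AffNear (h : E → E) (v : E) : Prop :=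
  ∀ N ∈ 𝓝 v, ∃ W : Set E, IsOpen W ∧ W.Nonempty ∧ W ⊆ N ∧
    ∃ (A : E →L[ℝ] E) (b : E), ∀ y ∈ W, h y = b + A y

/-- Block VX (input LF): radii for a locally finite set of vertices. -/
def StmtVX : Prop :=
  ∀ (Ω V : Set E) (r0 : E → ℝ), IsOpen Ω → Bornology.IsBounded Ω → LocFin V Ω →
    (∀ v ∈ V, 0 < r0 v) → ∃ r : E → ℝ, Vx (Ω \ V) V r ∧ (∀ v ∈ V, r v ≤ r0 v) ∧
      ∀ v ∈ V, ∀ y ∈ ball v (r v), infDist y (Ω \ V)ᶜ = ‖y - v‖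

/-- Block MINH (input MIN, HOMLIP): minorants which are homogeneous near the vertices. -/
def StmtMINH : Prop :=
  ∀ (X : Type) [NormedAddCommGroup X] [InnerProductSpace ℝ X] [FiniteDimensional ℝ X]
    (A U V : Set X) (r : X → ℝ) (γ : X → ℝ) (κ : ℝ≥0), IsOpen A → A ⊆ U → 0 < κ →
    (∀ K : Set X, IsCompact K → K ⊆ A → ∃ c : ℝ, 0 < c ∧ ∀ x ∈ K, c ≤ γ x) →
    (∀ v ∈ V, 0 < r v ∧ v ∉ U ∧ ConeSet A v (r v) ∧ SupFn γ A v (r v)) →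
    (∀ v ∈ V, ∀ w ∈ V, v ≠ w → Disjoint (ball v (r v)) (ball w (r w))) →
    (∀ x ∈ U, ∃ W ∈ 𝓝 x, {v | v ∈ V ∧ (W ∩ ball v (r v)).Nonempty}.Finite) →
    ∃ ρ : X → ℝ, (∀ x ∈ U, ContDiffAt ℝ ∞ ρ x) ∧ LipschitzWith κ ρ ∧ (∀ x, 0 ≤ ρ x) ∧
      (∀ x, 0 < ρ x ↔ x ∈ A) ∧ (∀ x ∈ A, ρ x ≤ γ x) ∧ ∀ v ∈ V, HomFn ρ v (r v / 2)

/-- Block CONE (input ST): cones and labels near a vertex. -/
structure StmtCONE : Prop where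
  /-- the distance to a cone through the apex is superhomogeneous -/
  dist : ∀ (Z : Set E) (v : E) (r : ℝ), v ∈ Z → ConeSet Z v r →
    SupFn (fun y => infDist y Z) univ v (r / 2)
  lab : ∀ (g : E → E) (v : E) (r : ℝ), ConeMap g v r → (∀ y ∈ ball v r, y ≠ v → ConeAt g y) →
    ∀ y ∈ ball v r, y ≠ v → y - v ∈ Lin g y ∧ tanM g y v = g v ∧
      (∀ (z : E) (t : ℝ), 0 ≤ t → tanM g y (v + t • (z - v)) = g v + t • (tanM g y z - g v)) ∧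
      ∀ t ∈ Ioc (0 : ℝ) 1, Lin g (v + t • (y - v)) = Lin g y ∧ lab g (v + t • (y - v)) = lab g y
  /-- the set where two cone maps agree locally is a cone -/
  agree : ∀ (g G : E → E) (v : E) (r : ℝ), ConeMap g v r →
    (∀ (z : E) (t : ℝ), 0 ≤ t → G (v + t • (z - v)) = g v + t • (G z - g v)) →
    ConeSet {y | g =ᶠ[𝓝 y] G} v r
  radius : ∀ (g : E → E) (v : E), ConeAt g v ↔ ∃ r : ℝ, 0 < r ∧ ConeMap g v r

/-- the tubes are homogeneous near the vertices -/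
structure TubesH {ι : Type} (V : Set E) (r : E → ℝ) (x0 e : ι → E) (ρ : ι → ℝ → ℝ) : Prop where
  line : ∀ v ∈ V, ∀ i, ∀ y ∈ ball v (r v), y ∈ tube (x0 i) (e i) (ρ i) 4 → rc (x0 i) (e i) v = 0
  hom : ∀ v ∈ V, ∀ i, rc (x0 i) (e i) v = 0 → HomFn (ρ i) (sc (x0 i) (e i) v) (r v)

/-- Block TH (input MINH, CONE): thin tubes, homogeneous near the vertices. -/
def StmtTH : Prop :=
  ∀ (ι : Type) (U S V : Set E) (r : E → ℝ) (cls : E → ι) (x0 e : ι → E) (κ : ι → ℝ≥0)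
    (O : ι → Set E) (β : ι → E → ℝ), Lines U S cls x0 e → Bornology.IsBounded U → Vx U V r →
    (∀ v ∈ V, ∀ i, ConeSet {y | y ∈ S ∧ cls y = i} v (r v)) →
    (∀ i, 0 < κ i) → (∀ i, IsOpen (O i)) → (∀ x ∈ S, x ∈ O (cls x)) →
    (∀ i, ContinuousOn (β i) U) → (∀ i, ∀ x ∈ U, 0 < β i x) →
    (∀ v ∈ V, ∀ y ∈ ball v (r v), y ∈ S →
      ConeSet (O (cls y)) v (r v) ∧ SupFn (β (cls y)) U v (r v)) →
    ∃ ρ : ι → ℝ → ℝ, Tubes U S cls x0 e κ O ρ ∧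
      (∀ (i : ι) (s : ℝ), 0 < ρ i s → ρ i s ≤ β i (x0 i + s • e i)) ∧
      TubesH V (fun v => r v / 4) x0 e ρ

/-- Block FDH (input ST, MINH, PERSP, CONE): the half width of a lens, homogeneous near the
vertices. -/
def StmtFDH : Prop :=
  ∀ (g : E → E) (U V : Set E) (r : E → ℝ) (x0 e : Lab → E) (κt : Lab → ℝ≥0) (O : Lab → Set E)
    (ρ : Lab → ℝ → ℝ) (γ : E → ℝ) (xf n : E) (κ : ℝ≥0),
    IsOpen U → Bornology.IsBounded U → (∀ x ∈ U, ConeAt g x) → (∀ x ∈ U, 1 ≤ rk g x) →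
    Lines U (Sk g U 1) (lab g) x0 e → Tubes U (Sk g U 1) (lab g) x0 e κt O ρ → (∀ i, κt i ≤ 1) →
    (∀ i, ∀ y ∈ O i, g =ᶠ[𝓝 y] i.1) → (∀ i, ∀ y ∈ O i, rc (x0 i) (e i) y ≤ γ y) →
    ContinuousOn γ U → (∀ x ∈ U, 0 < γ x) →
    xf ∈ U → rk g xf = 2 → ‖n‖ = 1 → (∀ w, w ∈ Lin g xf ↔ ⟪n, w⟫ = 0) → 0 < κ →
    Vx U V r → (∀ v ∈ V, ConeMap g v (r v) ∧ SupFn γ U v (r v)) → TubesH V r x0 e ρ →
    ∃ d : E → ℝ, LipschitzWith κ d ∧ (∀ y, 0 ≤ d y) ∧ (∀ (y : E) (t : ℝ), d (y + t • n) = d y) ∧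
      (∀ y, ⟪n, y - xf⟫ = 0 → (0 < d y ↔ y ∈ face g U (lab g xf))) ∧
      (∀ y, 0 < d y → ContDiffAt ℝ ∞ d y) ∧
      (∀ y ∈ face g U (lab g xf), d y ≤ κ ∧ d y ≤ κ * γ y ∧
        d y ≤ κ * infDist y ((Sk g U 2 \ face g U (lab g xf)) ∪ Uᶜ)) ∧
      (∀ i, ∃ η : ℝ, ∀ y ∈ face g U (lab g xf), y ∈ tube (x0 i) (e i) (ρ i) (1 / 4) →
        d y = η * rc (x0 i) (e i) y) ∧
      ∀ v ∈ V, ⟪n, v - xf⟫ = 0 → HomFn d v (r v / 4)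

/-- Block FACEH (input M, ST, T, TH, FDH, FM, PATCH, CONE): smoothing along all faces,
homogeneous near the vertices. -/
def StmtFACEH : Prop :=
  ∀ (p : ℝ) (g : E → E) (U V : Set E) (r : E → ℝ) (γ : E → ℝ) (ε : ℝ≥0∞), 1 ≤ p → IsOpen U →
    Bornology.IsBounded U → ContinuousOn g U → InjOn g U → (∀ x ∈ U, ConeAt g x) →
    (∀ x ∈ U, 1 ≤ rk g x) → LipschitzWith 1 γ → (∀ x ∈ U, 0 < γ x) → 0 < ε → Vx U V r →
    (∀ v ∈ V, ConeMap g v (r v) ∧ ∀ y ∈ ball v (r v), γ y = ‖y - v‖) →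
    ∃ (h : E → E) (S : Set E), (∀ x, x ∉ U → h x = g x) ∧ ContinuousOn h U ∧
      BijOn h U (g '' U) ∧ (∀ x ∈ U, ‖h x - g x‖ ≤ γ x) ∧ DE p U h g ≤ ε ∧ S ⊆ U ∧
      IsOpen (U \ S) ∧ (∀ x ∈ U \ S, LD h x) ∧ EdgeCone h S ∧
      ∀ v ∈ V, ConeMap h v (r v / 32) ∧ ConeSet S v (r v / 32) ∧ AffNear h v

/-- Block EM0H (input E2, SHEAR, PERSP, HOMLIP): the edge model in coordinates, with
homogeneity. -/
def StmtEM0H : Prop :=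
  ∀ (m : ℂ → ℝ) (Γ : ℂ → ℂ), (∀ (z : ℂ) (t : ℝ), 0 ≤ t → m (t • z) = t * m z) →
    (∀ z, z ≠ 0 → ContDiffAt ℝ ∞ m z) →
    (∀ (z : ℂ) (t : ℝ), 0 ≤ t → Γ (t • z) = t • Γ z) → Function.Bijective Γ →
    (∀ z, z ≠ 0 → LD Γ z) → (∀ᶠ z in 𝓝 (-1 : ℂ), Γ z = z) →
    ∃ κ C : ℝ≥0, 0 < κ ∧ ∀ ρ : ℝ → ℝ, LipschitzWith κ ρ → (∀ s, 0 ≤ ρ s) →
      ContDiffOn ℝ ∞ ρ {s | 0 < ρ s} →
      ∃ H : ℝ × ℂ → ℝ × ℂ, Function.Bijective H ∧ LipschitzWith C H ∧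
        (∀ q : ℝ × ℂ, ρ q.1 ≤ ‖q.2‖ → H q = (q.1 + m q.2, Γ q.2)) ∧
        (∀ q : ℝ × ℂ, 0 < ρ q.1 → LD H q) ∧
        (∀ q : ℝ × ℂ, ‖H q - (q.1 + m q.2, Γ q.2)‖ ≤ C * ρ q.1) ∧
        ∀ s0 R : ℝ, HomFn ρ s0 R → ∀ q : ℝ × ℂ, |q.1 - s0| < R / 2 → ∀ t ∈ Ioc (0 : ℝ) 1,
          H ((s0, 0) + t • (q - (s0, 0))) = (s0, 0) + t • (H q - (s0, 0))

/-- Block EMH (input EM0H): the edge model, with homogeneity. -/
def StmtEMH : Prop :=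
  ∀ (G : E → E) (x0 e c : E) (W : Set E) (A : E →L[ℝ] E) (b : E), ‖e‖ = 1 →
    (∀ (y : E) (t : ℝ), 0 ≤ t → G (x0 + t • (y - x0)) = G x0 + t • (G y - G x0)) →
    (∀ (y : E) (s : ℝ), G (y + s • e) = G y + s • c) → Function.Bijective G →
    (∀ y, rc x0 e y ≠ 0 → LD G y) → IsOpen W → W.Nonempty → (∀ y ∈ W, G y = b + A y) →
    ∃ κ C : ℝ≥0, 0 < κ ∧ LipschitzWith C G ∧ ∀ ρ : ℝ → ℝ, LipschitzWith κ ρ → (∀ s, 0 ≤ ρ s) →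
      ContDiffOn ℝ ∞ ρ {s | 0 < ρ s} →
      ∃ H : E → E, Function.Bijective H ∧ LipschitzWith C H ∧
        (∀ y, ρ (sc x0 e y) ≤ rc x0 e y → H y = G y) ∧ (∀ y, 0 < ρ (sc x0 e y) → LD H y) ∧
        (∀ y, ‖H y - G y‖ ≤ C * ρ (sc x0 e y)) ∧
        ∀ (v : E) (R : ℝ), rc x0 e v = 0 → HomFn ρ (sc x0 e v) R → ∀ y ∈ ball v (R / 2),
          ∀ t ∈ Ioc (0 : ℝ) 1, H (v + t • (y - v)) = G v + t • (H y - G v)

/-- Block EDGEH (input ST, T, TH, EMH, PATCH, CONE): smoothing along all edges, homogeneous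
near the vertices. -/
def StmtEDGEH : Prop :=
  ∀ (p : ℝ) (h : E → E) (U Λ S V : Set E) (r : E → ℝ) (γ : E → ℝ) (ε : ℝ≥0∞), 1 ≤ p →
    IsOpen U → Bornology.IsBounded U → Homeo h U Λ → S ⊆ U → IsOpen (U \ S) →
    (∀ x ∈ U \ S, LD h x) → EdgeCone h S → LipschitzWith 1 γ → (∀ x ∈ U, 0 < γ x) → 0 < ε →
    Vx U V r → (∀ v ∈ V, ConeMap h v (r v) ∧ ConeSet S v (r v) ∧ AffNear h v ∧
      ∀ y ∈ ball v (r v), γ y = ‖y - v‖) →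
    ∃ h' : E → E, (∀ x, x ∉ U → h' x = h x) ∧ (∀ x ∈ U, LD h' x) ∧ BijOn h' U (h '' U) ∧
      (∀ x ∈ U, ‖h' x - h x‖ ≤ γ x) ∧ DE p U h' h ≤ ε ∧
      ∀ v ∈ V, ConeAt h' v ∧ AffNear h' v

/-! ## Homogeneous singular points -/

/-- `T` is a bijective cone map fixing `v`, smooth off `v` -/
structure Hom (T : E → E) (v : E) : Prop where
  hom : ∀ (y : E) (t : ℝ), 0 ≤ t → T (v + t • (y - v)) = v + t • (T y - v)
  bij : Function.Bijective T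
  ld : ∀ y, y ≠ v → LD T y

/-- near `v` the map `h` is a local diffeomorphism after a cone map which is the identity near the
direction `u` -/
def NiceDir (h : E → E) (v u : E) : Prop :=
  ∃ D T : E → E, (∀ᶠ y in 𝓝 v, LD D y) ∧ Hom T v ∧ (∀ᶠ y in 𝓝 (v + u), T y = y) ∧
    h =ᶠ[𝓝 v] fun y => D (T y)

/-- homogeneous singular point -/
def Nice (h : E → E) (v : E) : Prop := ∃ u : E, u ≠ 0 ∧ NiceDir h v u

/-- Block NICE (input ST, CONE): a vertex of the smoothed map is a homogeneous singular point. -/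
def StmtNICE : Prop :=
  ∀ (h : E → E) (Ω Λ : Set E) (v : E), IsOpen Ω → Homeo h Ω Λ → v ∈ Ω → ConeAt h v →
    AffNear h v → (∀ᶠ y in 𝓝[≠] v, LD h y) → Nice h v

/-- the shear to paraboloid coordinates -/
def shr (M : ℝ) (α : ℝ → ℝ) (q : ℝ × ℂ) : ℝ × ℂ :=
  (q.1 + M * (√(α q.1 ^ 2 + ‖q.2‖ ^ 2) - α q.1), q.2)

/-- the fibrewise scaled map -/
def fib (k : ℂ → ℂ) (α : ℝ → ℝ) (q : ℝ × ℂ) : ℝ × ℂ :=
  (q.1, q.2 + persp (fun u => k u - u) q.2 (α q.1))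

/-- the fountain map -/
def fnt (M : ℝ) (k : ℂ → ℂ) (α : ℝ → ℝ) (q : ℝ × ℂ) : ℝ × ℂ :=
  shr M α (fib k α (Function.invFun (shr M α) q))

/-- admissible widths -/
structure Adm (α : ℝ → ℝ) : Prop where
  nonneg : ∀ s, 0 ≤ α s
  anti : Antitone α
  lip : LipschitzWith 1 α
  smooth : ∀ s, 0 < α s → ContDiffAt ℝ ∞ α s

/-- Block FA (input SHEAR, PERSP, INV): the fountain maps have bounded distortion. -/
def StmtFA : Prop :=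
  ∀ (M R : ℝ) (k : ℂ → ℂ), 0 ≤ M → 0 < R → Function.Bijective k → (∀ u, LD k u) →
    (∀ u, R ≤ ‖u‖ → k u = u) → ∃ C : ℝ≥0, ∀ α : ℝ → ℝ, Adm α →
      Function.Bijective (shr M α) ∧ Function.Bijective (fnt M k α) ∧
      LipschitzWith C (fnt M k α) ∧ AntilipschitzWith C (fnt M k α) ∧
      (∀ q : ℝ × ℂ, R * α q.1 ≤ ‖q.2‖ → fnt M k α (shr M α q) = shr M α q) ∧
      (∀ q : ℝ × ℂ, 0 < α q.1 → LD (fnt M k α) (shr M α q)) ∧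
      ∀ q : ℝ × ℂ, (R * α q.1 < ‖q.2‖ ∨ ∀ᶠ s in 𝓝 q.1, α s = 0) →
        ∀ᶠ x in 𝓝 (shr M α q), fnt M k α x = x

/-- Block FB (input SHEAR, INV): normal form of a cone map which is the identity near the
positive axis. -/
def StmtFB : Prop :=
  ∀ T : ℝ × ℂ → ℝ × ℂ, (∀ (q : ℝ × ℂ) (t : ℝ), 0 ≤ t → T (t • q) = t • T q) →
    Function.Bijective T → (∀ q, q ≠ 0 → LD T q) → (∀ᶠ q in 𝓝 ((1 : ℝ), (0 : ℂ)), T q = q) →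
    ∃ (M R : ℝ) (k : ℂ → ℂ) (l : ℝ × ℂ → ℝ), 0 ≤ M ∧ 0 < R ∧ Function.Bijective k ∧
      (∀ u, LD k u) ∧ (∀ u, R ≤ ‖u‖ → k u = u) ∧ (∀ q, 0 < l q) ∧
      (∀ (q : ℝ × ℂ) (t : ℝ), 0 < t → l (t • q) = l q) ∧ (∀ q, q ≠ 0 → ContDiffAt ℝ ∞ l q) ∧
      (∀ᶠ q in 𝓝 ((1 : ℝ), (0 : ℂ)), l q = 1) ∧
      ∀ q, T q = fnt M k (fun s => max (-s) 0) (l q • q)

/-- Block FC (input HOMLIP, INV): smoothing of a radial stretch at the origin. -/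
def StmtFC : Prop :=
  ∀ l : ℝ × ℂ → ℝ, (∀ q, 0 < l q) → (∀ (q : ℝ × ℂ) (t : ℝ), 0 < t → l (t • q) = l q) →
    (∀ q, q ≠ 0 → ContDiffAt ℝ ∞ l q) → ∃ C : ℝ≥0, ∀ ρ : ℝ, 0 < ρ →
      ∃ B : ℝ × ℂ → ℝ × ℂ, Function.Bijective B ∧ (∀ q, LD B q) ∧ LipschitzWith C B ∧
        AntilipschitzWith C B ∧ B 0 = 0 ∧ ∀ q, ρ ≤ ‖q‖ → B q = l q • q

/-- Block FD0 (input M, FA, FB, FC, HOMLIP, INV): the fountain move in coordinates. -/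
def StmtFD0 : Prop :=
  ∀ T : ℝ × ℂ → ℝ × ℂ, (∀ (q : ℝ × ℂ) (t : ℝ), 0 ≤ t → T (t • q) = t • T q) →
    Function.Bijective T → (∀ q, q ≠ 0 → LD T q) → (∀ᶠ q in 𝓝 ((1 : ℝ), (0 : ℂ)), T q = q) →
    ∃ C : ℝ≥0, ∀ ε : ℝ, 0 < ε → ∃ η Tw : ℝ × ℂ → ℝ × ℂ, Function.Bijective η ∧
      LipschitzWith C η ∧ AntilipschitzWith C η ∧
      (∀ q : ℝ × ℂ, η q ≠ q → ‖q.2‖ ≤ ε ∧ -ε ≤ q.1 ∧ q.1 ≤ 1) ∧ ‖η 0‖ ≤ ε ∧
      (∀ q, q ≠ (1, 0) → LD (fun x => T (η x)) q) ∧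
      (∀ (q : ℝ × ℂ) (t : ℝ), 0 ≤ t → Tw ((1, 0) + t • q) = (1, 0) + t • (Tw ((1, 0) + q) - (1, 0))) ∧
      Function.Bijective Tw ∧ (∀ q, q ≠ (1, 0) → LD Tw q) ∧
      (∀ q : ℝ × ℂ, Tw q ≠ q → ‖q.2‖ ≤ ε * ‖q - (1, 0)‖) ∧ η =ᶠ[𝓝 (1, 0)] Tw

/-- Block FOUNT (input FD0): the fountain move. -/
def StmtFOUNT : Prop :=
  ∀ (T : E → E) (v w u : E), Hom T v → w ≠ v → (∀ᶠ y in 𝓝 w, T y = y) →
    (∀ s : ℝ, u ≠ s • (w - v)) → ∃ C : ℝ≥0, ∀ N : Set E, IsOpen N → segment ℝ v w ⊆ N →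
      ∀ B ∈ 𝓝 v, ∃ (η Tw : E → E) (K : Set E), IsCompact K ∧ K ⊆ N ∧ (∀ y, y ∉ K → η y = y) ∧
        Function.Bijective η ∧ LipschitzWith C η ∧ AntilipschitzWith C η ∧ η v ∈ B ∧
        (∀ y, y ≠ w → LD (fun x => T (η x)) y) ∧ Hom Tw w ∧ (∀ᶠ y in 𝓝 (w + u), Tw y = y) ∧
        η =ᶠ[𝓝 w] Tw

/-- a singular point of type `N` at `v` can be moved to `w` inside `V` at small cost -/
def MvN (N : (E → E) → E → Prop) (p : ℝ) (V : Set E) (v w : E) : Prop :=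
  ∀ (h : E → E) (Ω Λ P : Set E) (δ : ℝ≥0∞), IsOpen Ω → IsOpen Λ → V ⊆ Ω → Homeo h Ω Λ →
    Disjoint V P → (∀ x ∈ Ω, x ∉ P → x ≠ v → LD h x) → N h v → En p Ω h < ⊤ → 0 < δ →
    ∃ (h' : E → E) (K : Set E), K ⊆ V ∧ Chg p Ω Λ h h' K δ ∧ h' w = h w ∧
      (∀ x ∈ Ω, x ∉ P → x ≠ w → LD h' x) ∧ N h' w

/-- Block MOVEH (input FOUNT, CV, INV, DIST): moving a homogeneous singular point inside a
convex set. -/
def StmtMOVEH : Prop :=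
  ∀ (p : ℝ) (V : Set E) (v w : E), 1 ≤ p → IsOpen V → Convex ℝ V → v ∈ V → w ∈ V →
    MvN Nice p V v w

/-- Block SWN (input CONN, LF, DIST, EXH, INV): the swindle for an abstract type of singular
points. -/
def StmtSWN : Prop :=
  ∀ (N : (E → E) → E → Prop) (p : ℝ), 1 ≤ p →
    (∀ (h h' : E → E) (x : E), h' =ᶠ[𝓝 x] h → N h x → N h' x) →
    (∀ (V : Set E) (v w : E), IsOpen V → Convex ℝ V → v ∈ V → w ∈ V → MvN N p V v w) →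
    ∀ (h : E → E) (Ω Λ P : Set E) (ε : ℝ≥0∞), IsOpen Ω → IsOpen Λ →
      Bornology.IsBounded Ω → Bornology.IsBounded Λ → Homeo h Ω Λ → LocFin P Ω →
      (∀ x ∈ P, N h x) → (∀ x ∈ Ω, x ∉ P → LD h x) → En p Ω h < ⊤ → 0 < ε →
      ∃ F : E → E, Homeo F Ω Λ ∧ (∀ x ∈ Ω, LD F x) ∧ Dist p Ω F h ≤ ε

/-- The smoothing theorem for all exponents. -/
def StmtMAINH : Prop :=
  ∀ (p : ℝ) (g : E → E) (Ω Λ : Set E) (ε : ℝ≥0∞), 1 ≤ p → IsOpen Ω → IsOpen Λ →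
    Bornology.IsBounded Ω → Bornology.IsBounded Λ → Homeo g Ω Λ →
    (∀ x ∈ Ω, ConeAt g x) → En p Ω g < ⊤ → 0 < ε →
    ∃ F G : E → E, ContDiffOn ℝ ∞ F Ω ∧ ContDiffOn ℝ ∞ G Λ ∧ BijOn F Ω Λ ∧ InvOn G F Ω Λ ∧
      Dist p Ω F g ≤ ε

end Vale.Agent.P073Z.Sv
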